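import Vale.Agent.P042.Gen.Series

/-!
The combination of dilations used by the test polynomial and its value on complete sums.
-/

open Finset
open scoped ArithmeticFunction.Moebius

namespace Vale.Agent.P042.Gen

/-- The large moduli. -/
def bigMods (D P : ℕ) : Finset ℕ := (Icc 1 D).filter fun d => ∀ p ∈ d.primeFactors, P ≤ p

/-- The primes below `P`. -/
noncomputable def smallPrimes (P : ℕ) : List ℕ := ((range P).filter Nat.Prime).toList

/-- The combination of dilations. -/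
noncomputable def comb {V : Type*} [AddCommGroup V] [Module ℝ V] (h : ℝ) (J P D G : ℕ)
    (X : ℕ → V) : V :=
  avg h J (smallPrimes P) fun g₁ => ∑ d ∈ bigMods D P, ∑ x ∈ d.divisorsAntidiagonal,
    ((d : ℝ) ^ (-(1 / (2 * G) : ℝ)) * (μ x.1 : ℝ)) • X (g₁ * x.2)

lemma mem_smallPrimes {P p : ℕ} : p ∈ smallPrimes P ↔ p < P ∧ p.Prime := by
  simp [smallPrimes, mem_toList, mem_filter]

lemma comb_map {V W : Type*} [AddCommGroup V] [Module ℝ V] [AddCommGroup W] [Module ℝ W]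
    (φ : V →ₗ[ℝ] W) (h : ℝ) (J P D G : ℕ) (X : ℕ → V) :
    φ (comb h J P D G X) = comb h J P D G (fun g => φ (X g)) := by
  simp only [comb, avg_map, map_sum, map_smul]

lemma capW_pos {P J : ℕ} : 0 < capW J (smallPrimes P) := by
  refine Nat.pos_of_ne_zero (List.prod_ne_zero fun h => ?_)
  obtain ⟨p, hp, hp'⟩ := List.mem_map.1 h
  exact pow_ne_zero J (mem_smallPrimes.1 hp).2.ne_zero hp'

lemma capW_le (P J : ℕ) : capW J (smallPrimes P) ≤ 2 ^ (P * P * J) := by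
  refine (List.prod_le_pow_card _ (2 ^ (P * J)) fun x hx => ?_).trans ?_
  · obtain ⟨p, hp, rfl⟩ := List.mem_map.1 hx
    rw [pow_mul]
    exact Nat.pow_le_pow_left ((mem_smallPrimes.1 hp).1.le.trans (Nat.lt_two_pow_self).le) J
  · rw [← pow_mul]
    refine Nat.pow_le_pow_right (by norm_num) ?_
    rw [List.length_map, smallPrimes, length_toList, mul_comm]
    calc ((range P).filter Nat.Prime).card * (P * J) ≤ P * (P * J) :=
          Nat.mul_le_mul_right _ ((card_filter_le _ _).trans (card_range P).le)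
      _ = P * P * J := (mul_assoc _ _ _).symm

lemma dom_le {P J D g₁ d : ℕ} (hg : g₁ ∣ capW J (smallPrimes P)) (hd : d ∈ bigMods D P)
    {x : ℕ × ℕ} (hx : x ∈ d.divisorsAntidiagonal) :
    1 ≤ g₁ * x.2 ∧ g₁ * x.2 ≤ 2 ^ (P * P * J) * D := by
  obtain ⟨hx1, hd0⟩ := Nat.mem_divisorsAntidiagonal.1 hx
  have hx2 : 0 < x.2 := Nat.pos_of_ne_zero fun h => hd0 (by rw [← hx1, h, mul_zero])
  have hxd : x.2 ≤ D :=
    (Nat.le_of_dvd (Nat.pos_of_ne_zero hd0) (Dvd.intro_left x.1 hx1)).trans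
      (mem_Icc.1 (mem_filter.1 hd).1).2
  exact ⟨Nat.mul_pos (Nat.pos_of_dvd_of_pos hg capW_pos) hx2,
    Nat.mul_le_mul ((Nat.le_of_dvd capW_pos hg).trans (capW_le P J)) hxd⟩

lemma norm_comb_le {V : Type*} [NormedAddCommGroup V] [NormedSpace ℝ V] {h : ℝ} (h0 : 0 ≤ h)
    (h1 : h ≤ 1) (J P D G : ℕ) {B : ℝ} (hB : 0 ≤ B) (X : ℕ → V)
    (hX : ∀ g₁ ∈ (capW J (smallPrimes P)).divisors, ∀ d ∈ bigMods D P,
      ∀ x ∈ d.divisorsAntidiagonal, ‖X (g₁ * x.2)‖ ≤ B) :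
    ‖comb h J P D G X‖ ≤ (D : ℝ) ^ 2 * B := by
  refine norm_avg_le h0 h1 J _ _ fun g hg => ?_
  refine (norm_sum_le _ _).trans ?_
  refine (sum_le_card_nsmul _ _ ((D : ℝ) * B) fun d hd => ?_).trans ?_
  · have hdI := mem_Icc.1 (mem_filter.1 hd).1
    refine (norm_sum_le _ _).trans ((sum_le_card_nsmul _ _ B fun x hx => ?_).trans ?_)
    · rw [norm_smul]
      refine le_trans (mul_le_of_le_one_left (norm_nonneg _) ?_)
        (hX g (Nat.mem_divisors.2 ⟨hg, capW_pos.ne'⟩) d hd x hx)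
      rw [norm_mul, Real.norm_of_nonneg (by positivity), Real.norm_eq_abs]
      exact mul_le_one₀
        (Real.rpow_le_one_of_one_le_of_nonpos (by exact_mod_cast hdI.1)
          (neg_nonpos.2 (by positivity))) (abs_nonneg _)
        (by exact_mod_cast ArithmeticFunction.abs_moebius_le_one (n := x.1))
    · rw [nsmul_eq_mul, ← Nat.map_div_right_divisors, card_map]
      gcongr
      exact (Nat.card_divisors_le_self d).trans hdI.2
  · rw [nsmul_eq_mul]
    refine (mul_le_mul_of_nonneg_right (show ((bigMods D P).card : ℝ) ≤ D by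
      exact_mod_cast (card_filter_le _ _).trans (by simp)) (by positivity)).trans_eq ?_
    ring

/-- The series of the combination at a fraction `a / q`. -/
theorem comb_phi {f : Polynomial ℤ} {k C G P : ℕ} (hk : f.natDegree ≤ k) (hdec : Decay k C G)
    (hP : 1 ≤ P) {h : ℝ} (hh : ratio G ≤ h) (h1 : h ≤ 1) (J : ℕ) {D : ℕ} (hD : 1 ≤ D) {q : ℕ}
    (hq : 0 < q) {z : ℕ} (hz : (q : ℤ) ∣ f.eval (z : ℤ)) {a : ℤ} (ha : IsCoprime a (q : ℤ))
    {ε₁ ε₂ : ℝ} (hε₁ : (P : ℝ) * ((1 - h) * gain C G) ≤ ε₁)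
    (hε₂ : ∀ q₂, q₂ ∣ q → (∀ p ∈ q₂.primeFactors, P ≤ p) →
      (q₂.primeFactors.card : ℝ) * (2 * gain C G * (P : ℝ) ^ (-(1 / (2 * G) : ℝ))) ≤ ε₂) :
    ∃ S₀ R : ℂ, (S₀ = 0 ∨ Near S₀ (ε₁ + ε₂)) ∧
      comb h J P D G (fun g => phi f z q g a) = S₀ + R ∧
      ‖R‖ ≤ (h ^ J * (1 + gain C G) + (D : ℝ) ^ (-(1 / (2 * G) : ℝ))) * (2 * Real.exp (ε₁ + ε₂)) := by
  have hG := hdec.2.1
  have hgain := gain_nonneg (C := C) hG
  have h0 : 0 < h := lt_of_lt_of_le (ratio_pos G) hh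
  obtain ⟨q₁, q₂, rfl, hcop, hs1, hs2⟩ := exists_split P q hq
  have hq1 : 0 < q₁ := Nat.pos_of_ne_zero fun e => by simp [e] at hq
  have hq2 : 0 < q₂ := Nat.pos_of_ne_zero fun e => by simp [e] at hq
  have : NeZero q₁ := ⟨hq1.ne'⟩
  have : NeZero q₂ := ⟨hq2.ne'⟩
  obtain ⟨u, v, huv⟩ := Nat.isCoprime_iff_coprime.2 hcop
  have ha' : a = a * v * q₂ + a * u * q₁ := by linear_combination (-a) * huv
  rw [Nat.cast_mul] at ha hz
  have hv : IsCoprime (a * v) (q₁ : ℤ) :=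
    ha.of_mul_right_left.mul_left ⟨(q₂ : ℤ), u, by linarith⟩
  have hu : IsCoprime (a * u) (q₂ : ℤ) :=
    ha.of_mul_right_right.mul_left ⟨(q₁ : ℤ), v, by linarith⟩
  have hsmall := small_series hk hdec hh h1 J (smallPrimes P)
    (fun p hp => (mem_smallPrimes.1 hp).2) (nodup_toList _) q₁ hq1
    (fun p hp => mem_smallPrimes.2 ⟨hs1 p hp, Nat.prime_of_mem_primeFactors hp⟩) z (a * v)
    (dvd_trans (dvd_mul_right _ _) hz) hv
  obtain ⟨hnear2, hlam⟩ := big_series hk hdec hP q₂ hq2 hs2 z (a * u)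
    (dvd_trans (dvd_mul_left _ _) hz) hu
  have hω := hε₂ q₂ (dvd_mul_left _ _) hs2
  set S₁ := avg h J (smallPrimes P) fun g => phi f z q₁ g (a * v) with hS₁
  set F₂ := full f z G q₂ (a * u) with hF₂
  set R₂ := ∑ d ∈ q₂.divisors.filter (fun d => ¬ d ≤ D),
    (((d : ℝ) ^ (-(1 / (2 * G) : ℝ)) : ℝ) : ℂ) * psi f z q₂ (a * u) d with hR₂
  have hlen : ((smallPrimes P).length : ℝ) * ((1 - h) * gain C G) ≤ ε₁ := by
    refine le_trans (mul_le_mul_of_nonneg_right ?_ (mul_nonneg (by linarith) hgain)) hε₁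
    rw [smallPrimes, length_toList]
    exact_mod_cast (card_filter_le _ _).trans (card_range P).le
  have htrunc : ∑ d ∈ bigMods D P,
      (((d : ℝ) ^ (-(1 / (2 * G) : ℝ)) : ℝ) : ℂ) * psi f z q₂ (a * u) d = F₂ - R₂ := by
    rw [hF₂, full, hR₂, ← sum_filter_add_sum_filter_not q₂.divisors (· ≤ D), add_sub_cancel_right]
    symm
    refine sum_subset (fun d hd => ?_) fun d hd hd' => ?_
    · rw [mem_filter, Nat.mem_divisors] at hd
      exact mem_filter.2 ⟨mem_Icc.2 ⟨Nat.pos_of_dvd_of_pos hd.1.1 hq2, hd.2⟩,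
        fun p hp => hs2 p (Nat.primeFactors_mono hd.1.1 hq2.ne' hp)⟩
    · simp only [bigMods, mem_filter, mem_Icc] at hd
      rw [psi_eq_zero f z (a * u) hd.1.1 fun hdq => hd'
        (mem_filter.2 ⟨Nat.mem_divisors.2 ⟨hdq, hq2.ne'⟩, hd.1.2⟩), mul_zero]
  have heq : comb h J P D G (fun g => phi f z (q₁ * q₂) g a) = S₁ * (F₂ - R₂) := by
    rw [hS₁, show avg h J (smallPrimes P) (fun g => phi f z q₁ g (a * v)) * (F₂ - R₂) =
      (LinearMap.mulRight ℝ (F₂ - R₂)) (avg h J (smallPrimes P) fun g => phi f z q₁ g (a * v))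
      from rfl, avg_map, comb]
    refine avg_congr h J _ _ _ fun g hg => ?_
    rw [LinearMap.mulRight_apply, ← htrunc, mul_sum]
    refine sum_congr rfl fun d hd => ?_
    simp only [bigMods, mem_filter, mem_Icc] at hd
    rw [psi, mul_left_comm, mul_sum, mul_sum]
    refine sum_congr rfl fun x hx => ?_
    obtain ⟨hx1, hd0⟩ := Nat.mem_divisorsAntidiagonal.1 hx
    have hgq : g.Coprime q₂ := (coprime_capW fun p hp => by
      obtain ⟨hpP, hp'⟩ := mem_smallPrimes.1 hp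
      refine (hp'.coprime_iff_not_dvd).2 fun hd' => ?_
      exact absurd (hs2 p (hp'.mem_primeFactors hd' hq2.ne')) (not_le.2 hpP)).coprime_dvd_left hg
    have hxq : x.2.Coprime q₁ := by
      refine Nat.coprime_of_dvd fun p hp h1 h2 => ?_
      have e1 := hd.2 p (hp.mem_primeFactors (h1.trans (Dvd.intro_left x.1 hx1)) hd0)
      have e2 := hs1 p (hp.mem_primeFactors h2 hq1.ne')
      omega
    rw [ha', phi_mul_coprime f z hcop hgq hxq, ← ha', Complex.real_smul]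
    push_cast
    ring
  have hexp1 : ∀ {t : ℝ}, t ≤ ε₁ → Real.exp t ≤ Real.exp ε₁ := fun h => Real.exp_le_exp.2 h
  have hω0 : 0 ≤ ε₂ := le_trans (mul_nonneg (Nat.cast_nonneg _) (by positivity)) hω
  have hε10 : 0 ≤ ε₁ :=
    le_trans (mul_nonneg (Nat.cast_nonneg P) (mul_nonneg (by linarith) hgain)) hε₁
  have hF₂n : ‖F₂‖ ≤ Real.exp ε₂ := hnear2.norm_le.trans (Real.exp_le_exp.2 hω)
  have hR₂n : ‖R₂‖ ≤ (D : ℝ) ^ (-(1 / (2 * G) : ℝ)) * Real.exp ε₂ := by
    refine (norm_sum_le _ _).trans ?_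
    refine (sum_le_sum (g := fun d => (D : ℝ) ^ (-(1 / (2 * G) : ℝ)) * ‖psi f z q₂ (a * u) d‖)
      fun d hd => ?_).trans ?_
    · rw [norm_mul, Complex.norm_real, Real.norm_of_nonneg (by positivity)]
      refine mul_le_mul_of_nonneg_right (Real.rpow_le_rpow_of_nonpos (by exact_mod_cast hD)
        (by exact_mod_cast (not_le.1 (mem_filter.1 hd).2).le) (neg_nonpos.2 (by positivity)))
        (norm_nonneg _)
    · rw [← mul_sum]
      refine mul_le_mul_of_nonneg_left ((sum_le_sum_of_subset_of_nonneg (filter_subset _ _)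
        fun _ _ _ => norm_nonneg _).trans (hlam.trans (Real.exp_le_exp.2 hω))) (by positivity)
  have hA0 : 0 ≤ h ^ J * (1 + gain C G) := mul_nonneg (pow_nonneg h0.le J) (by linarith)
  rcases hsmall with hN | hT
  · refine ⟨S₁ * F₂, -(S₁ * R₂), Or.inr (((hN.mono hlen).mul (hnear2.mono hω))), by rw [heq]; ring, ?_⟩
    rw [norm_neg, norm_mul, Real.exp_add]
    refine (mul_le_mul (hN.norm_le.trans (hexp1 hlen)) hR₂n (norm_nonneg _)
      (Real.exp_pos _).le).trans ?_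
    have h2 : 0 ≤ (h ^ J * (1 + gain C G)) * (2 * (Real.exp ε₁ * Real.exp ε₂)) := by positivity
    have h3 : 0 ≤ (D : ℝ) ^ (-(1 / (2 * G) : ℝ)) * (Real.exp ε₁ * Real.exp ε₂) := by positivity
    nlinarith
  · refine ⟨0, S₁ * (F₂ - R₂), Or.inl rfl, by rw [heq, zero_add], ?_⟩
    rw [norm_mul]
    have hη1 : (D : ℝ) ^ (-(1 / (2 * G) : ℝ)) ≤ 1 :=
      Real.rpow_le_one_of_one_le_of_nonpos (by exact_mod_cast hD) (neg_nonpos.2 (by positivity))
    have hsum : ‖F₂ - R₂‖ ≤ 2 * Real.exp ε₂ := by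
      refine (norm_sub_le _ _).trans ((add_le_add hF₂n (hR₂n.trans
        (mul_le_of_le_one_left (Real.exp_pos _).le hη1))).trans_eq ?_)
      ring
    refine (mul_le_mul (hT.trans (mul_le_mul_of_nonneg_left (hexp1 hlen) hA0)) hsum (norm_nonneg _)
      (by positivity)).trans ?_
    rw [Real.exp_add]
    have h3 : 0 ≤ (D : ℝ) ^ (-(1 / (2 * G) : ℝ)) * (2 * (Real.exp ε₁ * Real.exp ε₂)) := by
      positivity
    nlinarith

lemma comb_phi_one {f : Polynomial ℤ} {z J P D G : ℕ} {h : ℝ} (hD : 1 ≤ D) (a : ℤ) :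
    comb h J P D G (fun g => phi f z 1 g a) = (1 : ℂ) := by
  simp only [comb, phi_one]
  refine (avg_congr h J _ _ (fun _ => (1 : ℂ)) fun g _ => ?_).trans (avg_const h J 1 _)
  rw [sum_eq_single 1]
  · simp
  · intro d hd hne
    rw [← sum_smul, ← mul_sum]
    have hd1 : 1 ≤ d := (mem_Icc.1 (mem_filter.1 hd).1).1
    have hzero : ∑ x ∈ d.divisorsAntidiagonal, (μ x.1 : ℝ) = 0 := by
      rw [Nat.sum_divisorsAntidiagonal fun e _ => (μ e : ℝ)]
      have h2 : ∑ e ∈ d.divisors, μ e = (μ * ArithmeticFunction.zeta : ArithmeticFunction ℤ) d :=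
        ArithmeticFunction.coe_mul_zeta_apply.symm
      rw [ArithmeticFunction.moebius_mul_coe_zeta, ArithmeticFunction.one_apply, if_neg hne] at h2
      exact_mod_cast h2
    rw [hzero, mul_zero, zero_smul]
  · intro hne
    exact absurd (mem_filter.2 ⟨mem_Icc.2 ⟨le_rfl, hD⟩, by simp⟩) hne

end Vale.Agent.P042.Gen
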