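import Vale.Agent.P042.Gen.Defs
import Vale.Agent.P042.Odd.Weyl

/-!
An elementary power bound for complete exponential sums modulo prime powers.
-/

open Finset

namespace Vale.Agent.P042.Gen

lemma ee_congr {q : ℕ} [NeZero q] {a b : ℤ} (h : (q : ℤ) ∣ a - b) :
    Quad.ee ((a : ℝ) / q) = Quad.ee ((b : ℝ) / q) := by
  rw [Quad.ee_div_eq, Quad.ee_div_eq]
  congr 1
  rw [← sub_eq_zero, ← Int.cast_sub, ZMod.intCast_zmod_eq_zero_iff_dvd]
  exact h

/-- A sum over a range split into residues. -/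
lemma sum_range_split (F : ℕ → ℂ) (A B : ℕ) :
    ∑ y ∈ range (A * B), F y = ∑ r ∈ range A, ∑ y ∈ range B, F (r + A * y) := by
  rw [sum_comm]
  induction B with
  | zero => simp
  | succ B ih =>
    rw [Nat.mul_succ, sum_range_add, sum_range_succ, ih]
    congr 1
    exact sum_congr rfl fun r _ => by rw [add_comm]

/-- The phase of a complete sum. -/
noncomputable def cterm (P : Polynomial ℤ) (q y : ℕ) : ℂ :=
  Quad.ee (((P.eval (y : ℤ) : ℤ) : ℝ) / (q : ℝ))

lemma cterm_add_mul (P : Polynomial ℤ) (q : ℕ) [NeZero q] (y t : ℕ) :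
    cterm P q (y + q * t) = cterm P q y := by
  refine ee_congr (dvd_trans ?_ (Polynomial.sub_dvd_eval_sub _ _ P))
  exact ⟨(t : ℤ), by push_cast; ring⟩

lemma sum_cterm_mul (P : Polynomial ℤ) (q t : ℕ) [NeZero q] :
    ∑ y ∈ range (q * t), cterm P q y = (t : ℂ) * ∑ y ∈ range q, cterm P q y := by
  rw [sum_range_split, mul_sum]
  refine sum_congr rfl fun r _ => ?_
  simp [cterm_add_mul]

/-- A large complete sum makes the top coefficient nearly divisible by the modulus. -/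
lemma weyl_complete (D : ℕ) (hD : 1 ≤ D) : ∃ C E : ℕ, ∀ (q K : ℕ) (P : Polynomial ℤ),
    1 ≤ q → 1 ≤ K → P.natDegree ≤ D → (q : ℝ) / K ≤ ‖∑ y ∈ range q, cterm P q y‖ →
    ∃ u : ℕ, 1 ≤ u ∧ u ≤ C * K ^ E ∧ (q : ℤ) ∣ (u : ℤ) * P.coeff D := by
  obtain ⟨C, E, hW⟩ := Odd.weyl_top D hD
  refine ⟨C, E, fun q K P hq hK hdeg hbig => ?_⟩
  have : NeZero q := ⟨by omega⟩
  set U := C * K ^ E with hU
  have hqr : (0 : ℝ) < q := by exact_mod_cast hq
  have htop : Odd.Top D ((P.coeff D : ℝ) / q)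
      fun n => ((P.eval (n : ℤ) : ℤ) : ℝ) / (q : ℝ) := by
    have h := Odd.Top.sum (d := D) (range (D + 1))
      (fun i => ((P.coeff i : ℝ) / q) * if i = D then 1 else 0)
      (fun i n => ((P.coeff i : ℝ) / q) * (n : ℝ) ^ i)
      fun i hi => Odd.Top.smul _ (Odd.top_pow D i (by have := mem_range.1 hi; omega))
    convert h using 1
    · rw [sum_eq_single D]
      · simp
      · intro i _ hi; simp [hi]
      · intro hD'; exact absurd (mem_range.2 (by omega)) hD'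
    · funext n
      rw [Polynomial.eval_eq_sum_range' (Nat.lt_succ_of_le hdeg)]
      push_cast
      rw [sum_div]
      exact sum_congr rfl fun i _ => by ring
  have hlarge : ((q * (U + 1) : ℕ) : ℝ) / K ≤
      ‖∑ n ∈ range (q * (U + 1)), Odd.circ (((P.eval (n : ℤ) : ℤ) : ℝ) / (q : ℝ))‖ := by
    change _ ≤ ‖∑ n ∈ range (q * (U + 1)), cterm P q n‖
    rw [sum_cterm_mul, norm_mul, Complex.norm_natCast]
    push_cast
    rw [mul_comm (q : ℝ), mul_div_assoc]
    exact mul_le_mul_of_nonneg_left hbig (by positivity)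
  obtain ⟨u, hu1, hu2, a, ha⟩ := hW K (q * (U + 1)) (q * (U + 1)) _ _ hK
    (Nat.mul_pos hq (Nat.succ_pos _)) le_rfl htop hlarge
  refine ⟨u, hu1, hu2, a, ?_⟩
  have hM : (1 : ℝ) ≤ ((q * (U + 1) : ℕ) : ℝ) := by
    exact_mod_cast Nat.mul_pos hq (Nat.succ_pos U)
  have hUr : ((U : ℕ) : ℝ) = (C : ℝ) * (K : ℝ) ^ E := by rw [hU]; push_cast; rfl
  rw [← hUr] at ha
  have h1 : |(u : ℝ) * ((P.coeff D : ℝ) / q) - a| < 1 / q := by
    refine lt_of_le_of_lt (ha.trans (div_le_div_of_nonneg_left (Nat.cast_nonneg _)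
      (by linarith) (le_self_pow₀ hM (by omega)))) ?_
    rw [div_lt_div_iff₀ (by linarith) hqr]
    push_cast
    nlinarith
  have h2 : |((u : ℤ) * P.coeff D - q * a : ℤ)| < 1 := by
    have e : (((u : ℤ) * P.coeff D - q * a : ℤ) : ℝ) =
        q * ((u : ℝ) * ((P.coeff D : ℝ) / q) - a) := by
      push_cast; field_simp
    have : |(((u : ℤ) * P.coeff D - q * a : ℤ) : ℝ)| < 1 := by
      rw [e, abs_mul, abs_of_pos hqr]
      rw [lt_div_iff₀ hqr] at h1
      linarith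
    exact_mod_cast this
  exact sub_eq_zero.1 (Int.abs_lt_one_iff.1 h2)

/-- Along a residue class modulo a small power of `p`, a polynomial is a power of `p` times a
polynomial with a unit coefficient, up to a constant. -/
lemma exists_reduced {p : ℕ} (hp : p.Prime) (R : Polynomial ℤ) {d : ℕ} (hR : R.natDegree ≤ d)
    (hu : ∃ j, 1 ≤ j ∧ j ≤ d ∧ ¬ (p : ℤ) ∣ R.coeff j) (t r : ℕ) :
    ∃ (m : ℕ) (c₀ : ℤ) (P' : Polynomial ℤ), t ≤ m ∧ m ≤ d * t ∧ P'.natDegree ≤ d ∧
      (∃ j, 1 ≤ j ∧ j ≤ d ∧ ¬ (p : ℤ) ∣ P'.coeff j) ∧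
      ∀ y : ℤ, R.eval ((r : ℤ) + (p : ℤ) ^ t * y) = c₀ + (p : ℤ) ^ m * P'.eval y := by
  classical
  set S : Polynomial ℤ := Polynomial.taylor (r : ℤ) R with hS
  -- the largest unit coefficient survives the translation
  obtain ⟨s, hs1, hsd, hsu⟩ : ∃ s, 1 ≤ s ∧ s ≤ d ∧ ¬ (p : ℤ) ∣ S.coeff s := by
    set T := (Icc 1 d).filter fun j => ¬ (p : ℤ) ∣ R.coeff j
    have hT : T.Nonempty := by
      obtain ⟨j, h1, h2, h3⟩ := hu
      exact ⟨j, mem_filter.2 ⟨mem_Icc.2 ⟨h1, h2⟩, h3⟩⟩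
    obtain ⟨hs, hsu⟩ := mem_filter.1 (T.max'_mem hT)
    rw [mem_Icc] at hs
    refine ⟨T.max' hT, hs.1, hs.2, fun hdvd => hsu ?_⟩
    set s := T.max' hT
    rw [hS, Polynomial.taylor_coeff, Polynomial.eval_eq_sum_range' (n := d + 1)
      (lt_of_le_of_lt (((Polynomial.natDegree_hasseDeriv_le _ _).trans (Nat.sub_le _ _)).trans hR)
        (Nat.lt_succ_self d)), sum_range_succ'] at hdvd
    simp only [Polynomial.hasseDeriv_coeff, zero_add, Nat.choose_self, Nat.cast_one, one_mul,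
      pow_zero, mul_one] at hdvd
    refine (dvd_add_right (dvd_sum fun i _ => ?_)).1 hdvd
    refine dvd_mul_of_dvd_left (dvd_mul_of_dvd_right ?_ _) _
    by_cases hle : i + 1 + s ≤ d
    · by_contra hnd
      have hmem : i + 1 + s ∈ T := mem_filter.2 ⟨mem_Icc.2 ⟨by omega, hle⟩, hnd⟩
      have := T.le_max' _ hmem
      omega
    · rw [Polynomial.coeff_eq_zero_of_natDegree_lt (by omega)]
      exact dvd_zero _
  -- the common power of `p`
  let Q : ℕ → Prop := fun m => ∀ j ∈ Icc 1 d, (p : ℤ) ^ m ∣ (p : ℤ) ^ (t * j) * S.coeff j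
  have hQt : Q t := fun j hj => dvd_mul_of_dvd_left
    (pow_dvd_pow _ (Nat.le_mul_of_pos_right t (mem_Icc.1 hj).1)) _
  have hpz : (p : ℤ) ≠ 0 := by exact_mod_cast hp.ne_zero
  have hQb : ∀ m, Q m → m ≤ t * s := by
    intro m hm
    by_contra hlt
    refine hsu ?_
    have h := (pow_dvd_pow (p : ℤ) (show t * s + 1 ≤ m by omega)).trans
      (hm s (mem_Icc.2 ⟨hs1, hsd⟩))
    rw [pow_succ] at h
    exact (mul_dvd_mul_iff_left (pow_ne_zero _ hpz)).1 h
  have htd : t ≤ d * t := Nat.le_mul_of_pos_left t (by omega)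
  set m := Nat.findGreatest Q (d * t)
  have hm : Q m := Nat.findGreatest_spec htd hQt
  have hQm : ¬ Q (m + 1) := fun h => by
    have h1 := (hQb _ h).trans (Nat.mul_le_mul_left t hsd)
    rw [Nat.mul_comm t] at h1
    have := Nat.le_findGreatest (P := Q) h1 h
    omega
  choose! w hw using hm
  set P' : Polynomial ℤ := ∑ j ∈ Icc 1 d, Polynomial.monomial j (w j)
  have hcoeff : ∀ j ∈ Icc 1 d, P'.coeff j = w j := fun j hj => by
    simp only [P', Polynomial.finset_sum_coeff, Polynomial.coeff_monomial, sum_ite_eq', if_pos hj]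
  refine ⟨m, S.coeff 0, P', Nat.le_findGreatest htd hQt, Nat.findGreatest_le _, ?_, ?_, fun y => ?_⟩
  · exact Polynomial.natDegree_sum_le_of_forall_le _ _ fun j hj =>
      (Polynomial.natDegree_monomial_le _).trans (mem_Icc.1 hj).2
  · by_contra hall
    push_neg at hall
    refine hQm fun j hj => ?_
    rw [hw j hj, pow_succ]
    refine mul_dvd_mul_left _ ?_
    rw [← hcoeff j hj]
    exact hall j (mem_Icc.1 hj).1 (mem_Icc.1 hj).2
  · have hSd : S.natDegree ≤ d := by rw [hS, Polynomial.natDegree_taylor]; exact hR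
    have e : R.eval ((r : ℤ) + (p : ℤ) ^ t * y) = S.eval ((p : ℤ) ^ t * y) := by
      rw [hS, Polynomial.taylor_eval, add_comm]
    rw [e, Polynomial.eval_eq_sum_range' (Nat.lt_succ_of_le hSd)]
    simp only [P', Polynomial.eval_finset_sum, Polynomial.eval_monomial]
    have : range (d + 1) = insert 0 (Icc 1 d) := by ext i; simp; omega
    rw [this, sum_insert (by simp), pow_zero, mul_one, mul_sum]
    congr 1
    refine sum_congr rfl fun j hj => ?_
    rw [mul_pow, ← pow_mul]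
    linear_combination (y ^ j) * hw j hj

/-- The norm of a normalised complete sum. -/
noncomputable def cnorm (P : Polynomial ℤ) (q : ℕ) : ℝ :=
  ‖(∑ y ∈ range q, cterm P q y) / (q : ℂ)‖

lemma cnorm_nonneg (P : Polynomial ℤ) (q : ℕ) : 0 ≤ cnorm P q := norm_nonneg _

lemma cnorm_le_one (P : Polynomial ℤ) {q : ℕ} (hq : 1 ≤ q) : cnorm P q ≤ 1 := by
  rw [cnorm, norm_div, Complex.norm_natCast, div_le_one (by exact_mod_cast hq)]
  refine (norm_sum_le _ _).trans ?_
  simp [cterm, Quad.norm_ee]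

/-- The induction step at a small defect of the top coefficient. -/
lemma cnorm_small {p : ℕ} (hp : p.Prime) {d e t : ℕ} (P : Polynomial ℤ)
    (hdeg : P.natDegree ≤ d + 1) (hu : ∃ j, 1 ≤ j ∧ j ≤ d + 1 ∧ ¬ (p : ℤ) ∣ P.coeff j)
    (ht : ((p ^ e : ℕ) : ℤ) ∣ (p : ℤ) ^ t * P.coeff (d + 1)) (hte : 2 * (d + 1) * t < e) :
    ∃ (e' : ℕ) (P' : Polynomial ℤ), e ≤ 2 * e' ∧ P'.natDegree ≤ d ∧
      (∃ j, 1 ≤ j ∧ j ≤ d ∧ ¬ (p : ℤ) ∣ P'.coeff j) ∧ cnorm P (p ^ e) ≤ cnorm P' (p ^ e') := by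
  have : NeZero (p ^ e) := ⟨(pow_pos hp.pos e).ne'⟩
  have hpz : (p : ℤ) ≠ 0 := by exact_mod_cast hp.ne_zero
  have hted : t + 1 ≤ e := by nlinarith
  have hc : (p : ℤ) ∣ P.coeff (d + 1) := by
    push_cast at ht
    have h1 := (pow_dvd_pow (p : ℤ) hted).trans ht
    rw [pow_succ] at h1
    exact (mul_dvd_mul_iff_left (pow_ne_zero _ hpz)).1 h1
  set R := P.erase (d + 1) with hRdef
  have hRdeg : R.natDegree ≤ d := by
    rw [Polynomial.natDegree_le_iff_coeff_eq_zero]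
    intro i hi
    rw [hRdef, Polynomial.coeff_erase]
    split_ifs with h
    · rfl
    · exact Polynomial.coeff_eq_zero_of_natDegree_lt (by omega)
  have hRu : ∃ j, 1 ≤ j ∧ j ≤ d ∧ ¬ (p : ℤ) ∣ R.coeff j := by
    obtain ⟨j, h1, h2, h3⟩ := hu
    have hj : j ≠ d + 1 := by rintro rfl; exact h3 hc
    exact ⟨j, h1, by omega, by rw [hRdef, Polynomial.coeff_erase, if_neg hj]; exact h3⟩
  choose m c₀ P' htm hmd hPd hPu hPe using fun r => exists_reduced hp R hRdeg hRu t r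
  -- each residue class is a complete sum to a smaller modulus
  have hclass : ∀ r, ‖∑ y ∈ range (p ^ (e - t)), cterm P (p ^ e) (r + p ^ t * y)‖ =
      ((p ^ (e - t) : ℕ) : ℝ) * cnorm (P' r) (p ^ (e - m r)) := by
    intro r
    have hmt : m r < e := by have := hmd r; nlinarith
    have : NeZero (p ^ (e - m r)) := ⟨(pow_pos hp.pos _).ne'⟩
    have hterm : ∀ y : ℕ, cterm P (p ^ e) (r + p ^ t * y) =
        Quad.ee (((P.coeff (d + 1) * (r : ℤ) ^ (d + 1) + c₀ r : ℤ) : ℝ) / ((p ^ e : ℕ) : ℝ)) *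
          cterm (P' r) (p ^ (e - m r)) y := by
      intro y
      have hval : ((p ^ e : ℕ) : ℤ) ∣ P.eval ((r + p ^ t * y : ℕ) : ℤ) -
          ((P.coeff (d + 1) * (r : ℤ) ^ (d + 1) + c₀ r) +
            (p : ℤ) ^ m r * (P' r).eval (y : ℤ)) := by
        have e1 : P.eval ((r + p ^ t * y : ℕ) : ℤ) =
            P.coeff (d + 1) * ((r : ℤ) + (p : ℤ) ^ t * y) ^ (d + 1) +
              R.eval ((r : ℤ) + (p : ℤ) ^ t * y) := by
          conv_lhs => rw [← Polynomial.monomial_add_erase P (d + 1)]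
          rw [Polynomial.eval_add, Polynomial.eval_monomial, ← hRdef]
          push_cast
          ring
        rw [e1, hPe]
        obtain ⟨w, hw⟩ : (p : ℤ) ^ t ∣
            ((r : ℤ) + (p : ℤ) ^ t * y) ^ (d + 1) - (r : ℤ) ^ (d + 1) := by
          refine dvd_trans ?_ (sub_dvd_pow_sub_pow _ _ _)
          exact ⟨(y : ℤ), by ring⟩
        refine dvd_trans ht ⟨w, ?_⟩
        linear_combination (P.coeff (d + 1)) * hw
      rw [cterm, ee_congr hval, Int.cast_add, add_div, Quad.ee_add]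
      congr 1
      rw [cterm]
      congr 1
      have hsplit : (p : ℝ) ^ e = (p : ℝ) ^ m r * (p : ℝ) ^ (e - m r) := by
        rw [← pow_add]; congr 1; omega
      have : (p : ℝ) ≠ 0 := by exact_mod_cast hp.ne_zero
      push_cast
      rw [hsplit]
      field_simp
    simp only [hterm]
    rw [← mul_sum, norm_mul, Quad.norm_ee, one_mul,
      show p ^ (e - t) = p ^ (e - m r) * p ^ (m r - t) by
        rw [← pow_add]; congr 1; have := htm r; omega,
      sum_cterm_mul, norm_mul, Complex.norm_natCast, cnorm, norm_div, Complex.norm_natCast]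
    have hp0 : ((p ^ (e - m r) : ℕ) : ℝ) ≠ 0 := by exact_mod_cast (pow_pos hp.pos _).ne'
    push_cast at hp0 ⊢
    field_simp
  obtain ⟨r₀, -, hmax⟩ := exists_max_image (range (p ^ t))
    (fun r => cnorm (P' r) (p ^ (e - m r))) ⟨0, mem_range.2 (pow_pos hp.pos t)⟩
  refine ⟨e - m r₀, P' r₀, ?_, hPd r₀, hPu r₀, ?_⟩
  · have := hmd r₀
    have : 2 * m r₀ ≤ e := by nlinarith
    omega
  · have hq : p ^ e = p ^ t * p ^ (e - t) := by rw [← pow_add]; congr 1; omega
    rw [cnorm, norm_div, Complex.norm_natCast,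
      div_le_iff₀ (by exact_mod_cast pow_pos hp.pos e)]
    calc ‖∑ y ∈ range (p ^ e), cterm P (p ^ e) y‖
        = ‖∑ r ∈ range (p ^ t), ∑ y ∈ range (p ^ (e - t)), cterm P (p ^ e) (r + p ^ t * y)‖ := by
          rw [← sum_range_split, ← hq]
      _ ≤ ∑ r ∈ range (p ^ t), ((p ^ (e - t) : ℕ) : ℝ) * cnorm (P' r₀) (p ^ (e - m r₀)) :=
          (norm_sum_le _ _).trans (sum_le_sum fun r hr => (hclass r).le.trans
            (mul_le_mul_of_nonneg_left (hmax r hr) (Nat.cast_nonneg _)))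
      _ = _ := by
          rw [sum_const, card_range, nsmul_eq_mul, ← mul_assoc, ← Nat.cast_mul, ← hq, mul_comm]

/-- The bound for polynomials of degree at most `d`, by induction on `d`. -/
lemma cnorm_le : ∀ d : ℕ, ∃ C G : ℕ, 1 ≤ C ∧ 1 ≤ G ∧ ∀ (p e : ℕ) (P : Polynomial ℤ), p.Prime →
    P.natDegree ≤ d → (∃ j, 1 ≤ j ∧ j ≤ d ∧ ¬ (p : ℤ) ∣ P.coeff j) →
    cnorm P (p ^ e) ^ G * (p : ℝ) ^ e ≤ C := by
  intro d
  induction d with
  | zero => exact ⟨1, 1, le_rfl, le_rfl, fun p e P _ _ ⟨j, h1, h2, _⟩ => by omega⟩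
  | succ d ih =>
    obtain ⟨C', G', hC', hG', hIH⟩ := ih
    obtain ⟨Cw, Ew, hW⟩ := weyl_complete (d + 1) (by omega)
    refine ⟨(Cw * 2 ^ Ew) ^ (2 * (d + 1)) + C' ^ 2 + 1, Ew * (2 * (d + 1)) + G' * 2 + 1,
      by omega, by omega, fun p e P hp hdeg hu => ?_⟩
    set A := cnorm P (p ^ e) with hA
    have hA0 : 0 ≤ A := cnorm_nonneg _ _
    have hA1 : A ≤ 1 := cnorm_le_one _ (pow_pos hp.pos e)
    have hpe : (0 : ℝ) ≤ (p : ℝ) ^ e := by positivity
    have hp1 : (1 : ℝ) ≤ p := by exact_mod_cast hp.one_le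
    rcases eq_or_lt_of_le hA0 with h0 | hApos
    · rw [← h0, zero_pow (by omega), zero_mul]; positivity
    have hex : ∃ t, ((p ^ e : ℕ) : ℤ) ∣ (p : ℤ) ^ t * P.coeff (d + 1) :=
      ⟨e, by push_cast; exact dvd_mul_right _ _⟩
    set t := Nat.find hex
    have ht := Nat.find_spec hex
    push_cast
    by_cases hte : 2 * (d + 1) * t < e
    · obtain ⟨e', P', he', hd', hu', hle⟩ := cnorm_small hp P hdeg hu ht hte
      have h1 := hIH p e' P' hp hd' hu'
      calc A ^ (Ew * (2 * (d + 1)) + G' * 2 + 1) * (p : ℝ) ^ e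
          ≤ A ^ (G' * 2) * (p : ℝ) ^ (e' * 2) :=
            mul_le_mul (pow_le_pow_of_le_one hA0 hA1 (by omega))
              (pow_le_pow_right₀ hp1 (by omega)) hpe (by positivity)
        _ = (A ^ G' * (p : ℝ) ^ e') ^ 2 := by rw [mul_pow, ← pow_mul, ← pow_mul]
        _ ≤ (C' : ℝ) ^ 2 := pow_le_pow_left₀ (by positivity)
            ((mul_le_mul_of_nonneg_right (pow_le_pow_left₀ hA0 hle _) (by positivity)).trans h1) 2
        _ ≤ _ := by
            have : (0 : ℝ) ≤ ((Cw : ℝ) * 2 ^ Ew) ^ (2 * (d + 1)) := by positivity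
            linarith
    · set K := ⌈1 / A⌉₊
      have hK : 1 ≤ K := Nat.ceil_pos.2 (by positivity)
      have hK2 : (K : ℝ) * A ≤ 2 := by
        have := (Nat.ceil_lt_add_one (show 0 ≤ 1 / A by positivity)).le
        calc (K : ℝ) * A ≤ (1 / A + 1) * A := mul_le_mul_of_nonneg_right this hA0
          _ = 1 + A := by field_simp
          _ ≤ 2 := by linarith
      have hbig : ((p ^ e : ℕ) : ℝ) / K ≤ ‖∑ y ∈ range (p ^ e), cterm P (p ^ e) y‖ := by
        have hKA : 1 ≤ A * K := by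
          have h := Nat.le_ceil (1 / A)
          rw [div_le_iff₀ hApos] at h
          linarith
        have hq : (0 : ℝ) < ((p ^ e : ℕ) : ℝ) := by exact_mod_cast pow_pos hp.pos e
        have hS : ‖∑ y ∈ range (p ^ e), cterm P (p ^ e) y‖ = A * ((p ^ e : ℕ) : ℝ) := by
          rw [hA, cnorm, norm_div, Complex.norm_natCast, div_mul_cancel₀ _ hq.ne']
        rw [hS, div_le_iff₀ (by exact_mod_cast hK)]
        nlinarith
      obtain ⟨u, hu1, hu2, hdvd⟩ := hW (p ^ e) K P (pow_pos hp.pos e) hK hdeg hbig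
      obtain ⟨i, u', hu', rfl⟩ :=
        Nat.exists_eq_pow_mul_and_not_dvd (show u ≠ 0 by omega) p hp.ne_one
      have hti : t ≤ i := by
        refine Nat.find_le ?_
        push_cast at hdvd ⊢
        have hco : IsCoprime ((p : ℤ) ^ e) (u' : ℤ) := by
          refine IsCoprime.pow_left ?_
          rw [Int.isCoprime_iff_nat_coprime]
          simpa using (hp.coprime_iff_not_dvd).2 hu'
        refine hco.dvd_of_dvd_mul_right ?_
        have e' : (p : ℤ) ^ i * P.coeff (d + 1) * (u' : ℤ) =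
            (p : ℤ) ^ i * (u' : ℤ) * P.coeff (d + 1) := by ring
        rw [e']
        exact hdvd
      have hle : (p : ℝ) ^ t ≤ (Cw : ℝ) * (K : ℝ) ^ Ew := by
        have h1 : p ^ t ≤ Cw * K ^ Ew := (Nat.pow_le_pow_right hp.pos hti).trans
          ((Nat.le_mul_of_pos_right _ (Nat.pos_of_ne_zero (by rintro rfl; simp at hu1))).trans hu2)
        exact_mod_cast h1
      calc A ^ (Ew * (2 * (d + 1)) + G' * 2 + 1) * (p : ℝ) ^ e
          ≤ A ^ (Ew * (2 * (d + 1))) * ((p : ℝ) ^ t) ^ (2 * (d + 1)) := by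
            rw [← pow_mul, mul_comm t]
            exact mul_le_mul (pow_le_pow_of_le_one hA0 hA1 (by omega))
              (pow_le_pow_right₀ hp1 (by omega)) hpe (by positivity)
        _ = (A ^ Ew * (p : ℝ) ^ t) ^ (2 * (d + 1)) := by rw [mul_pow, ← pow_mul, ← pow_mul]
        _ ≤ ((Cw : ℝ) * 2 ^ Ew) ^ (2 * (d + 1)) := by
            refine pow_le_pow_left₀ (by positivity) ?_ _
            calc A ^ Ew * (p : ℝ) ^ t ≤ A ^ Ew * ((Cw : ℝ) * (K : ℝ) ^ Ew) :=
                  mul_le_mul_of_nonneg_left hle (by positivity)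
              _ = (Cw : ℝ) * ((K : ℝ) * A) ^ Ew := by rw [mul_pow]; ring
              _ ≤ _ := mul_le_mul_of_nonneg_left
                  (pow_le_pow_left₀ (by positivity) hK2 _) (Nat.cast_nonneg _)
        _ ≤ _ := by
            have : (0 : ℝ) ≤ (C' : ℝ) ^ 2 := by positivity
            linarith

/-- Complete sums modulo prime powers decay like a power of the modulus. -/
theorem norm_complete_le (k : ℕ) : ∃ C G : ℕ, 1 ≤ C ∧ 1 ≤ G ∧
    ∀ (p e : ℕ) (P : Polynomial ℤ), p.Prime → P.natDegree ≤ k →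
      (∃ j, 1 ≤ j ∧ ¬ (p : ℤ) ∣ P.coeff j) →
      ‖(∑ y ∈ range (p ^ e), Quad.ee (((P.eval (y : ℤ) : ℤ) : ℝ) / ((p ^ e : ℕ) : ℝ))) /
          ((p ^ e : ℕ) : ℂ)‖ ^ G * (p : ℝ) ^ e ≤ C := by
  obtain ⟨C, G, hC, hG, h⟩ := cnorm_le k
  refine ⟨C, G, hC, hG, fun p e P hp hdeg hu => h p e P hp hdeg ?_⟩
  obtain ⟨j, h1, h2⟩ := hu
  refine ⟨j, h1, ?_, h2⟩
  by_contra hjk
  exact h2 (by rw [Polynomial.coeff_eq_zero_of_natDegree_lt (by omega)]; exact dvd_zero _)

end Vale.Agent.P042.Gen
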