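import Vale.Agent.P042.Quad.Defs

/-!
Definitions for the bound on sets avoiding the differences of an arbitrary intersective polynomial:
dilated weighted sums along the progressions `n ≡ z (mod g)`, complete sums and the normalised
kernels of the singular integral.
-/

open Finset

namespace Vale.Agent.P042.Gen

/-- A polynomial of degree `k` with nonnegative coefficients and positive constant and leading
coefficients. -/
structure Good (f : Polynomial ℤ) (k : ℕ) : Prop where
  degree : f.natDegree = k
  pos : 1 ≤ k
  nonneg : ∀ j, 0 ≤ f.coeff j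
  const : 0 < f.coeff 0
  lead : 0 < f.coeff k

/-- The polynomial on the reals. -/
noncomputable def fR (f : Polynomial ℤ) (x : ℝ) : ℝ := (f.map (Int.castRingHom ℝ)).eval x

/-- Its derivative on the reals. -/
noncomputable def fR' (f : Polynomial ℤ) (x : ℝ) : ℝ :=
  (f.derivative.map (Int.castRingHom ℝ)).eval x

/-- The Fejér weight. -/
noncomputable def wt (f : Polynomial ℤ) (M : ℕ) (x : ℝ) : ℝ :=
  fR' f x * (fR f M - fR f x)

/-- The range of values of the polynomial on `[0, M]`. -/
noncomputable def span (f : Polynomial ℤ) (M : ℕ) : ℝ := fR f M - fR f 0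

/-- The dilated weighted sum over `n ≡ z (mod g)`. -/
noncomputable def dil (f : Polynomial ℤ) (z M g : ℕ) (θ : ℝ) : ℝ :=
  g * ∑ n ∈ (range M).filter (fun n => n % g = z % g),
    wt f M n * Real.cos (2 * Real.pi * θ * fR f n)

/-- The normalised complete sum along `z + g y`. -/
noncomputable def phi (f : Polynomial ℤ) (z q g : ℕ) (a : ℤ) : ℂ :=
  (∑ y ∈ range q, Quad.ee (((a * f.eval ((z + g * y : ℕ) : ℤ) : ℤ) : ℝ) / q)) / q

/-- The normalised cosine kernel. -/
noncomputable def kerC (x : ℝ) : ℝ := if x = 0 then 1 / 2 else (1 - Real.cos x) / x ^ 2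

/-- The normalised sine kernel. -/
noncomputable def kerS (x : ℝ) : ℝ := (x - Real.sin x) / x ^ 2

end Vale.Agent.P042.Gen
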