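import Vale.Agent.P042.Gen.Defs

/-!
A geometric mixture of scales keeps the singular integral inside a sector.
-/

open Finset

namespace Vale.Agent.P042.Gen

lemma kerC_nonneg (x : ℝ) : 0 ≤ kerC x := by
  unfold kerC
  split_ifs with h
  · norm_num
  · exact div_nonneg (sub_nonneg.2 (Real.cos_le_one x)) (sq_nonneg x)

lemma kerC_le_half (x : ℝ) : kerC x ≤ 1 / 2 := by
  unfold kerC
  split_ifs with h
  · exact le_rfl
  · rw [div_le_iff₀ (by positivity)]
    linarith [Real.one_sub_sq_div_two_le_cos (x := x)]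

/-- Near the origin the cosine kernel is bounded below. -/
lemma eighth_le_kerC {x : ℝ} (hx : |x| ≤ 2) : 1 / 8 ≤ kerC x := by
  unfold kerC
  split_ifs with h
  · norm_num
  · have hpi := Real.pi_gt_three
    have hpi4 := Real.pi_lt_four
    have h1 := Real.cos_le_one_sub_mul_cos_sq (x := x) (by linarith)
    rw [le_div_iff₀ (by positivity)]
    have h2 : 1 / 8 ≤ 2 / Real.pi ^ 2 := by
      rw [div_le_div_iff₀ (by norm_num) (by positivity)]; nlinarith
    nlinarith [mul_le_mul_of_nonneg_right h2 (sq_nonneg x)]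

lemma abs_kerS_neg (x : ℝ) : |kerS (-x)| = |kerS x| := by
  rw [kerS, kerS, Real.sin_neg, neg_sq, ← neg_sub', neg_div, abs_neg]

lemma abs_kerS_le_one (x : ℝ) : |kerS x| ≤ 1 := by
  have key : ∀ y : ℝ, 0 ≤ y → |kerS y| ≤ 1 := by
    intro y hy
    rcases hy.eq_or_lt with rfl | hy
    · simp [kerS]
    have hs : Real.sin y ≤ y := Real.sin_le hy.le
    rw [kerS, abs_div, abs_of_nonneg (by linarith : 0 ≤ y - Real.sin y), abs_of_pos (by positivity),
      div_le_one (by positivity)]
    rcases le_or_gt y 1 with h1 | h1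
    · have := Real.sin_gt_sub_cube hy
      nlinarith [mul_le_mul_of_nonneg_left h1 (sq_nonneg y)]
    · rcases le_or_gt y 2 with h2 | h2
      · have := Real.sin_nonneg_of_nonneg_of_le_pi hy.le (by linarith [Real.pi_gt_three])
        nlinarith
      · have := Real.neg_one_le_sin y
        nlinarith
  rcases le_total 0 x with h | h
  · exact key x h
  · rw [← abs_kerS_neg]; exact key (-x) (by linarith)

lemma abs_kerS_le_inv {x : ℝ} (hx : 1 ≤ |x|) : |kerS x| ≤ 2 / |x| := by
  have h1 : |x - Real.sin x| ≤ 2 * |x| := by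
    have := abs_sub x (Real.sin x)
    have := Real.abs_sin_le_one x
    linarith
  have hx0 : 0 < |x| := by linarith
  rw [kerS, abs_div, abs_pow, div_le_div_iff₀ (by positivity) hx0]
  nlinarith

/-- The scales above the critical one. -/
lemma head_le (x : ℝ) (u : ℕ → ℝ) : ∀ m : ℕ,
    (∀ j < m, 2 * (2 : ℝ) ^ (m - 1 - j) ≤ |x * u j|) →
    ∑ j ∈ range m, (3 / 4 : ℝ) ^ j * |kerS (x * u j)| ≤ 4 * (3 / 4 : ℝ) ^ m := by
  intro m h
  have h2 : ∀ n : ℕ, ∑ j ∈ range n, (3 / 4 : ℝ) ^ j * (1 / 2) ^ (n - 1 - j) ≤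
      4 * (3 / 4 : ℝ) ^ n := by
    intro n
    induction n with
    | zero => simp
    | succ n ih =>
      rw [sum_range_succ, Nat.add_sub_cancel, Nat.sub_self, pow_zero, mul_one, pow_succ (3 / 4 : ℝ)]
      have e : ∑ j ∈ range n, (3 / 4 : ℝ) ^ j * (1 / 2) ^ (n - j) =
          1 / 2 * ∑ j ∈ range n, (3 / 4 : ℝ) ^ j * (1 / 2) ^ (n - 1 - j) := by
        rw [mul_sum]
        refine sum_congr rfl fun j hj => ?_
        have := mem_range.1 hj
        rw [show n - j = n - 1 - j + 1 by omega, pow_succ]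
        ring
      rw [e]
      linarith
  refine le_trans (sum_le_sum fun j hj => ?_) (h2 m)
  have hb := h j (mem_range.1 hj)
  have hp : (1 : ℝ) ≤ (2 : ℝ) ^ (m - 1 - j) := one_le_pow₀ (by norm_num)
  refine mul_le_mul_of_nonneg_left ((abs_kerS_le_inv (by linarith)).trans ?_) (by positivity)
  rw [one_div_pow, div_le_div_iff₀ (by linarith) (by positivity)]
  linarith

/-- Mixing scales that at least halve, with weights `(3 / 4) ^ j`. -/
theorem kernel_sector : ∃ K : ℝ, 0 ≤ K ∧ ∀ (n : ℕ) (x : ℝ) (u : ℕ → ℝ),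
    (∀ j ≤ n, 0 < u j) → (∀ j < n, 2 * u (j + 1) ≤ u j) →
    |∑ j ∈ range (n + 1), (3 / 4 : ℝ) ^ j * kerS (x * u j)| ≤
      K * ∑ j ∈ range (n + 1), (3 / 4 : ℝ) ^ j * kerC (x * u j) + K * (3 / 4 : ℝ) ^ n := by
  classical
  refine ⟨64, by norm_num, fun n x u hu hhalf => ?_⟩
  have hC : 0 ≤ ∑ j ∈ range (n + 1), (3 / 4 : ℝ) ^ j * kerC (x * u j) :=
    sum_nonneg fun j _ => mul_nonneg (by positivity) (kerC_nonneg _)
  have htri : |∑ j ∈ range (n + 1), (3 / 4 : ℝ) ^ j * kerS (x * u j)| ≤
      ∑ j ∈ range (n + 1), (3 / 4 : ℝ) ^ j * |kerS (x * u j)| := by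
    refine (abs_sum_le_sum_abs _ _).trans (le_of_eq (sum_congr rfl fun j _ => ?_))
    rw [abs_mul, abs_of_nonneg (by positivity : (0 : ℝ) ≤ (3 / 4) ^ j)]
  -- while the last of the first `m` scales is large, the earlier ones are larger still
  have hgrow : ∀ m, m ≤ n + 1 → (∀ j < m, 2 < |x * u j|) →
      ∀ j < m, 2 * (2 : ℝ) ^ (m - 1 - j) ≤ |x * u j| := by
    intro m hm hbig
    induction m with
    | zero => intro j hj; omega
    | succ m ih =>
      intro j hj
      rcases Nat.lt_succ_iff_lt_or_eq.1 hj with hlt | rfl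
      · have h1 := hhalf j (by omega)
        have h2 : 2 * |x * u (j + 1)| ≤ |x * u j| := by
          rw [abs_mul, abs_mul, abs_of_pos (hu j (by omega)), abs_of_pos (hu (j + 1) (by omega))]
          nlinarith [abs_nonneg x]
        have h3 : 2 * (2 : ℝ) ^ (m + 1 - 1 - (j + 1)) ≤ |x * u (j + 1)| := by
          rcases eq_or_ne (j + 1) m with he | he
          · rw [show m + 1 - 1 - (j + 1) = 0 by omega, pow_zero, mul_one]
            exact (hbig (j + 1) (by omega)).le
          · -- both endpoints are among the first `m` scales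
            have : ∀ d i, i + d = m → 2 * (2 : ℝ) ^ d ≤ |x * u i| := by
              intro d
              induction d with
              | zero => intro i hi; rw [pow_zero, mul_one]; exact (hbig i (by omega)).le
              | succ d ihd =>
                intro i hi
                have h4 := ihd (i + 1) (by omega)
                have h5 := hhalf i (by omega)
                have h6 : 2 * |x * u (i + 1)| ≤ |x * u i| := by
                  rw [abs_mul, abs_mul, abs_of_pos (hu i (by omega)),
                    abs_of_pos (hu (i + 1) (by omega))]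
                  nlinarith [abs_nonneg x]
                rw [pow_succ]
                linarith
            exact this _ _ (by omega)
        rw [show m + 1 - 1 - j = (m + 1 - 1 - (j + 1)) + 1 by omega, pow_succ]
        linarith
      · rw [Nat.add_sub_cancel, Nat.sub_self, pow_zero, mul_one]
        exact (hbig j (Nat.lt_succ_self j)).le
  refine htri.trans ?_
  by_cases hex : ∃ j, j ≤ n ∧ |x * u j| ≤ 2
  · set j0 := Nat.find hex with hj0
    obtain ⟨hj0n, hj0x⟩ := Nat.find_spec hex
    have hbig : ∀ j < j0, 2 < |x * u j| := by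
      intro j hj
      have := Nat.find_min hex hj
      push Not at this
      exact this (by omega)
    have h1 := head_le x u j0 (hgrow j0 (by omega) hbig)
    rw [show n + 1 = j0 + (n + 1 - j0) by omega] at hC ⊢
    rw [sum_range_add]
    have h2 : ∑ i ∈ range (n + 1 - j0), (3 / 4 : ℝ) ^ (j0 + i) * |kerS (x * u (j0 + i))| ≤
        4 * (3 / 4 : ℝ) ^ j0 := by
      refine (sum_le_sum (g := fun i => (3 / 4 : ℝ) ^ (j0 + i)) fun i _ =>
        mul_le_of_le_one_right (by positivity) (abs_kerS_le_one _)).trans ?_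
      simp only [pow_add, ← mul_sum]
      rw [geom_sum_eq (by norm_num)]
      have hb : 0 ≤ (3 / 4 : ℝ) ^ (n + 1 - j0) := by positivity
      have ha : 0 ≤ (3 / 4 : ℝ) ^ j0 := by positivity
      rw [show ((3 / 4 : ℝ) ^ (n + 1 - j0) - 1) / (3 / 4 - 1) = 4 * (1 - (3 / 4) ^ (n + 1 - j0)) by
        field_simp; ring]
      nlinarith
    have h3 : (3 / 4 : ℝ) ^ j0 * (1 / 8) ≤
        ∑ j ∈ range (j0 + (n + 1 - j0)), (3 / 4 : ℝ) ^ j * kerC (x * u j) :=
      (mul_le_mul_of_nonneg_left (eighth_le_kerC hj0x) (by positivity)).trans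
        (single_le_sum (f := fun j => (3 / 4 : ℝ) ^ j * kerC (x * u j))
          (fun j _ => mul_nonneg (by positivity) (kerC_nonneg _))
          (mem_range.2 (by omega : j0 < j0 + (n + 1 - j0))))
    have h4 : 0 ≤ (3 / 4 : ℝ) ^ n := by positivity
    linarith
  · push Not at hex
    have h1 := head_le x u (n + 1) (hgrow (n + 1) le_rfl fun j hj => hex j (by omega))
    rw [pow_succ] at h1
    have h4 : 0 ≤ (3 / 4 : ℝ) ^ n := by positivity
    linarith

end Vale.Agent.P042.Gen
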