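import Vale.Agent.P042.Gen.Phi
import Vale.Agent.P042.Gen.Complete

/-!
One prime: the weighted series along an integer root is a nonnegative number times a factor close
to one, or is tiny.
-/

open Finset

namespace Vale.Agent.P042.Gen

/-- `S` is a number in `[0, 1]` times a factor within `exp ε - 1` of one. -/
def Near (S : ℂ) (ε : ℝ) : Prop :=
  ∃ H : ℝ, 0 ≤ H ∧ H ≤ 1 ∧ ‖S - (H : ℂ)‖ ≤ H * (Real.exp ε - 1)

lemma Near.one : Near 1 0 := ⟨1, zero_le_one, le_rfl, by simp⟩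

lemma Near.norm_le {S : ℂ} {ε : ℝ} (h : Near S ε) : ‖S‖ ≤ Real.exp ε := by
  obtain ⟨H, h0, h1, h2⟩ := h
  have h3 : 0 ≤ Real.exp ε - 1 ∨ H = 0 := by
    rcases eq_or_lt_of_le h0 with e | e
    · exact Or.inr e.symm
    · exact Or.inl (nonneg_of_mul_nonneg_right (le_trans (norm_nonneg _) h2) e)
  have h4 : ‖S‖ ≤ H * Real.exp ε := by
    refine (norm_le_norm_add_norm_sub' S (H : ℂ)).trans ?_
    rw [Complex.norm_real, Real.norm_of_nonneg h0]
    linarith
  exact h4.trans (mul_le_of_le_one_left (Real.exp_pos ε).le h1)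

lemma Near.mono {S : ℂ} {ε ε' : ℝ} (h : Near S ε) (hε : ε ≤ ε') : Near S ε' := by
  obtain ⟨H, h0, h1, h2⟩ := h
  exact ⟨H, h0, h1, h2.trans (mul_le_mul_of_nonneg_left
    (sub_le_sub_right (Real.exp_le_exp.2 hε) 1) h0)⟩

lemma Near.mul {S S' : ℂ} {ε ε' : ℝ} (h : Near S ε) (h' : Near S' ε') :
    Near (S * S') (ε + ε') := by
  obtain ⟨H, h0, h1, h2⟩ := h
  obtain ⟨H', h0', h1', h2'⟩ := h'
  refine ⟨H * H', mul_nonneg h0 h0', mul_le_one₀ h1 h0' h1', ?_⟩
  have hn : ‖S'‖ ≤ H' * Real.exp ε' := by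
    refine (norm_le_norm_add_norm_sub' S' (H' : ℂ)).trans ?_
    rw [Complex.norm_real, Real.norm_of_nonneg h0']
    linarith
  rw [show S * S' - ((H * H' : ℝ) : ℂ) = (S - H) * S' + (H : ℂ) * (S' - H') by push_cast; ring]
  refine (norm_add_le _ _).trans ?_
  rw [norm_mul, norm_mul, Complex.norm_real, Real.norm_of_nonneg h0]
  have hH : 0 ≤ H * (Real.exp ε - 1) := le_trans (norm_nonneg _) h2
  refine (add_le_add (mul_le_mul h2 hn (norm_nonneg _) hH)
    (mul_le_mul_of_nonneg_left h2' h0)).trans_eq ?_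
  rw [Real.exp_add]; ring

lemma geom_tail {x : ℝ} (hx : 0 ≤ x) (hx1 : x < 1) (n : ℕ) :
    ∑ i ∈ range n, x ^ (n - i) ≤ x / (1 - x) := by
  induction n with
  | zero => simp; exact div_nonneg hx (by linarith)
  | succ n ih =>
    rw [sum_range_succ]
    have : ∑ i ∈ range n, x ^ (n + 1 - i) = x * ∑ i ∈ range n, x ^ (n - i) := by
      rw [mul_sum]
      refine sum_congr rfl fun i hi => ?_
      rw [show n + 1 - i = n - i + 1 by have := mem_range.1 hi; omega, pow_succ]; ring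
    rw [this, show n + 1 - n = 1 by omega, pow_one]
    have h' := mul_le_mul_of_nonneg_left ih hx
    have e : x * (x / (1 - x)) + x = x / (1 - x) := by
      have : (1 : ℝ) - x ≠ 0 := by linarith
      field_simp
      ring
    linarith

/-- The capped geometric weights. -/
noncomputable def pw (h : ℝ) (J i : ℕ) : ℝ := if i < J then (1 - h) * h ^ i else h ^ J

lemma sum_pw (h : ℝ) (J : ℕ) (X : ℕ → ℂ) :
    ∑ i ∈ range (J + 1), (pw h J i : ℂ) * X i =
      (1 - (h : ℂ)) * (∑ i ∈ range J, (h : ℂ) ^ i * X i) + (h : ℂ) ^ J * X J := by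
  rw [sum_range_succ, mul_sum]
  congr 1
  · refine sum_congr rfl fun i hi => ?_
    rw [pw, if_pos (mem_range.1 hi)]; push_cast; ring
  · rw [pw, if_neg (lt_irrefl J)]; push_cast; rfl

lemma pw_nonneg {h : ℝ} (h0 : 0 ≤ h) (h1 : h ≤ 1) (J i : ℕ) : 0 ≤ pw h J i := by
  rw [pw]; split_ifs
  · exact mul_nonneg (by linarith) (pow_nonneg h0 _)
  · exact pow_nonneg h0 _

lemma sum_pw_eq_one (h : ℝ) : ∀ J : ℕ, ∑ i ∈ range (J + 1), pw h J i = 1 := by
  intro J
  rw [sum_range_succ]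
  have : ∀ J : ℕ, ∑ i ∈ range J, (1 - h) * h ^ i = 1 - h ^ J := by
    intro J
    induction J with
    | zero => simp
    | succ J ih => rw [sum_range_succ, ih]; ring
  rw [sum_congr rfl fun i hi => show pw h J i = (1 - h) * h ^ i by
    rw [pw, if_pos (mem_range.1 hi)], this, pw, if_neg (lt_irrefl J)]
  ring

/-- Abstract series: values that are small before the cut `i₀` and equal to one from it on. -/
lemma series_near {h ρ r A : ℝ} (h0 : 0 < h) (h1 : h ≤ 1) (hρ0 : 0 ≤ ρ) (hρ : ρ ≤ r * h)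
    (hr : r < 1) (hA : 0 ≤ A) (Φ : ℕ → ℂ) (i₀ J : ℕ) (hone : ∀ i, i₀ ≤ i → Φ i = 1)
    (hsmall : ∀ i < i₀, ‖Φ i‖ ≤ A * ρ ^ (i₀ - i)) (hle : ∀ i, ‖Φ i‖ ≤ 1) :
    (i₀ ≤ J → Near (∑ i ∈ range (J + 1), (pw h J i : ℂ) * Φ i)
      ((1 - h) * (A * (ρ / h) / (1 - r)))) ∧
    (J < i₀ → ‖∑ i ∈ range (J + 1), (pw h J i : ℂ) * Φ i‖ ≤ h ^ J * (1 + A / (1 - r))) := by
  have hr0 : 0 ≤ r := nonneg_of_mul_nonneg_left (hρ0.trans hρ) h0
  have hx : ρ / h ≤ r := by rwa [div_le_iff₀ h0]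
  have hx0 : 0 ≤ ρ / h := div_nonneg hρ0 h0.le
  have hgeo : ∀ n, ∑ i ∈ range n, (ρ / h) ^ (n - i) ≤ (ρ / h) / (1 - r) := fun n =>
    (geom_tail hx0 (lt_of_le_of_lt hx hr) n).trans
      (div_le_div_of_nonneg_left hx0 (by linarith) (by linarith))
  have hbound : ∀ n ≤ i₀, ‖∑ i ∈ range n, (h : ℂ) ^ i * Φ i‖ ≤ h ^ n * (A * (ρ / h) / (1 - r)) := by
    intro n hn
    refine (norm_sum_le _ _).trans ?_
    have hterm : ∀ i ∈ range n, ‖(h : ℂ) ^ i * Φ i‖ ≤ h ^ n * (A * (ρ / h) ^ (n - i)) := by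
      intro i hi
      have hin : i < n := mem_range.1 hi
      rw [norm_mul, norm_pow, Complex.norm_real, Real.norm_of_nonneg h0.le]
      have hρ1 : ρ ≤ 1 := hρ.trans (mul_le_one₀ hr.le h0.le h1)
      have hstep : ρ ^ (i₀ - i) ≤ ρ ^ (n - i) := pow_le_pow_of_le_one hρ0 hρ1 (by omega)
      refine (mul_le_mul_of_nonneg_left ((hsmall i (by omega)).trans
        (mul_le_mul_of_nonneg_left hstep hA)) (pow_nonneg h0.le i)).trans_eq ?_
      rw [div_pow, ← pow_mul_pow_sub h hin.le]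
      field_simp
    refine (sum_le_sum hterm).trans ?_
    rw [← mul_sum, ← mul_sum, mul_div_assoc]
    exact mul_le_mul_of_nonneg_left (mul_le_mul_of_nonneg_left (hgeo n) hA) (pow_nonneg h0.le n)
  constructor
  · intro hJ
    have key : ∑ i ∈ range (J + 1), (pw h J i : ℂ) * Φ i =
        (1 - (h : ℂ)) * (∑ i ∈ range i₀, (h : ℂ) ^ i * Φ i) + (h : ℂ) ^ i₀ := by
      rw [sum_pw]
      obtain ⟨t, rfl⟩ : ∃ t, J = i₀ + t := ⟨J - i₀, by omega⟩
      clear hJ
      induction t with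
      | zero => simp [hone i₀ le_rfl]
      | succ t ih =>
        rw [← Nat.add_assoc, sum_range_succ, hone (i₀ + t) (by omega),
          hone (i₀ + t + 1) (by omega), ← ih, hone (i₀ + t) (by omega), pow_succ]
        ring
    refine ⟨h ^ i₀, pow_nonneg h0.le _, pow_le_one₀ h0.le h1, ?_⟩
    rw [key, Complex.ofReal_pow, add_sub_cancel_right, norm_mul,
      show (1 - (h : ℂ)) = ((1 - h : ℝ) : ℂ) by push_cast; ring, Complex.norm_real,
      Real.norm_of_nonneg (by linarith)]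
    set B := A * (ρ / h) / (1 - r) with hB
    have hB0 : 0 ≤ B := div_nonneg (mul_nonneg hA hx0) (by linarith)
    calc (1 - h) * ‖∑ i ∈ range i₀, (h : ℂ) ^ i * Φ i‖
        ≤ (1 - h) * (h ^ i₀ * B) := mul_le_mul_of_nonneg_left (hbound i₀ le_rfl) (by linarith)
      _ = h ^ i₀ * ((1 - h) * B) := by ring
      _ ≤ h ^ i₀ * (Real.exp ((1 - h) * B) - 1) := by
          refine mul_le_mul_of_nonneg_left ?_ (pow_nonneg h0.le _)
          linarith [Real.add_one_le_exp ((1 - h) * B)]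
  · intro hJ
    rw [sum_pw]
    refine (norm_add_le _ _).trans ?_
    rw [norm_mul, norm_mul, show (1 - (h : ℂ)) = ((1 - h : ℝ) : ℂ) by push_cast; ring,
      Complex.norm_real, Real.norm_of_nonneg (by linarith), norm_pow, Complex.norm_real,
      Real.norm_of_nonneg h0.le, mul_add, mul_one]
    have e1 : (1 - h) * ‖∑ i ∈ range J, (h : ℂ) ^ i * Φ i‖ ≤ h ^ J * (A / (1 - r)) := by
      refine (mul_le_mul (show 1 - h ≤ 1 by linarith) (hbound J hJ.le) (norm_nonneg _)
        zero_le_one).trans ?_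
      rw [one_mul]
      refine mul_le_mul_of_nonneg_left ?_ (pow_nonneg h0.le J)
      exact div_le_div_of_nonneg_right (mul_le_of_le_one_right hA (hx.trans hr.le)) (by linarith)
    have e2 : h ^ J * ‖Φ J‖ ≤ h ^ J := mul_le_of_le_one_right (pow_nonneg h0.le J) (hle J)
    linarith

/-- The values at one prime power. -/
lemma phi_prime_pow {f : Polynomial ℤ} {k C G : ℕ} (hk : f.natDegree ≤ k) (hC : 1 ≤ C) (hG : 1 ≤ G)
    (hcomp : ∀ (p e : ℕ) (P : Polynomial ℤ), p.Prime → P.natDegree ≤ k →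
      (∃ j, 1 ≤ j ∧ ¬ (p : ℤ) ∣ P.coeff j) →
      ‖(∑ y ∈ range (p ^ e), Quad.ee (((P.eval (y : ℤ) : ℤ) : ℝ) / ((p ^ e : ℕ) : ℝ))) /
          ((p ^ e : ℕ) : ℂ)‖ ^ G * (p : ℝ) ^ e ≤ C)
    {p : ℕ} (hp : p.Prime) (e z : ℕ) (hz : ((p ^ e : ℕ) : ℤ) ∣ f.eval (z : ℤ)) {a : ℤ}
    (ha : e = 0 ∨ ¬ (p : ℤ) ∣ a) :
    ∃ i₀ ≤ e, (∀ i, i₀ ≤ i → phi f z (p ^ e) (p ^ i) a = 1) ∧
      ∀ i < i₀, ‖phi f z (p ^ e) (p ^ i) a‖ ≤ C * ((p : ℝ) ^ (-(1 / G : ℝ))) ^ (i₀ - i) := by
  classical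
  set c : Polynomial ℤ := Polynomial.taylor (z : ℤ) f with hc
  let Dv : ℕ → ℕ → Prop := fun i t => ∀ j, 1 ≤ j → (p : ℤ) ^ t ∣ c.coeff j * (p : ℤ) ^ (i * j)
  have hshift : ∀ i s t, Dv i t → Dv (i + s) (t + s) := by
    intro i s t h j hj
    rw [add_mul, pow_add (p : ℤ) (i * j), pow_add, ← mul_assoc]
    exact mul_dvd_mul (h j hj) (pow_dvd_pow _ (Nat.le_mul_of_pos_right s hj))
  have hdown : ∀ i t t', t' ≤ t → Dv i t → Dv i t' := fun i t t' htt h j hj =>
    (pow_dvd_pow _ htt).trans (h j hj)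
  have he : Dv e e := fun j hj =>
    Dvd.dvd.mul_left (pow_dvd_pow _ (Nat.le_mul_of_pos_right e hj)) _
  have hex : ∃ i, Dv i e := ⟨e, he⟩
  refine ⟨Nat.find hex, Nat.find_le he, ?_, ?_⟩
  all_goals intro i hi
  · have hD : Dv i e := by
      obtain ⟨s, rfl⟩ : ∃ s, i = Nat.find hex + s := ⟨i - Nat.find hex, by omega⟩
      exact hdown _ _ e (by omega) (hshift _ s _ (Nat.find_spec hex))
    rw [phi_eq, div_eq_one_iff_eq (Nat.cast_ne_zero.2 (pow_ne_zero _ hp.ne_zero))]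
    have : ∀ y : ℕ, phase f (p ^ e) a (z + p ^ i * y) = 1 := by
      intro y
      obtain ⟨m, hm⟩ : ((p ^ e : ℕ) : ℤ) ∣ a * f.eval ((z + p ^ i * y : ℕ) : ℤ) := by
        refine Dvd.dvd.mul_left ?_ a
        have e1 : f.eval ((z + p ^ i * y : ℕ) : ℤ) = c.eval ((p : ℤ) ^ i * y) := by
          rw [hc, Polynomial.taylor_eval]; push_cast; ring_nf
        rw [e1, Polynomial.eval_eq_sum_range]
        refine dvd_sum fun j _ => ?_
        rcases Nat.eq_zero_or_pos j with rfl | hj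
        · simpa [hc, Polynomial.taylor_coeff_zero] using hz
        · rw [mul_pow, ← mul_assoc, ← pow_mul]
          exact Dvd.dvd.mul_right (by exact_mod_cast hD j hj) _
      rw [phase, hm, Int.cast_mul, Int.cast_natCast, mul_div_cancel_left₀ _
        (Nat.cast_ne_zero.2 (pow_ne_zero _ hp.ne_zero)), Quad.ee_int]
    simp [this]
  · have hlt := Nat.find_min hex hi
    set t := Nat.findGreatest (Dv i) e with ht
    have ht' : Dv i t := Nat.findGreatest_spec (P := Dv i) (Nat.zero_le e) fun j _ => by simp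
    have hte : t < e := lt_of_le_of_ne (Nat.findGreatest_le e) fun h => hlt (h ▸ ht')
    have htop : t + (Nat.find hex - i) ≤ e := by
      by_contra hcon
      obtain ⟨s, hs⟩ : ∃ s, Nat.find hex = i + s + 1 := ⟨Nat.find hex - i - 1, by omega⟩
      exact Nat.find_min hex (show i + s < Nat.find hex by omega)
        (hdown _ _ e (by omega) (hshift i s t ht'))
    set R : Polynomial ℤ := c.comp (Polynomial.C ((p : ℤ) ^ i) * Polynomial.X) -
      Polynomial.C (c.coeff 0) with hR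
    have hRc : ∀ j, 1 ≤ j → R.coeff j = c.coeff j * (p : ℤ) ^ (i * j) := by
      intro j hj
      rw [hR, Polynomial.coeff_sub, Polynomial.comp_C_mul_X_coeff, Polynomial.coeff_C,
        if_neg (by omega), sub_zero, ← pow_mul]
    have hR0 : R.coeff 0 = 0 := by
      rw [hR, Polynomial.coeff_sub, Polynomial.comp_C_mul_X_coeff]; simp
    obtain ⟨R', hR'⟩ : Polynomial.C ((p : ℤ) ^ t) ∣ R := by
      rw [Polynomial.C_dvd_iff_dvd_coeff]
      intro j
      rcases Nat.eq_zero_or_pos j with rfl | hj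
      · rw [hR0]; exact dvd_zero _
      · rw [hRc j hj]; exact ht' j hj
    set P : Polynomial ℤ := Polynomial.C a * R' with hP
    have hPdeg : P.natDegree ≤ k := by
      refine (Polynomial.natDegree_C_mul_le _ _).trans ?_
      have h1 : R'.natDegree = R.natDegree := by
        rw [hR', Polynomial.natDegree_C_mul (pow_ne_zero _ (by exact_mod_cast hp.ne_zero))]
      rw [h1, hR]
      refine (Polynomial.natDegree_sub_le _ _).trans (max_le ?_ (by simp))
      refine Polynomial.natDegree_comp_le.trans ?_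
      rw [Polynomial.natDegree_taylor]
      have hX : (Polynomial.C ((p : ℤ) ^ i) * Polynomial.X).natDegree ≤ 1 := by
        refine (Polynomial.natDegree_C_mul_le _ _).trans ?_
        exact Polynomial.natDegree_X_le
      exact (Nat.mul_le_mul hk hX).trans (mul_one k).le
    have hPnd : ∃ j, 1 ≤ j ∧ ¬ (p : ℤ) ∣ P.coeff j := by
      by_contra hall
      push Not at hall
      refine Nat.findGreatest_is_greatest (P := Dv i) (show t < t + 1 by omega) (by omega) ?_
      intro j hj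
      have h1 := hall j hj
      rw [hP, Polynomial.coeff_C_mul] at h1
      have h2 : (p : ℤ) ∣ R'.coeff j :=
        ((Nat.prime_iff_prime_int.1 hp).dvd_or_dvd h1).resolve_left
          (ha.resolve_left (by omega))
      rw [← hRc j hj, hR', Polynomial.coeff_C_mul, pow_succ]
      exact mul_dvd_mul_left _ h2
    have hb := hcomp p (e - t) P hp hPdeg hPnd
    have hval : ∀ y : ℕ, f.eval ((z + p ^ i * y : ℕ) : ℤ) =
        f.eval (z : ℤ) + (p : ℤ) ^ t * R'.eval (y : ℤ) := by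
      intro y
      have h1 : R.eval (y : ℤ) = (p : ℤ) ^ t * R'.eval (y : ℤ) := by rw [hR']; simp
      rw [← h1, hR]
      simp [hc, Polynomial.eval_comp, Polynomial.taylor_eval, Polynomial.taylor_coeff_zero, add_comm]
    obtain ⟨m, hm⟩ := hz
    have hphase : ∀ y : ℕ, phase f (p ^ e) a (z + p ^ i * y) =
        Quad.ee (((P.eval (y : ℤ) : ℤ) : ℝ) / ((p ^ (e - t) : ℕ) : ℝ)) := by
      intro y
      rw [phase, hval, hm, mul_add, Int.cast_add, add_div, Quad.ee_add]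
      have hpe : ((p ^ e : ℕ) : ℝ) = ((p ^ t : ℕ) : ℝ) * ((p ^ (e - t) : ℕ) : ℝ) := by
        rw [← Nat.cast_mul, ← pow_add, Nat.add_sub_cancel' hte.le]
      have hne : ((p ^ e : ℕ) : ℝ) ≠ 0 := Nat.cast_ne_zero.2 (pow_ne_zero _ hp.ne_zero)
      have e1 : ((a * (((p ^ e : ℕ) : ℤ) * m) : ℤ) : ℝ) / ((p ^ e : ℕ) : ℝ) =
          ((a * m : ℤ) : ℝ) := by
        rw [div_eq_iff hne]; push_cast; ring
      rw [e1, Quad.ee_int, one_mul]
      congr 1
      have hne' : ((p ^ t : ℕ) : ℝ) ≠ 0 := Nat.cast_ne_zero.2 (pow_ne_zero _ hp.ne_zero)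
      rw [hpe, show ((a * ((p : ℤ) ^ t * R'.eval (y : ℤ)) : ℤ) : ℝ) =
        ((p ^ t : ℕ) : ℝ) * ((P.eval (y : ℤ) : ℤ) : ℝ) by rw [hP]; simp; ring,
        mul_div_mul_left _ _ hne']
    have hper : Function.Periodic
        (fun y : ℕ => phase f (p ^ e) a (z + p ^ i * y)) (p ^ (e - t)) := by
      intro y
      simp only [hphase]
      have : NeZero (p ^ (e - t)) := ⟨pow_ne_zero _ hp.ne_zero⟩
      rw [Quad.ee_div_eq, Quad.ee_div_eq]
      congr 1
      rw [ZMod.intCast_eq_intCast_iff_dvd_sub]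
      refine dvd_trans ?_ (P.sub_dvd_eval_sub _ _)
      rw [← dvd_neg]; simp
    have hphi : phi f z (p ^ e) (p ^ i) a =
        (∑ y ∈ range (p ^ (e - t)), Quad.ee (((P.eval (y : ℤ) : ℤ) : ℝ) /
          ((p ^ (e - t) : ℕ) : ℝ))) / ((p ^ (e - t) : ℕ) : ℂ) := by
      have hblock : ∀ m : ℕ, ∑ y ∈ range (m * p ^ (e - t)), phase f (p ^ e) a (z + p ^ i * y) =
          m • ∑ y ∈ range (p ^ (e - t)), phase f (p ^ e) a (z + p ^ i * y) := by
        intro m
        induction m with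
        | zero => simp
        | succ m ih =>
          rw [Nat.succ_mul, sum_range_add, ih, succ_nsmul]
          congr 1
          refine sum_congr rfl fun y _ => ?_
          rw [add_comm (m * _) y]
          exact_mod_cast (hper.nat_mul m) y
      have hsplit : p ^ e = p ^ t * p ^ (e - t) := by
        rw [← pow_add, Nat.add_sub_cancel' hte.le]
      rw [phi_eq]
      rw [show range (p ^ e) = range (p ^ t * p ^ (e - t)) by rw [← hsplit], hblock, nsmul_eq_mul]
      rw [show ((p ^ e : ℕ) : ℂ) = ((p ^ t : ℕ) : ℂ) * ((p ^ (e - t) : ℕ) : ℂ) by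
          rw [← Nat.cast_mul, ← hsplit],
        mul_div_mul_left _ _ (Nat.cast_ne_zero.2 (pow_ne_zero _ hp.ne_zero))]
      simp only [hphase]
    rw [← hphi] at hb
    have hp0 : (0 : ℝ) < p := by exact_mod_cast hp.pos
    refine (pow_le_pow_iff_left₀ (norm_nonneg _) (by positivity) (by omega : G ≠ 0)).1 ?_
    have hρ : ((p : ℝ) ^ (-(1 / G : ℝ))) ^ G = 1 / (p : ℝ) := by
      rw [← Real.rpow_natCast, ← Real.rpow_mul hp0.le, show -(1 / G : ℝ) * (G : ℕ) = -1 by
        field_simp, Real.rpow_neg_one, one_div]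
    rw [mul_pow, ← pow_mul, mul_comm (Nat.find hex - i), pow_mul, hρ]
    have h1 : ‖phi f z (p ^ e) (p ^ i) a‖ ^ G ≤ (C : ℝ) / (p : ℝ) ^ (e - t) := by
      rw [le_div_iff₀ (by positivity)]; exact hb
    refine h1.trans ?_
    rw [one_div, inv_pow, ← div_eq_mul_inv]
    refine div_le_div₀ (by positivity) ?_ (by positivity) ?_
    · exact le_self_pow₀ (by exact_mod_cast hC) (by omega)
    · exact pow_le_pow_right₀ (by exact_mod_cast hp.one_le) (by omega)

end Vale.Agent.P042.Gen
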