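import Vale.Agent.P042.Gen.Defs
import Vale.Agent.P042.Quad.Major
import Vale.Agent.P042.Sym.Major

/-!
Dilated sums on the major arcs.
-/

open Finset Polynomial

namespace Vale.Agent.P042.Gen

lemma fR_eq_aeval (f : ℤ[X]) (x : ℝ) : fR f x = aeval x f := by
  rw [fR, eval_map, aeval_def, algebraMap_int_eq]

lemma fR'_eq_aeval (f : ℤ[X]) (x : ℝ) : fR' f x = aeval x (derivative f) := by
  rw [fR', eval_map, aeval_def, algebraMap_int_eq]

lemma wt_eq_weight (f : ℤ[X]) (M : ℕ) (x : ℝ) : wt f M x = Sym.weight f M x := by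
  simp only [wt, Sym.weight, fR_eq_aeval, fR'_eq_aeval]

lemma continuous_fR (f : ℤ[X]) : Continuous (fR f) := by
  unfold fR; fun_prop

lemma continuous_wt (f : ℤ[X]) (M : ℕ) : Continuous (wt f M) := by
  unfold wt fR fR'; fun_prop

/-- The cosine integral with the phase shifted to vanish at the origin. -/
lemma integral_wt_cos (f : ℤ[X]) (M : ℕ) (b : ℝ) :
    ∫ x in (0 : ℝ)..M, wt f M x * Real.cos (b * (fR f x - fR f 0)) =
      span f M ^ 2 * kerC (b * span f M) := by
  have hf : ∀ x : ℝ, HasDerivAt (fR f) (fR' f x) x := fun x => by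
    rw [fR'_eq_aeval, funext (fR_eq_aeval f)]; exact f.hasDerivAt_aeval x
  have hcont : ∀ c : ℝ, Continuous fun x => wt f M x * Real.cos (c * (fR f x - fR f 0)) :=
    fun c => (continuous_wt f M).mul
      (Real.continuous_cos.comp (continuous_const.mul ((continuous_fR f).sub continuous_const)))
  rcases eq_or_ne b 0 with rfl | hb
  · have hd : ∀ x ∈ Set.uIcc (0 : ℝ) M, HasDerivAt
        (fun x : ℝ => -((fR f M - fR f x) ^ 2 / 2)) (wt f M x) x := by
      intro x _
      refine (((((hf x).const_sub (fR f M)).pow 2).div_const 2).neg).congr_deriv ?_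
      simp only [wt]
      push_cast
      ring
    simp only [zero_mul, Real.cos_zero, mul_one]
    rw [intervalIntegral.integral_eq_sub_of_hasDerivAt hd
      ((continuous_wt f M).intervalIntegrable _ _)]
    simp [kerC, span]
    ring
  · have hd : ∀ x ∈ Set.uIcc (0 : ℝ) M, HasDerivAt
        (fun x : ℝ => (fR f M - fR f x) * Real.sin (b * (fR f x - fR f 0)) / b
          - Real.cos (b * (fR f x - fR f 0)) / b ^ 2)
        (wt f M x * Real.cos (b * (fR f x - fR f 0))) x := by
      intro x _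
      have harg := ((hf x).sub_const (fR f 0)).const_mul b
      refine ((((hf x).const_sub (fR f M)).mul harg.sin).div_const b |>.sub
        (harg.cos.div_const (b ^ 2))).congr_deriv ?_
      simp only [wt]
      field_simp
      ring
    rw [intervalIntegral.integral_eq_sub_of_hasDerivAt hd ((hcont b).intervalIntegrable _ _)]
    rcases eq_or_ne (span f M) 0 with hU | hU
    · have hU' : fR f M = fR f 0 := sub_eq_zero.1 hU
      simp [hU, hU']
    · rw [kerC, if_neg (mul_ne_zero hb hU)]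
      simp only [sub_self, zero_mul, zero_div, mul_zero, Real.sin_zero, Real.cos_zero, span]
      rw [span] at hU
      field_simp
      ring

/-- The sine integral with the phase shifted to vanish at the origin. -/
lemma integral_wt_sin (f : ℤ[X]) (M : ℕ) (b : ℝ) :
    ∫ x in (0 : ℝ)..M, wt f M x * Real.sin (b * (fR f x - fR f 0)) =
      span f M ^ 2 * kerS (b * span f M) := by
  have hf : ∀ x : ℝ, HasDerivAt (fR f) (fR' f x) x := fun x => by
    rw [fR'_eq_aeval, funext (fR_eq_aeval f)]; exact f.hasDerivAt_aeval x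
  rcases eq_or_ne b 0 with rfl | hb
  · simp [kerS]
  · have hd : ∀ x ∈ Set.uIcc (0 : ℝ) M, HasDerivAt
        (fun x : ℝ => -((fR f M - fR f x) * Real.cos (b * (fR f x - fR f 0)) / b)
          - Real.sin (b * (fR f x - fR f 0)) / b ^ 2)
        (wt f M x * Real.sin (b * (fR f x - fR f 0))) x := by
      intro x _
      have harg := ((hf x).sub_const (fR f 0)).const_mul b
      refine ((((hf x).const_sub (fR f M)).mul harg.cos).div_const b |>.neg.sub
        (harg.sin.div_const (b ^ 2))).congr_deriv ?_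
      simp only [wt]
      field_simp
      ring
    rw [intervalIntegral.integral_eq_sub_of_hasDerivAt hd
      (((continuous_wt f M).mul (Real.continuous_sin.comp
        (continuous_const.mul ((continuous_fR f).sub continuous_const)))).intervalIntegrable _ _)]
    rcases eq_or_ne (span f M) 0 with hU | hU
    · have hU' : fR f M = fR f 0 := sub_eq_zero.1 hU
      simp [hU, hU']
    · simp only [kerS, sub_self, zero_mul, zero_div, mul_zero, Real.sin_zero, Real.cos_zero, span]
      rw [span] at hU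
      field_simp
      ring

/-- Removing the shift from the phase. -/
lemma integral_shift (f : ℤ[X]) {k M : ℕ} (hk : 1 ≤ k) (hdeg : f.natDegree = k) (hM : 1 ≤ M)
    (b : ℝ) (T T' : ℝ → ℝ) (hT : ∀ y, HasDerivAt T (T' y) y) (hT'1 : ∀ y, |T' y| ≤ 1) :
    |(∫ x in (0 : ℝ)..M, wt f M x * T (b * fR f x)) -
        ∫ x in (0 : ℝ)..M, wt f M x * T (b * (fR f x - fR f 0))| ≤
      |b| * |fR f 0| * (2 * Sym.absCoeff f * Sym.absCoeff (derivative f)) * (M : ℝ) ^ (2 * k) := by
  have hTc : Continuous T := continuous_iff_continuousAt.2 fun y => (hT y).continuousAt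
  have hTlip : ∀ u v : ℝ, |T u - T v| ≤ |u - v| := fun u v => by
    have := (convex_univ : Convex ℝ (Set.univ : Set ℝ)).norm_image_sub_le_of_norm_hasDerivWithin_le
      (f := T) (f' := T') (C := 1) (fun y _ => (hT y).hasDerivWithinAt)
      (fun y _ => by simpa using hT'1 y) (Set.mem_univ v) (Set.mem_univ u)
    simpa using this
  have h1 : Continuous fun x => wt f M x * T (b * fR f x) :=
    (continuous_wt f M).mul (hTc.comp (continuous_const.mul (continuous_fR f)))
  have h2 : Continuous fun x => wt f M x * T (b * (fR f x - fR f 0)) :=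
    (continuous_wt f M).mul (hTc.comp
      (continuous_const.mul ((continuous_fR f).sub continuous_const)))
  rw [← intervalIntegral.integral_sub (h1.intervalIntegrable _ _) (h2.intervalIntegrable _ _),
    ← Real.norm_eq_abs]
  refine (intervalIntegral.norm_integral_le_of_norm_le_const
    (C := 2 * Sym.absCoeff f * Sym.absCoeff (derivative f) * (M : ℝ) ^ (2 * k - 1) *
      (|b| * |fR f 0|)) fun x hx => ?_).trans (le_of_eq ?_)
  · rw [Set.uIoc_of_le (Nat.cast_nonneg M)] at hx
    rw [Real.norm_eq_abs, ← mul_sub, abs_mul, wt_eq_weight, ← hdeg]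
    have hw := Sym.abs_weight_le f hM hx.1.le hx.2
    refine mul_le_mul hw ((hTlip _ _).trans (le_of_eq ?_)) (abs_nonneg _) ((abs_nonneg _).trans hw)
    rw [← mul_sub, sub_sub_cancel, abs_mul]
  · rw [sub_zero, Nat.abs_cast, show (M : ℝ) ^ (2 * k) = (M : ℝ) ^ (2 * k - 1) * M by
      rw [← pow_succ, Nat.sub_add_cancel (by omega)]]
    ring

/-- The periodic factor of a dilated sum. -/
noncomputable def perF (f : ℤ[X]) (z g q : ℕ) (a : ℤ) (n : ℕ) : ℂ :=
  if n % g = z % g then (g : ℂ) * Quad.ee (((a * f.eval (n : ℤ) : ℤ) : ℝ) / q) else 0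

lemma ee_eval_congr (f : ℤ[X]) (q : ℕ) [NeZero q] (a : ℤ) {x y : ℕ}
    (h : (q : ℤ) ∣ (x : ℤ) - y) :
    Quad.ee (((a * f.eval (x : ℤ) : ℤ) : ℝ) / q) =
      Quad.ee (((a * f.eval (y : ℤ) : ℤ) : ℝ) / q) := by
  rw [Quad.ee_div_eq, Quad.ee_div_eq]
  congr 1
  rw [ZMod.intCast_eq_intCast_iff_dvd_sub, ← mul_sub]
  exact dvd_mul_of_dvd_right ((dvd_sub_comm.1 h).trans (Polynomial.sub_dvd_eval_sub _ _ f)) a

lemma perF_periodic (f : ℤ[X]) (z g q : ℕ) [NeZero q] (a : ℤ) (n : ℕ) :
    perF f z g q a (n + g * q) = perF f z g q a n := by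
  rw [perF, perF, Nat.add_mul_mod_self_left]
  rw [ee_eval_congr f q a (x := n + g * q) (y := n) ⟨g, by push_cast; ring⟩]

lemma norm_perF_le (f : ℤ[X]) (z g q : ℕ) (a : ℤ) (n : ℕ) : ‖perF f z g q a n‖ ≤ g := by
  rw [perF]
  split_ifs <;> simp [Quad.norm_ee]

lemma sum_range_shift {V : Type*} [AddCommMonoid V] (G : ℕ → V) (q : ℕ)
    (hG : ∀ n, G (n + q) = G n) : ∀ s : ℕ, ∑ y ∈ range q, G (y + s) = ∑ y ∈ range q, G y
  | 0 => rfl
  | s + 1 => by
    rw [← sum_range_shift G q hG s]
    cases q with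
    | zero => simp
    | succ q =>
      rw [sum_range_succ, sum_range_succ' (fun y => G (y + s))]
      simp only [zero_add]
      rw [show q + (s + 1) = s + (q + 1) by omega, hG]
      simp [add_assoc, add_comm 1 s]

lemma sum_perF (f : ℤ[X]) (z : ℕ) {g q : ℕ} [NeZero q] (hg : 1 ≤ g) (a : ℤ) :
    ∑ n ∈ range (g * q), perF f z g q a n = (g * q : ℕ) * phi f z q g a := by
  have hq : (q : ℂ) ≠ 0 := by exact_mod_cast NeZero.ne q
  rw [phi, show ((g * q : ℕ) : ℂ) = g * q by push_cast; ring]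
  rw [mul_assoc, mul_div_cancel₀ _ hq, mul_sum]
  simp only [perF]
  rw [← sum_filter]
  set G : ℕ → ℂ := fun y =>
    (g : ℂ) * Quad.ee (((a * f.eval ((z % g + g * y : ℕ) : ℤ) : ℤ) : ℝ) / q) with hG
  have hshift := sum_range_shift G q (fun n => by
    simp only [hG]
    rw [ee_eval_congr f q a (x := z % g + g * (n + q)) (y := z % g + g * n)
      ⟨g, by push_cast; ring⟩]) (z / g)
  have hbase : ∀ y, z % g + g * (y + z / g) = z + g * y := fun y => by
    have := Nat.mod_add_div z g
    rw [mul_add]; omega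
  simp only [hG, hbase] at hshift
  rw [hshift]
  refine sum_nbij' (fun n => n / g) (fun y => z % g + g * y) ?_ ?_ ?_ ?_ ?_
  · intro n hn
    simp only [mem_filter, mem_range] at hn ⊢
    exact Nat.div_lt_of_lt_mul hn.1
  · intro y hy
    simp only [mem_filter, mem_range] at hy ⊢
    have hr : z % g < g := Nat.mod_lt _ (by omega)
    refine ⟨?_, by rw [Nat.add_mul_mod_self_left, Nat.mod_mod]⟩
    calc z % g + g * y < g * (y + 1) := by rw [mul_add, mul_one]; omega
      _ ≤ g * q := Nat.mul_le_mul_left _ hy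
  · intro n hn
    simp only [mem_filter] at hn
    rw [← hn.2, Nat.mod_add_div]
  · intro y _
    rw [Nat.add_mul_div_left _ _ (by omega), Nat.div_eq_of_lt (Nat.mod_lt _ (by omega)), zero_add]
  · intro n hn
    simp only [mem_filter] at hn
    rw [← hn.2, Nat.mod_add_div]

/-- A dilated sum against the complete sums and the integrals. -/
lemma dil_periodic (f : ℤ[X]) {k : ℕ} (hdeg : f.natDegree = k) (hk : 1 ≤ k) {z M g q : ℕ}
    (hM : 1 ≤ M) (hg : 1 ≤ g) (hq : 1 ≤ q) (a : ℤ) (β θ : ℝ) (hθ : θ = (a : ℝ) / q + β) :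
    |dil f z M g θ -
        ((phi f z q g a).re *
            (∫ x in (0 : ℝ)..M, wt f M x * Real.cos (2 * Real.pi * β * fR f x)) -
          (phi f z q g a).im *
            ∫ x in (0 : ℝ)..M, wt f M x * Real.sin (2 * Real.pi * β * fR f x))| ≤
      6 * Sym.lipC f * ((g : ℝ) ^ 2 * q * (1 + |β| * (M : ℝ) ^ k) * (M : ℝ) ^ (2 * k - 1)) := by
  set L := Sym.lipC f
  have hA0 := Sym.absCoeff_nonneg f
  have hA1 := Sym.absCoeff_nonneg (derivative f)
  have hA2 := Sym.absCoeff_nonneg (derivative (derivative f))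
  have hL : 0 ≤ L := by simp only [L, Sym.lipC]; positivity
  have : NeZero q := ⟨by omega⟩
  set b := 2 * Real.pi * β
  set φc : ℝ → ℝ := fun x => wt f M x * Real.cos (b * fR f x)
  set φs : ℝ → ℝ := fun x => wt f M x * Real.sin (b * fR f x)
  set fc : ℕ → ℝ := fun n => (perF f z g q a n).re
  set fs : ℕ → ℝ := fun n => (perF f z g q a n).im
  set μ := phi f z q g a
  set Λ := L * (1 + |β| * (M : ℝ) ^ k) * (M : ℝ) ^ (2 * k - 2)
  have hsplit : dil f z M g θ = ∑ n ∈ range M, fc n * φc n - ∑ n ∈ range M, fs n * φs n := by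
    rw [dil, mul_sum, sum_filter, ← sum_sub_distrib]
    refine sum_congr rfl fun n _ => ?_
    simp only [fc, fs, φc, φs, perF]
    split_ifs
    · simp only [Complex.mul_re, Complex.mul_im, Complex.natCast_re, Complex.natCast_im, zero_mul, sub_zero, add_zero,
        Quad.ee_re, Quad.ee_im]
      have e : 2 * Real.pi * θ * fR f n =
          2 * Real.pi * (((a * f.eval (n : ℤ) : ℤ) : ℝ) / q) + b * fR f n := by
        have : fR f n = ((f.eval (n : ℤ) : ℤ) : ℝ) := by
          rw [fR_eq_aeval, Sym.aeval_natCast]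
        rw [hθ, this]
        simp only [b]
        push_cast
        ring
      rw [e, Real.cos_add]
      ring
    · simp
  have hP : 0 < g * q := Nat.mul_pos hg hq
  have hsum := sum_perF f z (q := q) hg a
  have hμc : ∑ n ∈ range (g * q), fc n = ((g * q : ℕ) : ℝ) * μ.re := by
    have := congrArg Complex.re hsum
    simpa [fc] using this
  have hμs : ∑ n ∈ range (g * q), fs n = ((g * q : ℕ) : ℝ) * μ.im := by
    have := congrArg Complex.im hsum
    simpa [fs] using this
  have hlip : ∀ (T T' : ℝ → ℝ), (∀ y, HasDerivAt T (T' y) y) → (∀ y, |T y| ≤ 1) →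
      (∀ y, |T' y| ≤ 1) → ∀ x ∈ Set.Icc (0 : ℝ) M, ∀ y ∈ Set.Icc (0 : ℝ) M,
        |wt f M x * T (b * fR f x) - wt f M y * T (b * fR f y)| ≤ Λ * |x - y| := by
    intro T T' h1 h2 h3 x hx y hy
    have := Sym.weight_mul_lip f (by omega) hM β T T' h1 h2 h3 x hx y hy
    simpa only [wt_eq_weight, fR_eq_aeval, hdeg, Λ, L, b] using this
  have hΛ : 0 ≤ Λ := by positivity
  have hbd : ∀ n, ‖perF f z g q a n‖ ≤ g := norm_perF_le f z g q a
  have hc := Quad.periodic_mean fc (g * q) hP
    (fun n => by simp only [fc, perF_periodic]) g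
    (fun n => (Complex.abs_re_le_norm _).trans (hbd n)) μ.re hμc φc
    ((continuous_wt f M).mul (Real.continuous_cos.comp (continuous_const.mul (continuous_fR f))))
    M (by simp [φc, wt]) Λ hΛ
    (hlip Real.cos (fun y => -Real.sin y) Real.hasDerivAt_cos Real.abs_cos_le_one
      fun y => by rw [abs_neg]; exact Real.abs_sin_le_one y)
  have hs := Quad.periodic_mean fs (g * q) hP
    (fun n => by simp only [fs, perF_periodic]) g
    (fun n => (Complex.abs_im_le_norm _).trans (hbd n)) μ.im hμs φs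
    ((continuous_wt f M).mul (Real.continuous_sin.comp (continuous_const.mul (continuous_fR f))))
    M (by simp [φs, wt]) Λ hΛ
    (hlip Real.sin Real.cos Real.hasDerivAt_sin Real.abs_sin_le_one Real.abs_cos_le_one)
  have hMΛ : 3 * (g : ℝ) * (g * q : ℕ) * (M * Λ) =
      3 * L * ((g : ℝ) ^ 2 * q * (1 + |β| * (M : ℝ) ^ k) * (M : ℝ) ^ (2 * k - 1)) := by
    simp only [Λ]
    rw [show (M : ℝ) ^ (2 * k - 1) = M * (M : ℝ) ^ (2 * k - 2) by
      rw [← pow_succ']; congr 1; omega]
    push_cast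
    ring
  rw [hMΛ] at hc hs
  rw [abs_le] at hc hs
  rw [hsplit, abs_le]
  constructor <;> linarith

/-- The shift of the phase costs no more than the error term. -/
lemma shift_cost {k M g q : ℕ} (hk : 1 ≤ k) (hM : 1 ≤ M) (hg : 1 ≤ g) (hq : 1 ≤ q) (β F W : ℝ)
    (hF : 0 ≤ F) (hW : 0 ≤ W) :
    |2 * Real.pi * β| * F * W * (M : ℝ) ^ (2 * k) ≤
      8 * F * W * ((g : ℝ) ^ 2 * q * (1 + |β| * (M : ℝ) ^ k) * (M : ℝ) ^ (2 * k - 1)) := by
  have hM1 : (1 : ℝ) ≤ M := by exact_mod_cast hM
  have h1 : (M : ℝ) ^ (2 * k) = M * (M : ℝ) ^ (2 * k - 1) := by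
    rw [← pow_succ', Nat.sub_add_cancel (by omega)]
  have h2 : |2 * Real.pi * β| ≤ 8 * |β| := by
    simp only [abs_mul, abs_two, abs_of_pos Real.pi_pos]
    nlinarith [Real.pi_lt_four, abs_nonneg β]
  have h3 : (M : ℝ) ≤ (M : ℝ) ^ k := le_self_pow₀ hM1 (by omega)
  have h4 : (1 : ℝ) ≤ (g : ℝ) ^ 2 * q := by
    have : (1 : ℝ) ≤ g := by exact_mod_cast hg
    have : (1 : ℝ) ≤ q := by exact_mod_cast hq
    nlinarith
  have h5 : |β| * M ≤ (g : ℝ) ^ 2 * q * (1 + |β| * (M : ℝ) ^ k) := by
    have h7 : |β| * M ≤ |β| * (M : ℝ) ^ k := mul_le_mul_of_nonneg_left h3 (abs_nonneg _)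
    have h8 : 0 ≤ |β| * (M : ℝ) ^ k := by positivity
    nlinarith
  rw [h1]
  calc |2 * Real.pi * β| * F * W * (M * (M : ℝ) ^ (2 * k - 1))
      ≤ 8 * |β| * F * W * (M * (M : ℝ) ^ (2 * k - 1)) := by
        gcongr
    _ = 8 * F * W * (|β| * M * (M : ℝ) ^ (2 * k - 1)) := by ring
    _ ≤ _ := by gcongr

theorem dil_major {f : Polynomial ℤ} {k : ℕ} (hf : Good f k) : ∃ K : ℝ, 0 ≤ K ∧
    ∀ (z M g q : ℕ), 1 ≤ M → 1 ≤ g → 1 ≤ q → ∀ (a : ℤ) (β θ : ℝ), θ = (a : ℝ) / q + β →
      |dil f z M g θ - span f M ^ 2 *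
          ((phi f z q g a).re * kerC (2 * Real.pi * β * span f M) -
            (phi f z q g a).im * kerS (2 * Real.pi * β * span f M))| ≤
        K * (g : ℝ) ^ 2 * q * (1 + |β| * (M : ℝ) ^ k) * (M : ℝ) ^ (2 * k - 1) := by
  have hdeg := hf.degree
  have hk := hf.pos
  have hA0 := Sym.absCoeff_nonneg f
  have hA1 := Sym.absCoeff_nonneg (derivative f)
  have hA2 := Sym.absCoeff_nonneg (derivative (derivative f))
  have hL : 0 ≤ Sym.lipC f := by simp only [Sym.lipC]; positivity
  set W := 2 * Sym.absCoeff f * Sym.absCoeff (derivative f)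
  have hW : 0 ≤ W := by positivity
  refine ⟨6 * Sym.lipC f + 16 * |fR f 0| * W, by positivity,
    fun z M g q hM hg hq a β θ hθ => ?_⟩
  have h0 := dil_periodic f hdeg hk (z := z) hM hg hq a β θ hθ
  have hM2 := shift_cost hk hM hg hq β |fR f 0| W (abs_nonneg _) hW
  set b := 2 * Real.pi * β
  have hIc := integral_shift f hk hdeg hM b Real.cos (fun y => -Real.sin y) Real.hasDerivAt_cos
    fun y => by rw [abs_neg]; exact Real.abs_sin_le_one y
  have hIs := integral_shift f hk hdeg hM b Real.sin Real.cos Real.hasDerivAt_sin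
    Real.abs_cos_le_one
  rw [integral_wt_cos] at hIc
  rw [integral_wt_sin] at hIs
  set μ := phi f z q g a
  have hμ : ‖μ‖ ≤ 1 := by
    have hq1 : (0 : ℝ) < q := by exact_mod_cast hq
    simp only [μ, phi, norm_div, Complex.norm_natCast]
    rw [div_le_one hq1]
    refine (norm_sum_le _ _).trans ?_
    simp [Quad.norm_ee]
  have hμre := (Complex.abs_re_le_norm μ).trans hμ
  have hμim := (Complex.abs_im_le_norm μ).trans hμ
  set E := (g : ℝ) ^ 2 * q * (1 + |β| * (M : ℝ) ^ k) * (M : ℝ) ^ (2 * k - 1) with hE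
  set Ic := ∫ x in (0 : ℝ)..M, wt f M x * Real.cos (b * fR f x)
  set Is := ∫ x in (0 : ℝ)..M, wt f M x * Real.sin (b * fR f x)
  set C := span f M ^ 2 * kerC (b * span f M) with hC
  set S := span f M ^ 2 * kerS (b * span f M) with hS
  have e1 := (abs_mul μ.re (Ic - C)).trans_le
    (mul_le_mul hμre (hIc.trans hM2) (abs_nonneg _) zero_le_one)
  have e2 := (abs_mul μ.im (Is - S)).trans_le
    (mul_le_mul hμim (hIs.trans hM2) (abs_nonneg _) zero_le_one)
  rw [abs_le] at h0 e1 e2
  rw [show span f M ^ 2 * (μ.re * kerC (b * span f M) - μ.im * kerS (b * span f M)) =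
    μ.re * C - μ.im * S by rw [hC, hS]; ring,
    show (6 * Sym.lipC f + 16 * |fR f 0| * W) * (g : ℝ) ^ 2 * q * (1 + |β| * (M : ℝ) ^ k) *
      (M : ℝ) ^ (2 * k - 1) = (6 * Sym.lipC f + 16 * |fR f 0| * W) * E by rw [hE]; ring, abs_le]
  constructor <;> linarith

end Vale.Agent.P042.Gen
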