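import Vale.Agent.P042.Gen.Defs
import Vale.Agent.P042.Odd.Weyl
import Vale.Agent.P042.Sym.Decay

/-!
A large dilated sum puts the frequency near a fraction with small denominator.
-/

open Finset

namespace Vale.Agent.P042.Gen

open Vale.Agent.P042.Odd (circ circ_re weyl_top norm_abel)

lemma evalR_eq_sum (p : Polynomial ℤ) {d : ℕ} (hd : p.natDegree ≤ d) (x : ℝ) :
    (p.map (Int.castRingHom ℝ)).eval x = ∑ j ∈ range (d + 1), (p.coeff j : ℝ) * x ^ j := by
  rw [Polynomial.eval_map, Polynomial.eval₂_eq_sum_range' _ (Nat.lt_succ_of_le hd)]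
  simp

lemma evalR_mono (p : Polynomial ℤ) (hp : ∀ j, 0 ≤ p.coeff j) {x y : ℝ} (hx : 0 ≤ x)
    (hxy : x ≤ y) :
    0 ≤ (p.map (Int.castRingHom ℝ)).eval x ∧
      (p.map (Int.castRingHom ℝ)).eval x ≤ (p.map (Int.castRingHom ℝ)).eval y := by
  rw [evalR_eq_sum p le_rfl, evalR_eq_sum p le_rfl]
  refine ⟨sum_nonneg fun j _ => mul_nonneg (by exact_mod_cast hp j) (pow_nonneg hx j),
    sum_le_sum fun j _ => mul_le_mul_of_nonneg_left (pow_le_pow_left₀ hx hxy j)
      (by exact_mod_cast hp j)⟩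

lemma evalR_le_pow (p : Polynomial ℤ) (hp : ∀ j, 0 ≤ p.coeff j) {d : ℕ} (hd : p.natDegree ≤ d)
    {x : ℝ} (hx : 1 ≤ x) :
    (p.map (Int.castRingHom ℝ)).eval x ≤ (∑ j ∈ range (d + 1), (p.coeff j : ℝ)) * x ^ d := by
  rw [evalR_eq_sum p hd, sum_mul]
  exact sum_le_sum fun j hj => mul_le_mul_of_nonneg_left
    (pow_le_pow_right₀ hx (Nat.lt_succ_iff.1 (mem_range.1 hj))) (by exact_mod_cast hp j)

theorem dil_minor {f : Polynomial ℤ} {k : ℕ} (hf : Good f k) : ∃ C E : ℕ,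
    ∀ (z M g K : ℕ) (θ : ℝ), 1 ≤ g → g ≤ M → 1 ≤ K →
      (M : ℝ) ^ (2 * k) / K ≤ |dil f z M g θ| →
      ∃ q : ℕ, 1 ≤ q ∧ q ≤ C * K ^ E ∧ ∃ a : ℤ,
        |(q : ℝ) * ((g : ℝ) ^ k * θ) - a| ≤ ((C : ℝ) * (K : ℝ) ^ E) / ((M : ℝ) / g) ^ k := by
  obtain ⟨C, E, hW⟩ := weyl_top k hf.pos
  have hk := hf.pos
  obtain ⟨c, hc⟩ := Int.eq_ofNat_of_zero_le hf.lead.le
  have hc1 : 1 ≤ c := by have := hf.lead; omega
  have hd' : ∀ j, 0 ≤ f.derivative.coeff j := fun j => by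
    rw [Polynomial.coeff_derivative]
    exact mul_nonneg (hf.nonneg _) (by positivity)
  have hdd : f.derivative.natDegree ≤ k - 1 :=
    (Polynomial.natDegree_derivative_le f).trans_eq (by rw [hf.degree])
  obtain ⟨A, hA⟩ : ∃ A : ℕ, (∑ j ∈ range (k + 1), (f.coeff j : ℝ)) *
      (∑ j ∈ range (k - 1 + 1), (f.derivative.coeff j : ℝ)) ≤ A := exists_nat_ge _
  refine ⟨C * (8 * (A + 1)) ^ E * c, E, fun z M g K θ hg hgM hK hbig => ?_⟩
  have hM : 1 ≤ M := hg.trans hgM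
  have hMr : (1 : ℝ) ≤ M := by exact_mod_cast hM
  have hgr : (1 : ℝ) ≤ g := by exact_mod_cast hg
  have hKr : (1 : ℝ) ≤ K := by exact_mod_cast hK
  obtain ⟨r, hr⟩ : ∃ r, r = z % g := ⟨_, rfl⟩
  have hrg : r < g := hr ▸ Nat.mod_lt _ hg
  set w : ℕ → ℂ := fun m => circ (θ * fR f ((r : ℝ) + (g : ℝ) * m)) with hw
  obtain ⟨Y₀, hY₀⟩ : ∃ Y₀, Y₀ = (M + (g - 1 - r)) / g := ⟨_, rfl⟩
  have hreindex : ∑ n ∈ (range M).filter (fun n => n % g = z % g),
      wt f M n * Real.cos (2 * Real.pi * θ * fR f n) =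
      ∑ m ∈ range Y₀, wt f M ((r : ℝ) + (g : ℝ) * m) * (w m).re := by
    rw [← hr]
    refine sum_bij' (fun n _ => n / g) (fun m _ => g * m + r) ?_ ?_ ?_ ?_ ?_
    · intro n hn
      obtain ⟨h1, h2⟩ := mem_filter.1 hn
      have h3 := Nat.div_add_mod n g
      rw [mem_range] at h1
      rw [mem_range, hY₀, Nat.lt_iff_add_one_le, Nat.le_div_iff_mul_le hg, Nat.mul_comm,
        Nat.mul_add, Nat.mul_one]
      omega
    · intro m hm
      rw [mem_range, hY₀, Nat.lt_iff_add_one_le, Nat.le_div_iff_mul_le hg, Nat.mul_comm,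
        Nat.mul_add, Nat.mul_one] at hm
      refine mem_filter.2 ⟨mem_range.2 (by omega), ?_⟩
      rw [Nat.mul_add_mod, Nat.mod_eq_of_lt hrg]
    · intro n hn
      obtain ⟨-, h2⟩ := mem_filter.1 hn
      have h3 := Nat.div_add_mod n g
      omega
    · intro m _
      rw [Nat.mul_add_div hg, Nat.div_eq_of_lt hrg, Nat.add_zero]
    · intro n hn
      obtain ⟨-, h2⟩ := mem_filter.1 hn
      have h3 : (r : ℝ) + (g : ℝ) * ((n / g : ℕ) : ℝ) = n := by
        rw [← h2, add_comm]; exact_mod_cast Nat.div_add_mod n g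
      simp only [hw, circ_re]
      rw [h3, mul_assoc (2 * Real.pi) θ]
  have htop : Odd.Top k ((c : ℝ) * ((g : ℝ) ^ k * θ))
      fun m => θ * fR f ((r : ℝ) + (g : ℝ) * m) := by
    have h := Sym.top_poly k (fun l => θ * (f.coeff l : ℝ)) (g : ℝ) (r : ℝ)
    convert h using 1
    · rw [hc]; push_cast; ring
    · funext m
      rw [fR, evalR_eq_sum f hf.degree.le, mul_sum]
      exact sum_congr rfl fun l _ => by ring
  by_cases hY : ∃ Y ≤ M / g + 1,
      ((M / g + 1 : ℕ) : ℝ) / ((8 * (A + 1) * K : ℕ) : ℝ) ≤ ‖∑ i ∈ range Y, w i‖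
  · obtain ⟨Y, hY1, hY2⟩ := hY
    obtain ⟨q, hq1, hq2, a, ha⟩ := hW (8 * (A + 1) * K) (M / g + 1) Y _ _
      (Nat.mul_pos (by omega) hK) (Nat.le_add_left 1 _) hY1 htop hY2
    refine ⟨q * c, Nat.mul_pos hq1 hc1, ?_, a, ?_⟩
    · calc q * c ≤ C * (8 * (A + 1) * K) ^ E * c := Nat.mul_le_mul_right _ hq2
        _ = _ := by rw [mul_pow]; ring
    · push_cast
      rw [mul_assoc]
      refine ha.trans (div_le_div₀ (by positivity) ?_ (by positivity) ?_)
      · push_cast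
        rw [mul_pow, ← mul_assoc]
        exact mul_le_mul_of_nonneg_right
          (le_mul_of_one_le_right (by positivity) (by exact_mod_cast hc1)) (by positivity)
      · refine pow_le_pow_left₀ (by positivity) ?_ k
        rw [div_le_iff₀ (by positivity)]
        have h := Nat.lt_mul_div_succ M (show 0 < g by omega)
        have h' : (M : ℝ) ≤ (g : ℝ) * ((M / g + 1 : ℕ) : ℝ) := by exact_mod_cast h.le
        linarith
  · exfalso
    push Not at hY
    rw [dil, hreindex] at hbig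
    have hpow : (0 : ℝ) < (M : ℝ) ^ (2 * k) / K := by positivity
    rcases Nat.eq_zero_or_pos Y₀ with h0 | hpos
    · rw [h0, sum_range_zero, mul_zero, abs_zero] at hbig
      linarith
    obtain ⟨n, hn⟩ : ∃ n, Y₀ = n + 1 := ⟨Y₀ - 1, by omega⟩
    have hYle : Y₀ ≤ M / g + 1 := by
      rw [hY₀, ← Nat.add_div_right M hg]
      exact Nat.div_le_div_right (by omega)
    have hgn : (r : ℝ) + (g : ℝ) * n ≤ M := by
      have h1 : g * (n + 1) ≤ M + (g - 1 - r) := by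
        rw [← hn, hY₀]; exact Nat.mul_div_le _ _
      rw [Nat.mul_add, Nat.mul_one] at h1
      have h2 : r + g * n ≤ M := by omega
      exact_mod_cast h2
    obtain ⟨T, hT⟩ : ∃ T, T = ((M / g + 1 : ℕ) : ℝ) / ((8 * (A + 1) * K : ℕ) : ℝ) := ⟨_, rfl⟩
    rw [← hT] at hY
    have hB : ∀ Y ≤ n + 1, ‖∑ i ∈ range Y, w i‖ ≤ T := fun Y hY' => (hY Y (by omega)).le
    have hT0 : 0 ≤ T := by rw [hT]; positivity
    have habel : ∀ v : ℝ → ℝ, (∀ x y : ℝ, 0 ≤ x → x ≤ y → 0 ≤ v x ∧ v x ≤ v y) →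
        |∑ m ∈ range Y₀, v ((r : ℝ) + (g : ℝ) * m) * (w m).re| ≤ 2 * T * v M := by
      intro v hv
      have e : ∑ m ∈ range Y₀, v ((r : ℝ) + (g : ℝ) * m) * (w m).re =
          (∑ i ∈ range (n + 1), ((v ((r : ℝ) + (g : ℝ) * i) : ℝ) : ℂ) * w i).re := by
        rw [hn]; simp only [Complex.re_sum, Complex.re_ofReal_mul]
      rw [e]
      refine (Complex.abs_re_le_norm _).trans ((norm_abel (fun i => v ((r : ℝ) + (g : ℝ) * i)) w T
        ?_ ?_ n hB).trans ?_)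
      · exact (hv _ _ (by positivity) le_rfl).1
      · intro x y hxy
        exact (hv _ _ (by positivity) (by gcongr)).2
      · exact mul_le_mul_of_nonneg_left (hv _ _ (by positivity) hgn).2 (by positivity)
    have hv1 : ∀ x y : ℝ, 0 ≤ x → x ≤ y → 0 ≤ fR' f x ∧ fR' f x ≤ fR' f y :=
      fun x y hx hxy => evalR_mono _ hd' hx hxy
    have hv0 : ∀ x y : ℝ, 0 ≤ x → x ≤ y → 0 ≤ fR f x ∧ fR f x ≤ fR f y :=
      fun x y hx hxy => evalR_mono _ hf.nonneg hx hxy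
    have hM0 := hv0 M M (by positivity) le_rfl
    have hM1 := hv1 M M (by positivity) le_rfl
    have h1 := habel (fun x => fR' f x) hv1
    have h2 := habel (fun x => fR' f x * fR f x) fun x y hx hxy =>
      ⟨mul_nonneg (hv1 x y hx hxy).1 (hv0 x y hx hxy).1,
        mul_le_mul (hv1 x y hx hxy).2 (hv0 x y hx hxy).2 (hv0 x y hx hxy).1
          ((hv1 y y (hx.trans hxy) le_rfl).1)⟩
    have hsplit : ∑ m ∈ range Y₀, wt f M ((r : ℝ) + (g : ℝ) * m) * (w m).re =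
        fR f M * ∑ m ∈ range Y₀, fR' f ((r : ℝ) + (g : ℝ) * m) * (w m).re -
        ∑ m ∈ range Y₀, fR' f ((r : ℝ) + (g : ℝ) * m) * fR f ((r : ℝ) + (g : ℝ) * m) * (w m).re := by
      rw [mul_sum, ← sum_sub_distrib]
      exact sum_congr rfl fun m _ => by rw [wt]; ring
    have hsum : |∑ m ∈ range Y₀, wt f M ((r : ℝ) + (g : ℝ) * m) * (w m).re| ≤
        4 * T * (fR' f M * fR f M) := by
      rw [hsplit]
      refine (abs_sub _ _).trans ?_
      rw [abs_mul, abs_of_nonneg hM0.1]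
      have := mul_le_mul_of_nonneg_left h1 hM0.1
      linarith
    have hprod : fR' f M * fR f M ≤ (A : ℝ) * (M : ℝ) ^ (2 * k - 1) := by
      have a0 : fR f M ≤ (∑ j ∈ range (k + 1), (f.coeff j : ℝ)) * (M : ℝ) ^ k :=
        evalR_le_pow f hf.nonneg hf.degree.le hMr
      have a1 : fR' f M ≤ (∑ j ∈ range (k - 1 + 1), (f.derivative.coeff j : ℝ)) * (M : ℝ) ^ (k - 1) :=
        evalR_le_pow _ hd' hdd hMr
      refine (mul_le_mul a1 a0 hM0.1 (hM1.1.trans a1)).trans ?_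
      rw [show 2 * k - 1 = k + (k - 1) by omega, pow_add]
      have := mul_le_mul_of_nonneg_right hA
        (show (0 : ℝ) ≤ (M : ℝ) ^ k * (M : ℝ) ^ (k - 1) by positivity)
      linarith
    rw [abs_mul, Nat.abs_cast] at hbig
    have hTle : (g : ℝ) * T ≤ 2 * M / (8 * ((A : ℝ) + 1) * K) := by
      rw [hT]
      push_cast
      rw [← mul_div_assoc]
      refine div_le_div_of_nonneg_right ?_ (by positivity)
      have h' : ((g * (M / g + 1) : ℕ) : ℝ) ≤ ((2 * M : ℕ) : ℝ) := by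
        refine Nat.cast_le.2 ?_
        have := Nat.mul_div_le M g
        rw [Nat.mul_add, Nat.mul_one]
        omega
      push_cast at h'
      exact h'
    have hfin : (g : ℝ) * (4 * T * ((A : ℝ) * (M : ℝ) ^ (2 * k - 1))) < (M : ℝ) ^ (2 * k) / K := by
      refine lt_of_le_of_lt (b := 4 * (2 * M / (8 * ((A : ℝ) + 1) * K)) *
        ((A : ℝ) * (M : ℝ) ^ (2 * k - 1))) ?_ ?_
      · have := mul_le_mul_of_nonneg_right hTle
          (show (0 : ℝ) ≤ 4 * ((A : ℝ) * (M : ℝ) ^ (2 * k - 1)) by positivity)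
        linarith
      · have hsucc : (M : ℝ) ^ (2 * k) = (M : ℝ) ^ (2 * k - 1) * M := by
          rw [← pow_succ, Nat.sub_add_cancel (by omega)]
        have e : 4 * (2 * (M : ℝ) / (8 * ((A : ℝ) + 1) * K)) * ((A : ℝ) * (M : ℝ) ^ (2 * k - 1)) =
            (A : ℝ) / ((A : ℝ) + 1) * ((M : ℝ) ^ (2 * k) / K) := by
          rw [hsucc]; field_simp; ring
        rw [e]
        refine mul_lt_of_lt_one_left hpow ?_
        rw [div_lt_one (by positivity)]
        linarith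
    have h5 : (g : ℝ) * (4 * T * (fR' f M * fR f M)) ≤
        (g : ℝ) * (4 * T * ((A : ℝ) * (M : ℝ) ^ (2 * k - 1))) :=
      mul_le_mul_of_nonneg_left (mul_le_mul_of_nonneg_left hprod (by positivity)) (by positivity)
    have h6 := mul_le_mul_of_nonneg_left hsum (show (0 : ℝ) ≤ g by positivity)
    linarith

end Vale.Agent.P042.Gen
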