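import Vale.Agent.P042.Gen.Defs

/-!
From a saving at one scale per parameter to a bound for every `N`.
-/

open Finset

namespace Vale.Agent.P042.Gen

/-- Cutting `[1, N]` into translates of `[1, P]`. -/
lemma card_le_cover (V : Set ℤ) (P : ℕ) (hP : 1 ≤ P) (B : ℝ)
    (hB : ∀ A : Finset ℕ, A ⊆ Icc 1 P → (∀ x ∈ A, ∀ y ∈ A, (x : ℤ) - y ∉ V) → (A.card : ℝ) ≤ B)
    (N : ℕ) (A : Finset ℕ) (hA : A ⊆ Icc 1 N) (hfree : ∀ x ∈ A, ∀ y ∈ A, (x : ℤ) - y ∉ V) :
    (A.card : ℝ) ≤ ((N / P + 1 : ℕ) : ℝ) * B := by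
  classical
  have hmem : ∀ a ∈ A, (a - 1) / P ∈ range (N / P + 1) := fun a ha => by
    rw [mem_range, Nat.lt_succ_iff]
    exact Nat.div_le_div_right (by have := (mem_Icc.1 (hA ha)).2; omega)
  rw [card_eq_sum_card_fiberwise hmem, Nat.cast_sum]
  refine (sum_le_card_nsmul _ _ B fun j _ => ?_).trans_eq (by rw [card_range, nsmul_eq_mul])
  set F := A.filter fun a => (a - 1) / P = j
  have hF : ∀ a ∈ F, j * P + 1 ≤ a ∧ a ≤ j * P + P := fun a ha => by
    obtain ⟨ha, hj⟩ := mem_filter.1 ha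
    have h1 := (mem_Icc.1 (hA ha)).1
    have h2 := (Nat.div_eq_iff hP).1 hj
    omega
  have hinj : Set.InjOn (fun a => a - j * P) F := fun a ha b hb e => by
    simp only at e
    have := hF a ha
    have := hF b hb
    omega
  rw [← card_image_of_injOn hinj]
  refine hB _ (fun x hx => ?_) fun x hx y hy => ?_
  · obtain ⟨a, ha, rfl⟩ := mem_image.1 hx
    have := hF a ha
    rw [mem_Icc]; omega
  · obtain ⟨a, ha, rfl⟩ := mem_image.1 hx
    obtain ⟨b, hb, rfl⟩ := mem_image.1 hy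
    have := hF a ha
    have := hF b hb
    rw [show ((a - j * P : ℕ) : ℤ) - ((b - j * P : ℕ) : ℤ) = (a : ℤ) - b by omega]
    exact hfree a (mem_filter.1 ha).1 b (mem_filter.1 hb).1

/-- If at length `2 ^ R s` (`R` polynomial in `s`) a translation-invariant condition forces density
at most `2 ^ (-s)`, then it forces a stretched-exponential saving for every `N`. -/
theorem passage (V : Set ℤ) (R : ℕ → ℕ) (c₀ d₀ : ℕ) (K₀ : ℝ)
    (hR : ∀ s, 1 ≤ s → R s ≤ c₀ * s ^ d₀)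
    (hkey : ∀ s, 1 ≤ s → ∀ A : Finset ℕ, A ⊆ Icc 1 (2 ^ R s) →
      (∀ x ∈ A, ∀ y ∈ A, (x : ℤ) - y ∉ V) →
      (A.card : ℝ) ≤ K₀ * (1 / 2 : ℝ) ^ s * ((2 ^ R s : ℕ) : ℝ)) :
    ∃ K c : ℝ, 0 < c ∧ ∀ N : ℕ, 1 ≤ N → ∀ A : Finset ℕ, A ⊆ Icc 1 N →
      (∀ x ∈ A, ∀ y ∈ A, (x : ℤ) - y ∉ V) →
      (A.card : ℝ) ≤
        K * N * Real.exp (-c * Real.log N ^ (1 / ((d₀ : ℝ) + 1))) := by
  set μ : ℝ := 1 / ((d₀ : ℝ) + 1) with hμ
  have hμ0 : 0 < μ := by positivity
  refine ⟨2 * (2 * |K₀| + 1), Real.log 2 * (1 / (2 * ((c₀ : ℝ) + 1))) ^ μ,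
    mul_pos (Real.log_pos one_lt_two) (Real.rpow_pos_of_pos (by positivity) _),
    fun N hN A hA hfree => ?_⟩
  set Ln := Nat.log 2 N
  have hpow : 2 ^ Ln ≤ N := Nat.pow_log_le_self 2 (by omega)
  have hNr : (1 : ℝ) ≤ N := by exact_mod_cast hN
  have hLn : Real.log N ≤ 2 * (Ln : ℝ) := by
    rcases Nat.eq_zero_or_pos Ln with h0 | hpos
    · have h1 : N < 2 := by
        have := Nat.lt_pow_succ_log_self one_lt_two N
        rw [show Nat.log 2 N = 0 from h0] at this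
        simpa using this
      have : N = 1 := by omega
      simp [this, h0]
    · have h1 : (N : ℝ) ≤ (2 : ℝ) ^ (Ln + 1) := by
        exact_mod_cast (Nat.lt_pow_succ_log_self one_lt_two N).le
      have h2 := Real.log_le_log (by linarith) h1
      rw [Real.log_pow] at h2
      have h3 : (1 : ℝ) ≤ Ln := by exact_mod_cast hpos
      push_cast at h2
      nlinarith [Real.log_two_lt_d9, Real.log_pos (one_lt_two : (1 : ℝ) < 2)]
  set y : ℝ := (Ln : ℝ) / ((c₀ : ℝ) + 1) with hy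
  have hy0 : 0 ≤ y := by positivity
  set x : ℝ := y ^ μ with hx
  have hx0 : 0 ≤ x := Real.rpow_nonneg hy0 _
  set s := ⌊x⌋₊
  have hsx : (s : ℝ) ≤ x := Nat.floor_le hx0
  have hxy : x ^ (d₀ + 1) = y := by
    rw [hx, ← Real.rpow_natCast, ← Real.rpow_mul hy0, hμ]
    push_cast
    rw [one_div_mul_cancel (by positivity), Real.rpow_one]
  -- the bound at this scale
  have hmain : (A.card : ℝ) ≤ (2 * |K₀| + 1) * N * (1 / 2 : ℝ) ^ s := by
    have hK0 : 0 ≤ |K₀| := abs_nonneg _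
    rcases Nat.eq_zero_or_pos s with h0 | hpos
    · rw [h0, pow_zero, mul_one]
      have : A.card ≤ N := (card_le_card hA).trans (by simp)
      calc (A.card : ℝ) ≤ 1 * N := by rw [one_mul]; exact_mod_cast this
        _ ≤ _ := mul_le_mul_of_nonneg_right (by linarith) (Nat.cast_nonneg _)
    · have hRs : R s ≤ Ln := by
        refine (hR s hpos).trans ?_
        have h1 : c₀ * s ^ d₀ ≤ (c₀ + 1) * s ^ (d₀ + 1) :=
          Nat.mul_le_mul (Nat.le_succ _) (Nat.pow_le_pow_right hpos (Nat.le_succ _))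
        refine h1.trans ?_
        have h2 : ((c₀ : ℝ) + 1) * (s : ℝ) ^ (d₀ + 1) ≤ Ln := by
          have := pow_le_pow_left₀ (Nat.cast_nonneg s) hsx (d₀ + 1)
          rw [hxy, hy, le_div_iff₀ (by positivity)] at this
          linarith
        exact_mod_cast h2
      set P := 2 ^ R s
      have hP1 : 1 ≤ P := Nat.one_le_two_pow
      have hPN : P ≤ N := (Nat.pow_le_pow_right two_pos hRs).trans hpow
      have h := card_le_cover V P hP1 (|K₀| * (1 / 2 : ℝ) ^ s * (P : ℝ))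
        (fun B hB hBf => (hkey s hpos B hB hBf).trans (by gcongr; exact le_abs_self _)) N A hA hfree
      have hm : ((N / P + 1 : ℕ) : ℝ) * P ≤ 2 * N := by
        have : (N / P + 1) * P ≤ 2 * N := by
          have := Nat.div_mul_le_self N P
          rw [Nat.succ_mul]; omega
        exact_mod_cast this
      have hh : (0 : ℝ) ≤ (1 / 2 : ℝ) ^ s := by positivity
      nlinarith [mul_le_mul_of_nonneg_left hm (mul_nonneg hK0 hh),
        mul_nonneg hh (Nat.cast_nonneg N : (0 : ℝ) ≤ N)]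
  refine hmain.trans ?_
  have hhalf : (1 / 2 : ℝ) ^ s ≤ 2 * Real.exp (-(Real.log 2 * x)) := by
    have e1 : (1 / 2 : ℝ) ^ s = Real.exp (-(Real.log 2 * s)) := by
      rw [Real.exp_neg, mul_comm, Real.exp_nat_mul, Real.exp_log two_pos, one_div, inv_pow]
    have e2 : (2 : ℝ) * Real.exp (-(Real.log 2 * x)) =
        Real.exp (Real.log 2 + -(Real.log 2 * x)) := by
      rw [Real.exp_add, Real.exp_log two_pos]
    rw [e1, e2]
    refine Real.exp_le_exp.2 ?_
    have := Nat.lt_floor_add_one x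
    nlinarith [Real.log_pos (one_lt_two : (1 : ℝ) < 2)]
  have hlog : 0 ≤ Real.log N := Real.log_nonneg hNr
  have hcx : (1 / (2 * ((c₀ : ℝ) + 1))) ^ μ * Real.log N ^ μ ≤ x := by
    rw [← Real.mul_rpow (by positivity) hlog, hx]
    refine Real.rpow_le_rpow (by positivity) ?_ hμ0.le
    rw [hy, one_div_mul_eq_div, div_le_div_iff₀ (by positivity) (by positivity)]
    nlinarith
  calc (2 * |K₀| + 1) * (N : ℝ) * (1 / 2 : ℝ) ^ s
      ≤ (2 * |K₀| + 1) * (N : ℝ) * (2 * Real.exp (-(Real.log 2 * x))) :=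
        mul_le_mul_of_nonneg_left hhalf (by positivity)
    _ ≤ (2 * |K₀| + 1) * (N : ℝ) * (2 * Real.exp (-(Real.log 2 *
          (1 / (2 * ((c₀ : ℝ) + 1))) ^ μ) * Real.log N ^ μ)) := by
        refine mul_le_mul_of_nonneg_left (mul_le_mul_of_nonneg_left (Real.exp_le_exp.2 ?_) zero_le_two)
          (by positivity)
        nlinarith [Real.log_pos (one_lt_two : (1 : ℝ) < 2)]
    _ = _ := by ring

/-- A polynomial with positive top coefficient is positive at large naturals. -/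
lemma exists_bound_eval_pos (g : Polynomial ℤ) (m : ℕ) (hd : g.natDegree ≤ m) (hc : 0 < g.coeff m) :
    ∃ S : ℕ, ∀ n : ℕ, S < n → 0 < g.eval (n : ℤ) := by
  refine ⟨(∑ i ∈ range m, |g.coeff i|).toNat, fun n hn => ?_⟩
  have hn' : ∑ i ∈ range m, |g.coeff i| < (n : ℤ) := by omega
  have hn0 : (1 : ℤ) ≤ n := by omega
  rw [Polynomial.eval_eq_sum_range' (Nat.lt_succ_of_le hd), sum_range_succ]
  refine pos_of_mul_pos_right ?_ (by omega : (0 : ℤ) ≤ n)
  rw [mul_add, mul_sum]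
  have h1 : ∀ i ∈ range m, -(|g.coeff i| * (n : ℤ) ^ m) ≤ (n : ℤ) * (g.coeff i * (n : ℤ) ^ i) :=
    fun i hi => by
    have hle : (n : ℤ) ^ (i + 1) ≤ (n : ℤ) ^ m := pow_le_pow_right₀ hn0 (mem_range.1 hi)
    have h := mul_le_mul_of_nonneg_left hle (abs_nonneg (g.coeff i))
    have h2 := mul_le_mul_of_nonneg_right (neg_abs_le (g.coeff i))
      (pow_nonneg (Int.natCast_nonneg n) (i + 1))
    rw [show (n : ℤ) * (g.coeff i * (n : ℤ) ^ i) = g.coeff i * (n : ℤ) ^ (i + 1) by ring]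
    linarith
  have h3 := sum_le_sum h1
  rw [sum_neg_distrib, ← sum_mul] at h3
  have h4 : (∑ i ∈ range m, |g.coeff i|) * (n : ℤ) ^ m < (n : ℤ) * (g.coeff m * (n : ℤ) ^ m) := by
    have hp : (0 : ℤ) < (n : ℤ) ^ m := pow_pos (by omega) m
    calc (∑ i ∈ range m, |g.coeff i|) * (n : ℤ) ^ m < (n : ℤ) * (n : ℤ) ^ m :=
          mul_lt_mul_of_pos_right hn' hp
      _ ≤ _ := mul_le_mul_of_nonneg_left (le_mul_of_one_le_left hp.le hc) (by omega)
  linarith

/-- Every translate of an intersective polynomial far enough to the right has positive values and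
nonnegative coefficients, and is intersective. -/
theorem exists_good_shift (h : Polynomial ℤ) (hk : 1 ≤ h.natDegree) (hl : 0 < h.leadingCoeff)
    (hroot : ∀ q : ℕ, 1 ≤ q → ∃ t : ℤ, (q : ℤ) ∣ h.eval t) :
    ∃ (f : Polynomial ℤ) (n₀ : ℕ), Good f h.natDegree ∧ 1 ≤ n₀ ∧
      (∀ n : ℕ, f.eval (n : ℤ) = h.eval ((n + n₀ : ℕ) : ℤ)) ∧
      ∀ q : ℕ, 1 ≤ q → ∃ t : ℕ, (q : ℤ) ∣ f.eval (t : ℤ) := by
  set k := h.natDegree with hkdef
  have hS : ∀ j ∈ range (k + 1),
      ∃ S : ℕ, ∀ n : ℕ, S < n → 0 < (Polynomial.hasseDeriv j h).eval (n : ℤ) := fun j hj => by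
    have hjk : j ≤ k := Nat.lt_succ_iff.1 (mem_range.1 hj)
    refine exists_bound_eval_pos _ (k - j) (Polynomial.natDegree_hasseDeriv_le h j) ?_
    rw [Polynomial.hasseDeriv_coeff, Nat.sub_add_cancel hjk]
    exact mul_pos (Int.natCast_pos.2 (Nat.choose_pos hjk)) (by rw [hkdef]; exact hl)
  choose! S hS using hS
  set n₀ := ∑ j ∈ range (k + 1), S j + 1
  have hpos : ∀ j ≤ k, 0 < (Polynomial.taylor (n₀ : ℤ) h).coeff j := fun j hj => by
    rw [Polynomial.taylor_coeff]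
    refine hS j (mem_range.2 (by omega)) n₀ ?_
    have := single_le_sum (f := S) (fun i _ => Nat.zero_le _) (mem_range.2 (show j < k + 1 by omega))
    omega
  refine ⟨Polynomial.taylor (n₀ : ℤ) h, n₀, ⟨?_, hk, fun j => ?_, hpos 0 (Nat.zero_le _),
    hpos k le_rfl⟩, by omega, fun n => ?_, fun q hq => ?_⟩
  · rw [Polynomial.natDegree_taylor]
  · rcases le_or_gt j k with hj | hj
    · exact (hpos j hj).le
    · rw [Polynomial.coeff_eq_zero_of_natDegree_lt (by rw [Polynomial.natDegree_taylor]; omega)]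
  · rw [Polynomial.taylor_eval]
    push_cast
    rfl
  · obtain ⟨t, ht⟩ := hroot q hq
    have hq0 : (q : ℤ) ≠ 0 := by omega
    refine ⟨((t - n₀) % (q : ℤ)).toNat, ?_⟩
    rw [Int.toNat_of_nonneg (Int.emod_nonneg _ hq0), Polynomial.taylor_eval]
    have hd : (q : ℤ) ∣ h.eval ((t - n₀) % (q : ℤ) + n₀) - h.eval t := by
      refine dvd_trans ?_ (Polynomial.sub_dvd_eval_sub _ _ h)
      exact ⟨-((t - n₀) / (q : ℤ)), by rw [Int.emod_def]; ring⟩
    simpa using dvd_add hd ht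

end Vale.Agent.P042.Gen
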