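import Vale.Agent.P042.Gen.Comb
import Vale.Agent.P042.Gen.Major
import Vale.Agent.P042.Gen.Minor
import Vale.Agent.P042.Gen.Kernel
import Vale.Agent.P042.Gen.Passage
import Vale.Agent.P042.Odd.Main

/-!
A stretched-exponential saving for sets avoiding the differences of any intersective polynomial.
-/

open Finset

namespace Vale.Agent.P042.Gen

lemma fR_eq (f : Polynomial ℤ) (x : ℝ) :
    fR f x = ∑ j ∈ range (f.natDegree + 1), (f.coeff j : ℝ) * x ^ j := by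
  rw [fR, Polynomial.eval_map, Polynomial.eval₂_eq_sum_range]
  simp

lemma fR_natCast (f : Polynomial ℤ) (n : ℕ) : fR f n = ((f.eval (n : ℤ) : ℤ) : ℝ) := by
  rw [fR_eq, Polynomial.eval_eq_sum_range]
  simp

variable {f : Polynomial ℤ} {k : ℕ}

lemma span_eq (hf : Good f k) (M : ℕ) :
    span f M = ∑ j ∈ range k, (f.coeff (j + 1) : ℝ) * (M : ℝ) ^ (j + 1) := by
  rw [span, fR_eq, fR_eq, hf.degree, sum_range_succ' _ k, sum_range_succ' _ k]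
  simp

lemma pow_le_span (hf : Good f k) (M : ℕ) : (M : ℝ) ^ k ≤ span f M := by
  have hk := hf.pos
  rw [span_eq hf, show k = k - 1 + 1 by omega, sum_range_succ]
  have h1 : 0 ≤ ∑ j ∈ range (k - 1), (f.coeff (j + 1) : ℝ) * (M : ℝ) ^ (j + 1) :=
    sum_nonneg fun j _ => mul_nonneg (by exact_mod_cast hf.nonneg _) (by positivity)
  have h2 : (1 : ℝ) ≤ (f.coeff (k - 1 + 1) : ℝ) := by
    rw [show k - 1 + 1 = k by omega]; exact_mod_cast hf.lead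
  have h3 := le_mul_of_one_le_left (show (0 : ℝ) ≤ (M : ℝ) ^ (k - 1 + 1) by positivity) h2
  linarith

lemma two_mul_span_le (hf : Good f k) (M : ℕ) : 2 * span f M ≤ span f (2 * M) := by
  rw [span_eq hf, span_eq hf, mul_sum]
  refine sum_le_sum fun j _ => ?_
  push_cast
  rw [mul_pow, mul_left_comm]
  refine mul_le_mul_of_nonneg_left (mul_le_mul_of_nonneg_right ?_ (by positivity))
    (by exact_mod_cast hf.nonneg _)
  exact le_self_pow₀ (by norm_num) (by omega)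

lemma eval_le (hf : Good f k) {M : ℕ} (hM : 1 ≤ M) {n : ℕ} (hn : n ≤ M) :
    0 < f.eval (n : ℤ) ∧
      f.eval (n : ℤ) ≤ (∑ j ∈ range (k + 1), f.coeff j) * ((M ^ k : ℕ) : ℤ) := by
  rw [Polynomial.eval_eq_sum_range, hf.degree]
  refine ⟨?_, ?_⟩
  · refine lt_of_lt_of_le hf.const (le_trans (by simp)
      (single_le_sum (f := fun j => f.coeff j * (n : ℤ) ^ j)
        (fun j _ => mul_nonneg (hf.nonneg j) (by positivity)) (mem_range.2 (Nat.succ_pos k))))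
  · rw [sum_mul]
    refine sum_le_sum fun j hj => mul_le_mul_of_nonneg_left ?_ (hf.nonneg j)
    have h1 : n ^ j ≤ M ^ k := (Nat.pow_le_pow_left hn j).trans
      (Nat.pow_le_pow_right hM (Nat.lt_succ_iff.1 (mem_range.1 hj)))
    exact_mod_cast h1

/-- The test polynomial. -/
noncomputable def test (f : Polynomial ℤ) (z : ℕ) (h : ℝ) (J P D G M n : ℕ) (θ : ℝ) : ℝ :=
  ∑ j ∈ range (n + 1), (3 / 4 : ℝ) ^ j / span f (M * 2 ^ (n - j)) ^ 2 *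
    comb h J P D G (fun g => dil f z (M * 2 ^ (n - j)) g θ)

/-- The main term is almost nonnegative. -/
lemma sector_lower {S₀ R : ℂ} {ε K a b ν : ℝ} (hK : 0 ≤ K)
    (hS₀ : S₀ = 0 ∨ Near S₀ ε) (hε : (Real.exp ε - 1) * (1 + K) ≤ 1) (ha : 0 ≤ a) (ha' : a ≤ 2)
    (hb : |b| ≤ 4) (hab : |b| ≤ K * a + ν) (hν : 0 ≤ ν) :
    -(ν + 6 * ‖R‖) ≤ (S₀ + R).re * a - (S₀ + R).im * b := by
  have h1 : |R.re * a| ≤ 2 * ‖R‖ := by
    rw [abs_mul, abs_of_nonneg ha, mul_comm 2 ‖R‖]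
    exact mul_le_mul (Complex.abs_re_le_norm R) ha' ha (norm_nonneg _)
  have h2 : |R.im * b| ≤ 4 * ‖R‖ := by
    rw [abs_mul, mul_comm 4 ‖R‖]
    exact mul_le_mul (Complex.abs_im_le_norm R) hb (abs_nonneg _) (norm_nonneg _)
  have h3 : -ν ≤ S₀.re * a - S₀.im * b := by
    rcases hS₀ with rfl | ⟨H, h0, hH1, hH⟩
    · simp; linarith
    set η := Real.exp ε - 1 with hη
    have hre : H - H * η ≤ S₀.re := by
      have := (abs_le.1 ((Complex.abs_re_le_norm (S₀ - H)).trans hH)).1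
      simp at this
      linarith
    have him : |S₀.im| ≤ H * η := by
      have := (Complex.abs_im_le_norm (S₀ - H)).trans hH
      simpa using this
    rcases eq_or_lt_of_le h0 with rfl | hHpos
    · simp at hre him
      rw [him]
      nlinarith
    have hη0 : 0 ≤ η := nonneg_of_mul_nonneg_right (le_trans (abs_nonneg _) him) hHpos
    have hib : |S₀.im * b| ≤ H * η * (K * a + ν) := by
      rw [abs_mul]; exact mul_le_mul him hab (abs_nonneg _) (by positivity)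
    have hη1 : η ≤ 1 := by nlinarith
    have hHη : H * η ≤ 1 := by nlinarith
    have e1 : (H - H * η) * a ≤ S₀.re * a := mul_le_mul_of_nonneg_right hre ha
    have e2 : 0 ≤ H * a * (1 - η * (1 + K)) := mul_nonneg (mul_nonneg h0 ha) (by linarith)
    have e3 : H * η * ν ≤ ν := mul_le_of_le_one_left hν hHη
    nlinarith [(abs_le.1 hib).2]
  simp only [Complex.add_re, Complex.add_im]
  nlinarith [abs_le.1 h1, abs_le.1 h2]

lemma weight_sum_le (n : ℕ) : ∑ j ∈ range (n + 1), (3 / 4 : ℝ) ^ j ≤ 4 := by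
  induction n with
  | zero => norm_num
  | succ n ih =>
    rw [sum_range_succ']
    have : ∑ j ∈ range (n + 1), (3 / 4 : ℝ) ^ (j + 1) = 3 / 4 * ∑ j ∈ range (n + 1), (3 / 4 : ℝ) ^ j := by
      rw [mul_sum]; exact sum_congr rfl fun j _ => pow_succ' _ _
    rw [this]; simp; linarith

/-- All dilated sums vanish against the energy of a free set. -/
lemma sum_energy_dil (z g : ℕ) {M N Λ : ℕ} [NeZero Λ] {A : Finset ℕ} (hA : A ⊆ Icc 1 N)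
    (hval : ∀ n < M, 0 ≤ f.eval (n : ℤ) ∧ (N : ℤ) + f.eval (n : ℤ) < Λ)
    (hfree : ∀ x ∈ A, ∀ y ∈ A, ∀ n : ℕ, (x : ℤ) ≠ y + f.eval (n : ℤ)) :
    ∑ j ∈ range Λ, Odd.energy A Λ j * dil f z M g ((j : ℝ) / Λ) = 0 := by
  simp only [dil, Odd.energy, mul_sum, sum_mul]
  rw [sum_comm]
  refine sum_eq_zero fun n hn => ?_
  rw [sum_comm]
  refine sum_eq_zero fun a ha => ?_
  rw [sum_comm]
  refine sum_eq_zero fun b hb => ?_
  obtain ⟨hv0, hv1⟩ := hval n (mem_range.1 (mem_filter.1 hn).1)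
  set v := f.eval (n : ℤ) with hv
  have ha' := mem_Icc.1 (hA ha)
  have hb' := mem_Icc.1 (hA hb)
  have key : ∀ z : ℤ, -(Λ : ℤ) < z → z < Λ → z ≠ 0 → (z : ZMod Λ) ≠ 0 := by
    intro z h1 h2 h3 h4
    rw [ZMod.intCast_zmod_eq_zero_iff_dvd] at h4
    exact h3 (Int.eq_zero_of_abs_lt_dvd h4 (abs_lt.2 ⟨h1, h2⟩))
  have hz1 := key ((a : ℤ) - b + v) (by omega) (by omega) (by
    intro h; exact hfree b hb a ha n (by rw [← hv]; omega))
  have hz2 := key ((a : ℤ) - b - v) (by omega) (by omega) (by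
    intro h; exact hfree a ha b hb n (by rw [← hv]; omega))
  have hvR : fR f n = (v : ℝ) := fR_natCast f n
  have e : ∀ j : ℕ, Real.cos (2 * Real.pi * (((a : ℤ) - b : ℤ) : ℝ) * j / Λ) *
      ((g : ℝ) * (wt f M n * Real.cos (2 * Real.pi * ((j : ℝ) / Λ) * fR f n))) =
      (g : ℝ) * wt f M n / 2 *
        (Real.cos (2 * Real.pi * (((a : ℤ) - b + v : ℤ) : ℝ) * j / Λ) +
          Real.cos (2 * Real.pi * (((a : ℤ) - b - v : ℤ) : ℝ) * j / Λ)) := by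
    intro j
    rw [show 2 * Real.pi * (((a : ℤ) - b + v : ℤ) : ℝ) * j / Λ =
        2 * Real.pi * (((a : ℤ) - b : ℤ) : ℝ) * j / Λ +
          2 * Real.pi * ((j : ℝ) / Λ) * fR f n by push_cast; rw [hvR]; ring,
      show 2 * Real.pi * (((a : ℤ) - b - v : ℤ) : ℝ) * j / Λ =
        2 * Real.pi * (((a : ℤ) - b : ℤ) : ℝ) * j / Λ -
          2 * Real.pi * ((j : ℝ) / Λ) * fR f n by push_cast; rw [hvR]; ring,
      Real.cos_add, Real.cos_sub]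
    ring
  rw [sum_congr rfl fun j _ => e j, ← mul_sum, sum_add_distrib, Odd.sum_cos_range,
    Odd.sum_cos_range, if_neg hz1, if_neg hz2, add_zero, mul_zero]

/-- The positivity argument. -/
lemma card_bound {z : ℕ} {h : ℝ} {J P D G M n N Λ : ℕ} [NeZero Λ] {A : Finset ℕ} {lo hi : ℝ}
    (hA : A ⊆ Icc 1 N) (hΛN : N ≤ Λ)
    (hval : ∀ m < M * 2 ^ n, 0 ≤ f.eval (m : ℤ) ∧ (N : ℤ) + f.eval (m : ℤ) < Λ)
    (hfree : ∀ x ∈ A, ∀ y ∈ A, ∀ m : ℕ, (x : ℤ) ≠ y + f.eval (m : ℤ))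
    (hlo : 0 ≤ lo) (hlow : ∀ θ, -lo ≤ test f z h J P D G M n θ)
    (hhi : hi ≤ test f z h J P D G M n 0) :
    (A.card : ℝ) * hi ≤ lo * Λ := by
  rcases Nat.eq_zero_or_pos A.card with hA0 | hA0
  · rw [hA0, Nat.cast_zero, zero_mul]; positivity
  have hzero : ∑ j ∈ range Λ, Odd.energy A Λ j * test f z h J P D G M n ((j : ℝ) / Λ) = 0 := by
    simp only [test, mul_sum]
    rw [sum_comm]
    refine sum_eq_zero fun i hi => ?_
    simp only [mul_left_comm (Odd.energy A Λ _)]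
    rw [← mul_sum]
    refine mul_eq_zero_of_right _ ?_
    set M' := M * 2 ^ (n - i) with hM'
    let φ : (ℕ → ℝ) →ₗ[ℝ] ℝ := ∑ j ∈ range Λ, Odd.energy A Λ j • LinearMap.proj j
    have hφ : ∀ X : ℕ → ℝ, φ X = ∑ j ∈ range Λ, Odd.energy A Λ j * X j := fun X => by
      simp [φ, LinearMap.sum_apply]
    have hproj : ∀ j : ℕ, comb h J P D G (fun g => dil f z M' g ((j : ℝ) / Λ)) =
        comb h J P D G (fun g (l : ℕ) => dil f z M' g ((l : ℝ) / Λ)) j := fun j =>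
      (comb_map (LinearMap.proj j : (ℕ → ℝ) →ₗ[ℝ] ℝ) h J P D G
        (fun g (l : ℕ) => dil f z M' g ((l : ℝ) / Λ))).symm
    simp only [hproj]
    rw [← hφ, comb_map φ]
    have : ∀ g, φ (fun j : ℕ => dil f z M' g ((j : ℝ) / Λ)) = 0 := fun g => by
      rw [hφ]
      refine sum_energy_dil z g hA (fun m hm => hval m (lt_of_lt_of_le hm ?_)) hfree
      exact Nat.mul_le_mul_left M (Nat.pow_le_pow_right (by norm_num) (Nat.sub_le n i))
    simp only [this]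
    simp only [comb, smul_zero, sum_const_zero]
    exact avg_const h J 0 _
  have hen : ∑ j ∈ range Λ, Odd.energy A Λ j = Λ * A.card := by
    simp only [Odd.energy]
    rw [sum_comm]
    calc ∑ a ∈ A, ∑ j ∈ range Λ, ∑ b ∈ A,
          Real.cos (2 * Real.pi * (((a : ℤ) - b : ℤ) : ℝ) * j / Λ)
        = ∑ a ∈ A, (Λ : ℝ) := by
          refine sum_congr rfl fun a ha => ?_
          rw [sum_comm, sum_eq_single_of_mem a ha]
          · rw [Odd.sum_cos_range, if_pos (by simp)]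
          · intro b hb hne
            rw [Odd.sum_cos_range, if_neg]
            rw [ZMod.intCast_zmod_eq_zero_iff_dvd]
            intro hd
            have ha' := mem_Icc.1 (hA ha)
            have hb' := mem_Icc.1 (hA hb)
            have := Int.eq_zero_of_abs_lt_dvd hd (abs_lt.2 ⟨by omega, by omega⟩)
            omega
      _ = _ := by simp [mul_comm]
  have hsum : (A.card : ℝ) ^ 2 * hi ≤ lo * (Λ * A.card) := by
    calc (A.card : ℝ) ^ 2 * hi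
        ≤ Odd.energy A Λ 0 * (test f z h J P D G M n (((0 : ℕ) : ℝ) / Λ) + lo) := by
          have he : Odd.energy A Λ 0 = (A.card : ℝ) ^ 2 := by simp [Odd.energy, sq]
          rw [he, Nat.cast_zero, zero_div]
          exact mul_le_mul_of_nonneg_left (by linarith) (sq_nonneg _)
      _ ≤ ∑ j ∈ range Λ, Odd.energy A Λ j * (test f z h J P D G M n ((j : ℝ) / Λ) + lo) :=
          single_le_sum
            (f := fun j => Odd.energy A Λ j * (test f z h J P D G M n ((j : ℝ) / Λ) + lo))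
            (fun j _ => mul_nonneg (Odd.energy_nonneg _ _ _)
              (by have := hlow ((j : ℝ) / Λ); linarith))
            (mem_range.2 (NeZero.pos Λ))
      _ = _ := by
          simp only [mul_add, sum_add_distrib]
          rw [hzero, ← sum_mul, hen]
          ring
  refine le_of_mul_le_mul_right ?_ (show (0 : ℝ) < A.card by exact_mod_cast hA0)
  linarith [hsum]

/-- The test polynomial near a fraction. -/
lemma test_approx (hf : Good f k) {K : ℝ} (hK : 0 ≤ K)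
    (hmaj : ∀ (z M g q : ℕ), 1 ≤ M → 1 ≤ g → 1 ≤ q → ∀ (a : ℤ) (β θ : ℝ), θ = (a : ℝ) / q + β →
      |dil f z M g θ - span f M ^ 2 *
          ((phi f z q g a).re * kerC (2 * Real.pi * β * span f M) -
            (phi f z q g a).im * kerS (2 * Real.pi * β * span f M))| ≤
        K * (g : ℝ) ^ 2 * q * (1 + |β| * (M : ℝ) ^ k) * (M : ℝ) ^ (2 * k - 1))
    {z : ℕ} {h : ℝ} (h0 : 0 ≤ h) (h1 : h ≤ 1) {J P D G M n q B : ℕ} (hM : 1 ≤ M) (hq : 1 ≤ q)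
    (hgB : 2 ^ (P * P * J) * D ≤ B) {a : ℤ} {β θ : ℝ} (hθ : θ = (a : ℝ) / q + β) :
    |test f z h J P D G M n θ - ((comb h J P D G (fun g => phi f z q g a)).re *
          ∑ j ∈ range (n + 1), (3 / 4 : ℝ) ^ j * kerC (2 * Real.pi * β * span f (M * 2 ^ (n - j))) -
        (comb h J P D G (fun g => phi f z q g a)).im *
          ∑ j ∈ range (n + 1), (3 / 4 : ℝ) ^ j * kerS (2 * Real.pi * β * span f (M * 2 ^ (n - j))))| ≤
      4 * ((D : ℝ) ^ 2 * (K * (B : ℝ) ^ 2 * q * (1 + |β| * ((M * 2 ^ n : ℕ) : ℝ) ^ k) / M)) := by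
  set S := comb h J P D G (fun g => phi f z q g a)
  set E := (D : ℝ) ^ 2 * (K * (B : ℝ) ^ 2 * q * (1 + |β| * ((M * 2 ^ n : ℕ) : ℝ) ^ k) / M) with hE
  rw [mul_sum, mul_sum, ← sum_sub_distrib, test, ← sum_sub_distrib]
  refine (abs_sum_le_sum_abs _ _).trans ((sum_le_sum (g := fun j => (3 / 4 : ℝ) ^ j * E)
    fun j hj => ?_).trans ?_)
  · set M' := M * 2 ^ (n - j) with hM'
    set c := kerC (2 * Real.pi * β * span f M')
    set s := kerS (2 * Real.pi * β * span f M')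
    have hM'1 : 1 ≤ M' := Nat.one_le_iff_ne_zero.2 (Nat.mul_ne_zero (by omega) (by positivity))
    have hM'r : (1 : ℝ) ≤ M' := by exact_mod_cast hM'1
    have hU : 0 < span f M' := lt_of_lt_of_le (by positivity) (pow_le_span hf M')
    have hU2 : (M' : ℝ) ^ (2 * k) ≤ span f M' ^ 2 := by
      rw [mul_comm 2 k, pow_mul]; exact pow_le_pow_left₀ (by positivity) (pow_le_span hf M') 2
    let L : ℂ →ₗ[ℝ] ℝ := (span f M' ^ 2 * c) • Complex.reLm - (span f M' ^ 2 * s) • Complex.imLm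
    have hL : L S = comb h J P D G (fun g =>
        span f M' ^ 2 * ((phi f z q g a).re * c - (phi f z q g a).im * s)) := by
      rw [comb_map L]
      congr 1
      funext g
      simp [L]
      ring
    have hval : (3 / 4 : ℝ) ^ j / span f M' ^ 2 * comb h J P D G (fun g => dil f z M' g θ) -
        (S.re * ((3 / 4 : ℝ) ^ j * c) - S.im * ((3 / 4 : ℝ) ^ j * s)) =
        (3 / 4 : ℝ) ^ j / span f M' ^ 2 * comb h J P D G (fun g => dil f z M' g θ -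
          span f M' ^ 2 * ((phi f z q g a).re * c - (phi f z q g a).im * s)) := by
      have hsub : comb h J P D G (fun g => dil f z M' g θ -
          span f M' ^ 2 * ((phi f z q g a).re * c - (phi f z q g a).im * s)) =
          comb h J P D G (fun g => dil f z M' g θ) - L S := by
        rw [hL]
        simp only [comb, smul_sub, sum_sub_distrib, avg_sub]
      rw [hsub]
      simp [L]
      field_simp
    rw [hval, abs_mul, abs_div, abs_of_nonneg (by positivity : (0 : ℝ) ≤ (3 / 4 : ℝ) ^ j),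
      abs_of_pos (by positivity : 0 < span f M' ^ 2), div_mul_eq_mul_div, mul_div_assoc]
    refine mul_le_mul_of_nonneg_left ?_ (by positivity)
    rw [div_le_iff₀ (by positivity)]
    set β' := K * (B : ℝ) ^ 2 * q * (1 + |β| * ((M * 2 ^ n : ℕ) : ℝ) ^ k) with hβ'
    have hb := norm_comb_le (V := ℝ) h0 h1 J P D G
      (B := β' * (M' : ℝ) ^ (2 * k - 1)) (by positivity)
      (fun g => dil f z M' g θ -
        span f M' ^ 2 * ((phi f z q g a).re * c - (phi f z q g a).im * s))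
      fun g₁ hg₁ d hd x hx => by
        obtain ⟨hg1, hgle⟩ := dom_le (Nat.dvd_of_mem_divisors hg₁) hd hx
        rw [Real.norm_eq_abs]
        refine (hmaj z M' _ q hM'1 hg1 hq a β θ hθ).trans ?_
        have hgr : ((g₁ * x.2 : ℕ) : ℝ) ≤ B := by exact_mod_cast hgle.trans hgB
        have hMr : (M' : ℝ) ≤ ((M * 2 ^ n : ℕ) : ℝ) := by
          exact_mod_cast Nat.mul_le_mul_left M (Nat.pow_le_pow_right (by norm_num) (Nat.sub_le n j))
        rw [hβ']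
        gcongr
    rw [Real.norm_eq_abs] at hb
    refine hb.trans ?_
    rw [hE, mul_assoc ((D : ℝ) ^ 2)]
    refine mul_le_mul_of_nonneg_left ?_ (by positivity)
    have hMM : (M : ℝ) ≤ M' := by exact_mod_cast Nat.le_mul_of_pos_right M (by positivity)
    rw [div_mul_eq_mul_div, le_div_iff₀ (by positivity), mul_assoc]
    refine mul_le_mul_of_nonneg_left ?_ (by positivity)
    refine (mul_le_mul_of_nonneg_left hMM (by positivity)).trans ?_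
    rw [← pow_succ, Nat.sub_add_cancel (by have := hf.pos; omega)]
    exact hU2
  · rw [← sum_mul]
    exact mul_le_mul_of_nonneg_right (weight_sum_le n) (by positivity)

/-- The sum of the two kernels against the weights. -/
lemma kernel_bounds (n : ℕ) (x : ℕ → ℝ) :
    (∑ j ∈ range (n + 1), (3 / 4 : ℝ) ^ j * kerC (x j)) ≤ 2 ∧
      0 ≤ (∑ j ∈ range (n + 1), (3 / 4 : ℝ) ^ j * kerC (x j)) ∧
      |∑ j ∈ range (n + 1), (3 / 4 : ℝ) ^ j * kerS (x j)| ≤ 4 := by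
  refine ⟨?_, sum_nonneg fun j _ => mul_nonneg (by positivity) (kerC_nonneg _), ?_⟩
  · refine (sum_le_sum fun j _ => mul_le_mul_of_nonneg_left (kerC_le_half _)
      (by positivity)).trans ?_
    rw [← sum_mul]
    linarith [weight_sum_le n]
  · refine (abs_sum_le_sum_abs _ _).trans ((sum_le_sum fun j _ => ?_).trans (weight_sum_le n))
    rw [abs_mul, abs_of_nonneg (by positivity : (0 : ℝ) ≤ (3 / 4 : ℝ) ^ j)]
    exact mul_le_of_le_one_right (by positivity) (abs_kerS_le_one _)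

lemma half_pow_eq (s : ℕ) : (1 / 2 : ℝ) ^ s = 1 / (2 : ℝ) ^ s := by
  rw [div_pow, one_pow]

lemma rpow_trunc {G : ℕ} (hG : 1 ≤ G) (s : ℕ) :
    (((2 ^ (4 * G * s) : ℕ) : ℕ) : ℝ) ^ (-(1 / (2 * G) : ℝ)) ≤ (1 / 2 : ℝ) ^ s := by
  have hG0 : (0 : ℝ) < G := by exact_mod_cast hG
  rw [Nat.cast_pow, Nat.cast_ofNat, ← Real.rpow_natCast_mul (by norm_num), half_pow_eq,
    ← Real.rpow_natCast 2 s, one_div ((2 : ℝ) ^ ((s : ℕ) : ℝ)), ← Real.rpow_neg (by norm_num)]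
  refine Real.rpow_le_rpow_of_exponent_le (by norm_num) ?_
  push_cast
  field_simp
  nlinarith [(Nat.cast_nonneg s : (0 : ℝ) ≤ s)]

lemma ratio_le {G T : ℕ} (hG : 1 ≤ G) (hT : 6 * G ≤ T) : ratio G ≤ 1 - 1 / (T : ℝ) := by
  have hG0 : (1 : ℝ) ≤ G := by exact_mod_cast hG
  have hT0 : (6 : ℝ) * G ≤ T := by exact_mod_cast hT
  set x := Real.log 2 / (2 * G) with hx
  have h2 : 2 / 3 ≤ Real.log 2 := by
    have := Real.log_two_gt_d9
    linarith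
  have hx0 : 1 / (3 * G) ≤ x := by
    rw [hx, div_le_div_iff₀ (by positivity) (by positivity)]; nlinarith
  have he : ratio G = Real.exp (-x) := by
    rw [ratio, Real.rpow_def_of_pos (by norm_num), hx]; ring_nf
  rw [he, Real.exp_neg]
  refine (inv_anti₀ (by positivity) (show 1 + 1 / (3 * (G : ℝ)) ≤ Real.exp x by
    linarith [Real.add_one_le_exp x])).trans ?_
  have h3 : 1 / (T : ℝ) ≤ 1 / (6 * G) := one_div_le_one_div_of_le (by positivity) hT0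
  have h4 : (1 + 1 / (3 * (G : ℝ)))⁻¹ ≤ 1 - 1 / (6 * G) := by
    rw [inv_le_iff_one_le_mul₀ (by positivity)]
    field_simp
    nlinarith
  linarith

lemma two_mul_exp_sub_one {K : ℝ} (hK : 0 ≤ K) {Z : ℝ} (hZ : 2 * (K + 2) ≤ Z) :
    (Real.exp (1 / (2 * Z) + 1 / (2 * Z)) - 1) * (1 + K) ≤ 1 ∧
      Real.exp (1 / (2 * Z) + 1 / (2 * Z)) ≤ 3 := by
  have hZ0 : 0 < Z := by linarith
  rw [show 1 / (2 * Z) + 1 / (2 * Z) = 1 / Z by field_simp; ring]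
  set x := 1 / Z with hx
  have hx0 : 0 ≤ x := by positivity
  have hx4 : x ≤ 1 / 4 := one_div_le_one_div_of_le (by norm_num) (by linarith)
  have h1 : Real.exp x ≤ 1 + 2 * x := by
    refine (Real.exp_bound_div_one_sub_of_interval hx0 (by linarith)).trans ?_
    rw [div_le_iff₀ (by linarith)]
    nlinarith
  have h2 : 2 * x * (1 + K) ≤ 1 := by
    rw [hx, mul_one_div, div_mul_eq_mul_div, div_le_one hZ0]
    linarith
  refine ⟨?_, by linarith⟩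
  nlinarith

lemma decay_pow {T : ℕ} (hT : 1 ≤ T) (s : ℕ) : (1 - 1 / (T : ℝ)) ^ (T * s) ≤ (1 / 2 : ℝ) ^ s := by
  have hT0 : (1 : ℝ) ≤ T := by exact_mod_cast hT
  have hh0 : 0 ≤ 1 - 1 / (T : ℝ) := by
    rw [sub_nonneg, div_le_one (by linarith)]; exact hT0
  have h1 : 1 - 1 / (T : ℝ) ≤ Real.exp (-(1 / (T : ℝ))) := by
    linarith [Real.add_one_le_exp (-(1 / (T : ℝ)))]
  have h2 : Real.exp (-1) ≤ 1 / 2 := by
    rw [Real.exp_neg, inv_eq_one_div]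
    exact one_div_le_one_div_of_le (by norm_num) (by linarith [Real.add_one_le_exp (1 : ℝ)])
  calc (1 - 1 / (T : ℝ)) ^ (T * s) ≤ Real.exp (-(1 / (T : ℝ))) ^ (T * s) :=
        pow_le_pow_left₀ hh0 h1 _
    _ = Real.exp (-1) ^ s := by
        rw [pow_mul, ← Real.exp_nat_mul]
        congr 2
        field_simp
    _ ≤ _ := pow_le_pow_left₀ (Real.exp_pos _).le h2 s

/-- A power of two dominated by another. -/
lemma two_pow_div_le {x y s : ℕ} (h : x + s ≤ y) : (2 : ℝ) ^ x / (2 : ℝ) ^ y ≤ (1 / 2 : ℝ) ^ s := by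
  rw [half_pow_eq, div_le_div_iff₀ (by positivity) (by positivity), one_mul, ← pow_add]
  exact pow_le_pow_right₀ (by norm_num) h

/-- The error term next to a fraction with small denominator. -/
lemma error_le {K C₂ : ℝ} (hK : 0 ≤ K) (hC₂ : 1 ≤ C₂) {G k e s r b n q : ℕ} {β : ℝ}
    (hexp : 8 * G * s + 2 * r + (e * s + r * k) + (e * s + 2 * (k * n)) + s ≤ b * r)
    (hq : (q : ℝ) ≤ C₂ * (2 : ℝ) ^ (e * s) * ((2 ^ r : ℕ) : ℝ) ^ k)
    (hβ : |β| * ((2 ^ (b * r) : ℕ) : ℝ) ^ k ≤ C₂ * (2 : ℝ) ^ (e * s) * (2 : ℝ) ^ (k * n)) :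
    4 * ((((2 ^ (4 * G * s) : ℕ) : ℕ) : ℝ) ^ 2 * (K * ((2 ^ r : ℕ) : ℝ) ^ 2 * q *
        (1 + |β| * ((2 ^ (b * r) * 2 ^ n : ℕ) : ℝ) ^ k) / ((2 ^ (b * r) : ℕ) : ℝ))) ≤
      4 * K * C₂ * (1 + C₂) * (1 / 2 : ℝ) ^ s := by
  push_cast at hq hβ ⊢
  have hβ' : 1 + |β| * ((2 : ℝ) ^ (b * r) * 2 ^ n) ^ k ≤
      (1 + C₂) * (2 : ℝ) ^ (e * s + 2 * (k * n)) := by
    rw [mul_pow, ← mul_assoc, ← pow_mul (2 : ℝ) n k, mul_comm n k]
    refine le_trans (add_le_add le_rfl (mul_le_mul_of_nonneg_right hβ (by positivity))) ?_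
    have h1 : (1 : ℝ) ≤ 2 ^ (e * s + 2 * (k * n)) := one_le_pow₀ (by norm_num)
    rw [pow_add, two_mul (k * n), pow_add] at h1 ⊢
    nlinarith
  calc 4 * (((2 : ℝ) ^ (4 * G * s)) ^ 2 * (K * ((2 : ℝ) ^ r) ^ 2 * q *
          (1 + |β| * ((2 : ℝ) ^ (b * r) * 2 ^ n) ^ k) / (2 : ℝ) ^ (b * r)))
      ≤ 4 * (((2 : ℝ) ^ (4 * G * s)) ^ 2 * (K * ((2 : ℝ) ^ r) ^ 2 *
          (C₂ * (2 : ℝ) ^ (e * s) * ((2 : ℝ) ^ r) ^ k) *
          ((1 + C₂) * (2 : ℝ) ^ (e * s + 2 * (k * n))) / (2 : ℝ) ^ (b * r))) := by gcongr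
    _ = 4 * K * C₂ * (1 + C₂) *
          ((2 : ℝ) ^ (8 * G * s + 2 * r + (e * s + r * k) + (e * s + 2 * (k * n))) /
            (2 : ℝ) ^ (b * r)) := by ring
    _ ≤ _ := mul_le_mul_of_nonneg_left (two_pow_div_le hexp) (by positivity)

/-- The count of large primes in the denominator. -/
lemma card_large_le {P J D k q' : ℕ} {g₁ x Q q₂ : ℕ} (hq' : 1 ≤ q')
    (hg₁ : g₁ ∣ capW J (smallPrimes P)) (hx0 : 0 < x) (hx : x ≤ D) (hQ : Q = q' * (g₁ * x) ^ k)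
    (hq₂ : q₂ ∣ Q) (hq₂0 : 0 < q₂) (hrough : ∀ p ∈ q₂.primeFactors, P ≤ p) :
    2 ^ q₂.primeFactors.card ≤ q' * D ^ k := by
  have hcopg : q₂.Coprime g₁ := by
    refine Nat.Coprime.coprime_dvd_right hg₁ (Nat.Coprime.symm (coprime_capW fun p hp => ?_))
    obtain ⟨hpP, hp'⟩ := mem_smallPrimes.1 hp
    refine (hp'.coprime_iff_not_dvd).2 fun hd' => ?_
    exact absurd (hrough p (hp'.mem_primeFactors hd' hq₂0.ne')) (not_le.2 hpP)
  have h1 : q₂ ∣ q' * x ^ k := by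
    refine Nat.Coprime.dvd_of_dvd_mul_right (hcopg.pow_right k) ?_
    rw [mul_assoc, ← mul_pow, mul_comm x g₁, ← hQ]
    exact hq₂
  calc 2 ^ q₂.primeFactors.card ≤ ∏ p ∈ q₂.primeFactors, p :=
        pow_card_le_prod _ _ _ fun p hp => (Nat.prime_of_mem_primeFactors hp).two_le
    _ ≤ q₂ := Nat.le_of_dvd hq₂0 (Nat.prod_primeFactors_dvd q₂)
    _ ≤ q' * x ^ k := Nat.le_of_dvd (Nat.mul_pos hq' (Nat.pow_pos hx0)) h1
    _ ≤ q' * D ^ k := Nat.mul_le_mul_left _ (Nat.pow_le_pow_left hx k)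

/-- The phase budget at the large primes. -/
lemma large_budget {G W s c card : ℕ} {γ g Z : ℝ} (hG : 1 ≤ G) (hs : 1 ≤ s) (hW : 0 < W)
    (hc : 0 < c) (hcard : card ≤ c * s) (hg0 : 0 ≤ g) (hg : g ≤ γ) (hZ : 0 < Z) (hγ : 0 < γ)
    (hWdef : (W : ℝ) = 4 * Z * c * γ) :
    (card : ℝ) * (2 * g * (((W * s) ^ (2 * G) : ℕ) : ℝ) ^ (-(1 / (2 * G) : ℝ))) ≤ 1 / (2 * Z) := by
  have hWs : (0 : ℝ) < (W : ℝ) * s := by exact_mod_cast Nat.mul_pos hW hs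
  have hPw : (((W * s) ^ (2 * G) : ℕ) : ℝ) ^ (-(1 / (2 * G) : ℝ)) = 1 / ((W : ℝ) * s) := by
    push_cast
    rw [← Real.rpow_natCast_mul hWs.le, one_div ((W : ℝ) * s), ← Real.rpow_neg_one]
    congr 1
    have : (G : ℝ) ≠ 0 := by exact_mod_cast (show G ≠ 0 by omega)
    push_cast
    field_simp
  have hcr : (card : ℝ) ≤ c * s := by exact_mod_cast hcard
  rw [hPw]
  refine (mul_le_mul hcr (mul_le_mul_of_nonneg_right (mul_le_mul_of_nonneg_left hg (by norm_num))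
    (by positivity)) (by positivity) (by positivity)).trans_eq ?_
  rw [hWdef]
  have hs0 : (s : ℝ) ≠ 0 := by exact_mod_cast (show s ≠ 0 by omega)
  have hc0 : (c : ℝ) ≠ 0 := by exact_mod_cast (show c ≠ 0 by omega)
  field_simp
  ring

/-- All dilated sums small: the test polynomial is small. -/
lemma test_small (hf : Good f k) {z : ℕ} {h : ℝ} (h0 : 0 ≤ h) (h1 : h ≤ 1) {J P D G M n : ℕ}
    (hM : 1 ≤ M) {K δ : ℝ} (hK : 0 < K) (hDK : (D : ℝ) ^ 2 / K ≤ δ) {θ : ℝ}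
    (hall : ∀ j ≤ n, ∀ g₁ ∈ (capW J (smallPrimes P)).divisors, ∀ d ∈ bigMods D P,
      ∀ x ∈ d.divisorsAntidiagonal, |dil f z (M * 2 ^ (n - j)) (g₁ * x.2) θ| ≤
        ((M * 2 ^ (n - j) : ℕ) : ℝ) ^ (2 * k) / K) :
    |test f z h J P D G M n θ| ≤ 4 * δ := by
  have hδ0 : 0 ≤ δ := le_trans (by positivity) hDK
  refine (abs_sum_le_sum_abs _ _).trans ((sum_le_sum (g := fun j => (3 / 4 : ℝ) ^ j * δ)
    fun j hj => ?_).trans ?_)
  · set M' := M * 2 ^ (n - j) with hM'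
    have hM'0 : (0 : ℝ) < M' := by exact_mod_cast Nat.mul_pos hM (Nat.two_pow_pos (n - j))
    have hU : 0 < span f M' := lt_of_lt_of_le (by positivity) (pow_le_span hf M')
    have hb := norm_comb_le (V := ℝ) h0 h1 J P D G
      (B := (M' : ℝ) ^ (2 * k) / K) (by positivity)
      (fun g => dil f z M' g θ) fun g₁ hg₁ d hd x hx =>
        hall j (Nat.lt_succ_iff.1 (mem_range.1 hj)) g₁ hg₁ d hd x hx
    rw [abs_mul, abs_div, abs_of_nonneg (by positivity : (0 : ℝ) ≤ (3 / 4 : ℝ) ^ j),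
      abs_of_pos (by positivity : 0 < span f M' ^ 2), div_mul_eq_mul_div, mul_div_assoc]
    refine mul_le_mul_of_nonneg_left ?_ (by positivity)
    rw [div_le_iff₀ (by positivity)]
    rw [Real.norm_eq_abs] at hb
    refine hb.trans ?_
    have hU2 : (M' : ℝ) ^ (2 * k) ≤ span f M' ^ 2 := by
      rw [mul_comm 2 k, pow_mul]
      exact pow_le_pow_left₀ (by positivity) (pow_le_span hf M') 2
    calc (D : ℝ) ^ 2 * ((M' : ℝ) ^ (2 * k) / K) = (D : ℝ) ^ 2 / K * (M' : ℝ) ^ (2 * k) := by ring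
      _ ≤ δ * span f M' ^ 2 := mul_le_mul hDK hU2 (by positivity) hδ0
  · rw [← sum_mul]
    exact mul_le_mul_of_nonneg_right (weight_sum_le n) hδ0

/-- Next to a fraction the test polynomial is almost nonnegative. -/
lemma test_lower_major (hf : Good f k) {C G : ℕ} (hdec : Decay k C G) {K₁ K₃ : ℝ} (hK₁ : 0 ≤ K₁)
    (hK₃ : 0 ≤ K₃)
    (hmaj : ∀ (z M g q : ℕ), 1 ≤ M → 1 ≤ g → 1 ≤ q → ∀ (a : ℤ) (β θ : ℝ), θ = (a : ℝ) / q + β →
      |dil f z M g θ - span f M ^ 2 *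
          ((phi f z q g a).re * kerC (2 * Real.pi * β * span f M) -
            (phi f z q g a).im * kerS (2 * Real.pi * β * span f M))| ≤
        K₁ * (g : ℝ) ^ 2 * q * (1 + |β| * (M : ℝ) ^ k) * (M : ℝ) ^ (2 * k - 1))
    (hker : ∀ (n : ℕ) (x : ℝ) (u : ℕ → ℝ), (∀ j ≤ n, 0 < u j) → (∀ j < n, 2 * u (j + 1) ≤ u j) →
      |∑ j ∈ range (n + 1), (3 / 4 : ℝ) ^ j * kerS (x * u j)| ≤
        K₃ * ∑ j ∈ range (n + 1), (3 / 4 : ℝ) ^ j * kerC (x * u j) + K₃ * (3 / 4 : ℝ) ^ n)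
    {z : ℕ} {h : ℝ} (hhr : ratio G ≤ h) (h1 : h ≤ 1) {J P D M n q B : ℕ} (hP : 1 ≤ P)
    (hD : 1 ≤ D) (hM : 1 ≤ M) (hq : 0 < q) (hgB : 2 ^ (P * P * J) * D ≤ B) {a : ℤ} {β θ : ℝ}
    (hθ : θ = (a : ℝ) / q + β) (hz : (q : ℤ) ∣ f.eval (z : ℤ)) (ha : IsCoprime a (q : ℤ))
    {ε δ Err : ℝ} (hbudget : (Real.exp (ε + ε) - 1) * (1 + K₃) ≤ 1)
    (hexp3 : Real.exp (ε + ε) ≤ 3) (hε₁ : (P : ℝ) * ((1 - h) * gain C G) ≤ ε)
    (hε₂ : ∀ q₂, q₂ ∣ q → (∀ p ∈ q₂.primeFactors, P ≤ p) →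
      (q₂.primeFactors.card : ℝ) * (2 * gain C G * (P : ℝ) ^ (-(1 / (2 * G) : ℝ))) ≤ ε)
    (hhJ : h ^ J ≤ δ) (hDσ : (D : ℝ) ^ (-(1 / (2 * G) : ℝ)) ≤ δ) (hn : (3 / 4 : ℝ) ^ n ≤ δ)
    (herr : 4 * ((D : ℝ) ^ 2 * (K₁ * (B : ℝ) ^ 2 * q *
      (1 + |β| * ((M * 2 ^ n : ℕ) : ℝ) ^ k) / M)) ≤ Err) :
    -(Err + (K₃ + 6 * ((2 + gain C G) * 6)) * δ) ≤ test f z h J P D G M n θ := by
  have hh0 : 0 ≤ h := le_trans (ratio_pos G).le hhr
  have hgain := gain_nonneg (C := C) hdec.2.1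
  have hδ0 : 0 ≤ δ := le_trans (by positivity) hn
  obtain ⟨S₀, Rm, hS₀, heq, hRm⟩ :=
    comb_phi hf.degree.le hdec hP hhr h1 J hD hq hz ha hε₁ hε₂
  have happ := (test_approx hf hK₁ hmaj (z := z) (G := G) (n := n) hh0 h1 hM hq hgB hθ).trans herr
  obtain ⟨hk2, hk0, hkS⟩ :=
    kernel_bounds n (fun i => 2 * Real.pi * β * span f (M * 2 ^ (n - i)))
  have hu : |∑ j ∈ range (n + 1), (3 / 4 : ℝ) ^ j *
        kerS (2 * Real.pi * β * span f (M * 2 ^ (n - j)))| ≤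
      K₃ * ∑ j ∈ range (n + 1), (3 / 4 : ℝ) ^ j *
        kerC (2 * Real.pi * β * span f (M * 2 ^ (n - j))) + K₃ * δ := by
    refine (hker n (2 * Real.pi * β) (fun j => span f (M * 2 ^ (n - j))) (fun j _ => ?_)
      fun j hj => ?_).trans (add_le_add le_rfl (mul_le_mul_of_nonneg_left hn hK₃))
    · exact lt_of_lt_of_le (by have := hM; positivity) (pow_le_span hf _)
    · rw [show M * 2 ^ (n - j) = 2 * (M * 2 ^ (n - (j + 1))) by
        rw [show n - j = n - (j + 1) + 1 by omega, pow_succ]; ring]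
      exact two_mul_span_le hf _
  have hmain := sector_lower (R := Rm) hK₃ hS₀ hbudget hk0 hk2 hkS hu (mul_nonneg hK₃ hδ0)
  rw [← heq] at hmain
  have hA : h ^ J * (1 + gain C G) + (D : ℝ) ^ (-(1 / (2 * G) : ℝ)) ≤ (2 + gain C G) * δ := by
    have := mul_le_mul_of_nonneg_right hhJ (by linarith : (0 : ℝ) ≤ 1 + gain C G)
    linarith
  have hRm' : ‖Rm‖ ≤ (2 + gain C G) * 6 * δ := by
    refine hRm.trans ((mul_le_mul hA (show 2 * Real.exp (ε + ε) ≤ 6 by linarith) (by positivity)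
      (by positivity)).trans_eq ?_)
    ring
  linarith [(abs_le.1 happ).1]

/-- The test polynomial at the origin. -/
lemma test_origin (hf : Good f k) {K : ℝ} (hK : 0 ≤ K)
    (hmaj : ∀ (z M g q : ℕ), 1 ≤ M → 1 ≤ g → 1 ≤ q → ∀ (a : ℤ) (β θ : ℝ), θ = (a : ℝ) / q + β →
      |dil f z M g θ - span f M ^ 2 *
          ((phi f z q g a).re * kerC (2 * Real.pi * β * span f M) -
            (phi f z q g a).im * kerS (2 * Real.pi * β * span f M))| ≤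
        K * (g : ℝ) ^ 2 * q * (1 + |β| * (M : ℝ) ^ k) * (M : ℝ) ^ (2 * k - 1))
    {z : ℕ} {h : ℝ} (h0 : 0 ≤ h) (h1 : h ≤ 1) {J P D G M n B : ℕ} (hM : 1 ≤ M) (hD : 1 ≤ D)
    (hgB : 2 ^ (P * P * J) * D ≤ B)
    (herr : 4 * ((D : ℝ) ^ 2 * (K * (B : ℝ) ^ 2 / M)) ≤ 1 / 4) :
    1 / 4 ≤ test f z h J P D G M n 0 := by
  have hC0 := test_approx hf hK hmaj (z := z) (G := G) (n := n) (a := 0) (β := 0) (θ := 0)
    h0 h1 hM le_rfl hgB (by norm_num)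
  rw [comb_phi_one hD] at hC0
  simp only [Complex.one_re, Complex.one_im, one_mul, zero_mul, sub_zero, mul_zero, abs_zero,
    add_zero, Nat.cast_one, mul_one] at hC0
  have h12 : (1 : ℝ) / 2 ≤ ∑ j ∈ range (n + 1), (3 / 4 : ℝ) ^ j * kerC 0 := by
    refine le_trans ?_ (single_le_sum (f := fun j => (3 / 4 : ℝ) ^ j * kerC 0)
      (fun j _ => mul_nonneg (by positivity) (kerC_nonneg _)) (mem_range.2 (Nat.succ_pos n)))
    simp [kerC]
  linarith [(abs_le.1 hC0).1]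

/-- The exponent budget of the parameters. -/
lemma exp_budget {G k e s r : ℕ} (hs : s ≤ r) :
    8 * G * s + 2 * r + (e * s + r * k) + (e * s + 2 * (k * (3 * s))) + s ≤
      (8 * k + 2 * e + 8 * G + 8) * r := by
  have h1 : k * s ≤ k * r := Nat.mul_le_mul_left k hs
  have h2 : e * s ≤ e * r := Nat.mul_le_mul_left e hs
  have h3 : G * s ≤ G * r := Nat.mul_le_mul_left G hs
  nlinarith

/-- The growth of the parameters. -/
lemma size_budget {G W X b k s : ℕ} (hs : 1 ≤ s) :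
    k * (b * ((W * s) ^ (2 * G) * (W * s) ^ (2 * G) * ((X * (W * s) ^ (2 * G) + 6 * G) * s) +
        4 * G * s) + 3 * s) ≤
      k * (b * (W ^ (4 * G) * (X * W ^ (2 * G) + 6 * G) + 4 * G) + 3) * s ^ (6 * G + 1) := by
  have hs6 : s ≤ s ^ (6 * G + 1) := Nat.le_self_pow (by omega) s
  have h2 : 1 ≤ s ^ (2 * G) := Nat.one_le_pow _ _ hs
  have hT : X * (W * s) ^ (2 * G) + 6 * G ≤ (X * W ^ (2 * G) + 6 * G) * s ^ (2 * G) := by
    rw [mul_pow]; nlinarith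
  calc _ ≤ k * (b * ((W * s) ^ (2 * G) * (W * s) ^ (2 * G) *
        ((X * W ^ (2 * G) + 6 * G) * s ^ (2 * G) * s) + 4 * G * s ^ (6 * G + 1)) +
          3 * s ^ (6 * G + 1)) := by gcongr
    _ = _ := by ring

/-- The error at the origin. -/
lemma origin_error {K : ℝ} (hK : 0 ≤ K) {G s r b : ℕ} (hexp : 8 * G * s + 2 * r + s ≤ b * r) :
    4 * ((((2 ^ (4 * G * s) : ℕ) : ℕ) : ℝ) ^ 2 *
      (K * ((2 ^ r : ℕ) : ℝ) ^ 2 / ((2 ^ (b * r) : ℕ) : ℝ))) ≤ 4 * K * (1 / 2 : ℝ) ^ s := by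
  push_cast
  calc 4 * (((2 : ℝ) ^ (4 * G * s)) ^ 2 * (K * ((2 : ℝ) ^ r) ^ 2 / (2 : ℝ) ^ (b * r)))
      = 4 * K * ((2 : ℝ) ^ (8 * G * s + 2 * r) / (2 : ℝ) ^ (b * r)) := by ring
    _ ≤ _ := mul_le_mul_of_nonneg_left (two_pow_div_le hexp) (by positivity)

/-- The fraction given by a large dilated sum. -/
lemma fraction_data {C₂ e s r k M₀ M' g q' : ℕ} {n : ℕ} {a' : ℤ} {θ : ℝ} (hq' : 1 ≤ q')
    (hq'le : q' ≤ C₂ * 2 ^ (e * s)) (hg : 1 ≤ g) (hgle : g ≤ 2 ^ r) (hM : 1 ≤ M₀) (hMM : M₀ ≤ M')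
    (ha : |(q' : ℝ) * ((g : ℝ) ^ k * θ) - a'| ≤
      (C₂ : ℝ) * (2 : ℝ) ^ (e * s) / ((M' : ℝ) / g) ^ k) :
    ∃ (q : ℕ) (a : ℤ) (β : ℝ), 0 < q ∧ IsCoprime a (q : ℤ) ∧ θ = (a : ℝ) / q + β ∧
      q ∣ q' * g ^ k ∧ q ≤ C₂ * 2 ^ (e * s) * (2 ^ r) ^ k ∧
      |β| * (M₀ : ℝ) ^ k ≤ C₂ * (2 : ℝ) ^ (e * s) * (2 : ℝ) ^ n := by
  obtain ⟨Q, hQ⟩ : ∃ Q, Q = q' * g ^ k := ⟨_, rfl⟩
  rw [← hQ]
  have hQ0 : 0 < Q := hQ ▸ Nat.mul_pos hq' (Nat.pow_pos hg)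
  have hdvd : ((a' : ℚ) / Q).den ∣ Q := by
    have := Rat.den_dvd a' (Q : ℤ)
    rw [Rat.divInt_eq_div, Int.cast_natCast] at this
    exact Int.natCast_dvd_natCast.1 this
  have hQle : Q ≤ C₂ * 2 ^ (e * s) * (2 ^ r) ^ k :=
    hQ ▸ Nat.mul_le_mul hq'le (Nat.pow_le_pow_left hgle k)
  refine ⟨((a' : ℚ) / Q).den, ((a' : ℚ) / Q).num, θ - (a' : ℝ) / Q, ((a' : ℚ) / Q).den_pos,
    Int.isCoprime_iff_nat_coprime.2 (by simpa using ((a' : ℚ) / Q).reduced),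
    by rw [← Rat.cast_def]; push_cast; ring, hdvd, (Nat.le_of_dvd hQ0 hdvd).trans hQle, ?_⟩
  have hg0 : (0 : ℝ) < g := by exact_mod_cast hg
  have hQr : (1 : ℝ) ≤ q' := by exact_mod_cast hq'
  have hM'0 : (0 : ℝ) < M' := by exact_mod_cast lt_of_lt_of_le hM hMM
  set β := θ - (a' : ℝ) / Q with hβdef
  have e1 : (q' : ℝ) * ((g : ℝ) ^ k * θ) - a' = (q' : ℝ) * (g : ℝ) ^ k * β := by
    rw [hβdef, hQ]; push_cast; field_simp
  rw [e1, abs_mul, abs_of_nonneg (by positivity : (0 : ℝ) ≤ (q' : ℝ) * (g : ℝ) ^ k),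
    le_div_iff₀ (by positivity), div_pow] at ha
  have e3 : (q' : ℝ) * (g : ℝ) ^ k * |β| * ((M' : ℝ) ^ k / (g : ℝ) ^ k) =
      (q' : ℝ) * (|β| * (M' : ℝ) ^ k) := by field_simp
  rw [e3] at ha
  refine le_trans (mul_le_mul_of_nonneg_left (pow_le_pow_left₀ (Nat.cast_nonneg _)
    (by exact_mod_cast hMM) k) (abs_nonneg β))
    (((le_mul_of_one_le_left (by positivity) hQr).trans ha).trans ?_)
  exact le_mul_of_one_le_right (by positivity) (one_le_pow₀ (by norm_num))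

/-- The budget at the large primes of such a fraction. -/
lemma omega_budget {C G k C₂ e s W c Z γ P J g₁ x q' q₂ : ℕ} (hG : 1 ≤ G) (hs : 1 ≤ s)
    (hq' : 1 ≤ q') (hq'le : q' ≤ C₂ * 2 ^ (e * s)) (hc : c = C₂ + e + 4 * G * k + 1)
    (hW : W = 4 * Z * c * γ) (hW0 : 0 < W) (hP : P = (W * s) ^ (2 * G))
    (hgγ : gain C G ≤ (γ : ℝ)) (hZ : (0 : ℝ) < Z) (hγ0 : (0 : ℝ) < γ)
    (hg₁ : g₁ ∣ capW J (smallPrimes P)) (hx0 : 0 < x) (hx : x ≤ 2 ^ (4 * G * s))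
    (hq₂ : q₂ ∣ q' * (g₁ * x) ^ k) (hq₂0 : 0 < q₂) (hrough : ∀ p ∈ q₂.primeFactors, P ≤ p) :
    (q₂.primeFactors.card : ℝ) * (2 * gain C G * (P : ℝ) ^ (-(1 / (2 * G) : ℝ))) ≤
      1 / (2 * (Z : ℝ)) := by
  have h1 := card_large_le (D := 2 ^ (4 * G * s)) hq' hg₁ hx0 hx rfl hq₂ hq₂0 hrough
  have h2 : 2 ^ q₂.primeFactors.card ≤ 2 ^ (c * s) := by
    refine h1.trans ((Nat.mul_le_mul_right _ (hq'le.trans
      (Nat.mul_le_mul_right _ Nat.lt_two_pow_self.le))).trans ?_)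
    rw [← pow_mul, ← pow_add, ← pow_add]
    refine Nat.pow_le_pow_right (by norm_num) ?_
    rw [hc]; nlinarith [Nat.le_mul_of_pos_right C₂ hs]
  rw [hP]
  refine large_budget hG hs hW0 (c := c) (γ := γ) (by rw [hc]; omega)
    ((Nat.pow_le_pow_iff_right (by norm_num : 1 < 2)).1 h2) (gain_nonneg hG) hgγ hZ hγ0 ?_
  rw [hW]; push_cast; ring

/-- The density bound from the two properties of the test polynomial. -/
lemma final_bound (hf : Good f k) {z : ℕ} {h : ℝ} {J P D G M n N : ℕ} {A : Finset ℕ} {K δ : ℝ}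
    (hM : 1 ≤ M) (hN : (M * 2 ^ n) ^ k = N) (hA : A ⊆ Icc 1 N) (hK : 0 ≤ K) (hδ : 0 ≤ δ)
    (hfree : ∀ x ∈ A, ∀ y ∈ A, (x : ℤ) - y ∉ Set.range fun m : ℕ => f.eval (m : ℤ))
    (hlow : ∀ θ, -(K * δ) ≤ test f z h J P D G M n θ) (hhigh : 1 / 4 ≤ test f z h J P D G M n 0) :
    (A.card : ℝ) ≤
      4 * K * (((∑ j ∈ range (k + 1), f.coeff j).toNat + 2 : ℕ) : ℝ) * δ * (N : ℝ) := by
  set F := (∑ j ∈ range (k + 1), f.coeff j).toNat + 2 with hF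
  have hMn : 1 ≤ M * 2 ^ n := Nat.mul_pos hM (Nat.two_pow_pos n)
  have hN1 : 1 ≤ N := hN ▸ Nat.one_le_pow k _ hMn
  have : NeZero (F * N) := ⟨Nat.mul_ne_zero (by omega) (by omega)⟩
  have hval : ∀ m : ℕ, m < M * 2 ^ n →
      0 ≤ f.eval (m : ℤ) ∧ (N : ℤ) + f.eval (m : ℤ) < ((F * N : ℕ) : ℤ) := by
    intro m hm
    obtain ⟨h0, h1⟩ := eval_le hf hMn hm.le
    rw [hN] at h1
    refine ⟨h0.le, ?_⟩
    have hFz : (F : ℤ) = (∑ j ∈ range (k + 1), f.coeff j) + 2 := by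
      rw [hF, Nat.cast_add, Int.toNat_of_nonneg (sum_nonneg fun j _ => hf.nonneg j)]; rfl
    have hNz : (1 : ℤ) ≤ (N : ℤ) := by exact_mod_cast hN1
    rw [Nat.cast_mul, hFz]
    nlinarith
  have hres := card_bound (z := z) (h := h) (G := G) (M := M) (n := n) (Λ := F * N)
    hA (Nat.le_mul_of_pos_left _ (by omega)) hval
    (fun x hx y hy m heq => hfree x hx y hy ⟨m, (by rw [heq]; ring)⟩)
    (mul_nonneg hK hδ) hlow hhigh
  rw [Nat.cast_mul] at hres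
  linarith

/-- The lower bound for all frequencies. -/
lemma lower_everywhere (hf : Good f k) {C G : ℕ} (hdec : Decay k C G) {K₁ K₃ : ℝ}
    (hK₁ : 0 ≤ K₁) (hK₃ : 0 ≤ K₃)
    (hmaj : ∀ (z M g q : ℕ), 1 ≤ M → 1 ≤ g → 1 ≤ q → ∀ (a : ℤ) (β θ : ℝ), θ = (a : ℝ) / q + β →
      |dil f z M g θ - span f M ^ 2 *
          ((phi f z q g a).re * kerC (2 * Real.pi * β * span f M) -
            (phi f z q g a).im * kerS (2 * Real.pi * β * span f M))| ≤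
        K₁ * (g : ℝ) ^ 2 * q * (1 + |β| * (M : ℝ) ^ k) * (M : ℝ) ^ (2 * k - 1))
    (hker : ∀ (n : ℕ) (x : ℝ) (u : ℕ → ℝ), (∀ j ≤ n, 0 < u j) → (∀ j < n, 2 * u (j + 1) ≤ u j) →
      |∑ j ∈ range (n + 1), (3 / 4 : ℝ) ^ j * kerS (x * u j)| ≤
        K₃ * ∑ j ∈ range (n + 1), (3 / 4 : ℝ) ^ j * kerC (x * u j) + K₃ * (3 / 4 : ℝ) ^ n)
    {C₂ E e c Z γ W : ℕ}
    (hmin : ∀ (z M g K : ℕ) (θ : ℝ), 1 ≤ g → g ≤ M → 1 ≤ K →
      (M : ℝ) ^ (2 * k) / K ≤ |dil f z M g θ| →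
      ∃ q : ℕ, 1 ≤ q ∧ q ≤ C₂ * K ^ E ∧ ∃ a : ℤ,
        |(q : ℝ) * ((g : ℝ) ^ k * θ) - a| ≤ ((C₂ : ℝ) * (K : ℝ) ^ E) / ((M : ℝ) / g) ^ k)
    (hc : c = C₂ + e + 4 * G * k + 1) (hW : W = 4 * Z * c * γ) (hW0 : 0 < W)
    (hgγ : gain C G ≤ (γ : ℝ)) (hZ : (0 : ℝ) < Z) (hγ0 : (0 : ℝ) < γ)
    {s r b P J n D M B Kt : ℕ} (hs : 1 ≤ s) (hP : P = (W * s) ^ (2 * G)) (hP1 : 1 ≤ P)
    (hD : D = 2 ^ (4 * G * s)) (hM : M = 2 ^ (b * r)) (hB : B = 2 ^ r)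
    (hKt : Kt = 2 ^ ((12 * G + 2) * s)) (he : e = (12 * G + 2) * E) (hn : n = 3 * s)
    (hgB : 2 ^ (P * P * J) * D ≤ B) (hBM : B ≤ M)
    (hexp : 8 * G * s + 2 * r + (e * s + r * k) + (e * s + 2 * (k * n)) + s ≤ b * r)
    {h : ℝ} (hhr : ratio G ≤ h) (h1 : h ≤ 1) {δ : ℝ} (hδ : δ = (1 / 2 : ℝ) ^ s)
    (hhJ : h ^ J ≤ δ) (hbudget : (Real.exp (1 / (2 * (Z : ℝ)) + 1 / (2 * (Z : ℝ))) - 1) * (1 + K₃) ≤ 1)
    (hexp3 : Real.exp (1 / (2 * (Z : ℝ)) + 1 / (2 * (Z : ℝ))) ≤ 3)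
    (hε₁ : (P : ℝ) * ((1 - h) * gain C G) ≤ 1 / (2 * (Z : ℝ)))
    {z : ℕ} (hz : ((C₂ * 2 ^ (e * s) * (2 ^ r) ^ k).factorial : ℤ) ∣ f.eval (z : ℤ)) (θ : ℝ) :
    -((4 + (4 * K₁ * C₂ * (1 + C₂) + (K₃ + 6 * ((2 + gain C G) * 6)))) * δ) ≤
      test f z h J P D G M n θ := by
  have hG := hdec.2.1
  have hgain := gain_nonneg (C := C) hG
  have hh0 : 0 ≤ h := le_trans (ratio_pos G).le hhr
  have hδ0 : 0 ≤ δ := by rw [hδ]; positivity
  have hD1 : 1 ≤ D := by rw [hD]; exact Nat.one_le_two_pow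
  have hM1 : 1 ≤ M := by rw [hM]; exact Nat.one_le_two_pow
  have hKt1 : 1 ≤ Kt := by rw [hKt]; exact Nat.one_le_two_pow
  by_cases hbig : ∃ j ≤ n, ∃ g₁ ∈ (capW J (smallPrimes P)).divisors,
      ∃ d ∈ bigMods D P, ∃ x ∈ d.divisorsAntidiagonal,
        ((M * 2 ^ (n - j) : ℕ) : ℝ) ^ (2 * k) / (Kt : ℝ) ≤
          |dil f z (M * 2 ^ (n - j)) (g₁ * x.2) θ|
  · obtain ⟨j, hj, g₁, hg₁, d, hd, x, hx, hbig⟩ := hbig
    obtain ⟨hg1, hgle⟩ := dom_le (Nat.dvd_of_mem_divisors hg₁) hd hx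
    have hMM' : M ≤ M * 2 ^ (n - j) := Nat.le_mul_of_pos_right _ (Nat.two_pow_pos _)
    obtain ⟨q', hq', hq'le, a', ha'⟩ :=
      hmin z _ _ Kt θ hg1 (((hgle.trans hgB).trans hBM).trans hMM') hKt1 hbig
    have hKE : Kt ^ E = 2 ^ (e * s) := by rw [hKt, ← pow_mul, he]; ring_nf
    have hKEr : (Kt : ℝ) ^ E = (2 : ℝ) ^ (e * s) := by exact_mod_cast hKE
    rw [hKE] at hq'le
    rw [hKEr] at ha'
    obtain ⟨q, a, β, hq0, hcop, hθ, hdvd, hqle, hβ⟩ :=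
      fraction_data (r := r) (n := k * n) hq' hq'le hg1 (hB ▸ hgle.trans hgB) hM1 hMM' ha'
    have hz' : (q : ℤ) ∣ f.eval (z : ℤ) :=
      (Int.natCast_dvd_natCast.2 (Nat.dvd_factorial hq0 hqle)).trans hz
    have hqr : (q : ℝ) ≤ C₂ * (2 : ℝ) ^ (e * s) * ((2 ^ r : ℕ) : ℝ) ^ k := by
      exact_mod_cast hqle
    obtain ⟨hx1, hd0⟩ := Nat.mem_divisorsAntidiagonal.1 hx
    have hx20 : 0 < x.2 := Nat.pos_of_ne_zero fun h' => hd0 (by rw [← hx1, h', mul_zero])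
    have hx2 : x.2 ≤ D :=
      (Nat.le_of_dvd (Nat.pos_of_ne_zero hd0) (Dvd.intro_left x.1 hx1)).trans
        (mem_Icc.1 (mem_filter.1 hd).1).2
    have hC₂1 : (1 : ℝ) ≤ C₂ := by
      have : 1 ≤ C₂ := by
        rcases Nat.eq_zero_or_pos C₂ with h' | h'
        · rw [h', zero_mul] at hq'le; omega
        · exact h'
      exact_mod_cast this
    have hε₂ : ∀ q₂, q₂ ∣ q → (∀ p ∈ q₂.primeFactors, P ≤ p) →
        (q₂.primeFactors.card : ℝ) * (2 * gain C G * (P : ℝ) ^ (-(1 / (2 * G) : ℝ))) ≤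
          1 / (2 * (Z : ℝ)) := fun q₂ hq₂ hrough =>
      omega_budget hG hs hq' hq'le hc hW hW0 hP hgγ hZ hγ0 (Nat.dvd_of_mem_divisors hg₁)
        hx20 (hD ▸ hx2) (hq₂.trans hdvd) (Nat.pos_of_dvd_of_pos hq₂ hq0) hrough
    have hDσ : (D : ℝ) ^ (-(1 / (2 * G) : ℝ)) ≤ δ := by rw [hD, hδ]; exact rpow_trunc hG s
    have hn34 : (3 / 4 : ℝ) ^ n ≤ δ := by
      rw [hδ, hn, pow_mul]; exact pow_le_pow_left₀ (by norm_num) (by norm_num) s
    have herr : 4 * ((D : ℝ) ^ 2 * (K₁ * (B : ℝ) ^ 2 * q *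
        (1 + |β| * ((M * 2 ^ n : ℕ) : ℝ) ^ k) / M)) ≤ 4 * K₁ * C₂ * (1 + C₂) * δ := by
      rw [hM] at hβ
      rw [hD, hB, hM, hδ]
      exact error_le hK₁ hC₂1 hexp hqr hβ
    have hlowθ := test_lower_major hf hdec hK₁ hK₃ hmaj hker (z := z) hhr h1 hP1 hD1 hM1 hq0 hgB hθ
      hz' hcop hbudget hexp3 hε₁ hε₂ hhJ hDσ hn34 herr
    linarith
  · push Not at hbig
    have hDK : (D : ℝ) ^ 2 / (Kt : ℝ) ≤ δ := by
      rw [hD, hKt, hδ]; push_cast; rw [← pow_mul]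
      exact two_pow_div_le (by nlinarith)
    have h2 := test_small hf (z := z) (G := G) hh0 h1 hM1 (δ := δ) (K := (Kt : ℝ))
      (by exact_mod_cast hKt1) hDK fun j hj g₁ hg₁ d hd x hx => (hbig j hj g₁ hg₁ d hd x hx).le
    have h3 : 0 ≤ (4 * K₁ * C₂ * (1 + C₂) + (K₃ + 6 * ((2 + gain C G) * 6))) * δ := by positivity
    linarith [(abs_le.1 h2).1]

/-- The saving at one scale. -/
theorem key (hf : Good f k) (hroot : ∀ q : ℕ, 1 ≤ q → ∃ t : ℕ, (q : ℤ) ∣ f.eval (t : ℤ)) :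
    ∃ (R : ℕ → ℕ) (c₀ d₀ : ℕ) (K₀ : ℝ), (∀ s, 1 ≤ s → R s ≤ c₀ * s ^ d₀) ∧
      ∀ s, 1 ≤ s → ∀ A : Finset ℕ, A ⊆ Icc 1 (2 ^ R s) →
        (∀ x ∈ A, ∀ y ∈ A, (x : ℤ) - y ∉ Set.range fun n : ℕ => f.eval (n : ℤ)) →
        (A.card : ℝ) ≤ K₀ * (1 / 2 : ℝ) ^ s * ((2 ^ R s : ℕ) : ℝ) := by
  obtain ⟨C, G, hC, hG, hcomp⟩ := norm_complete_le k
  have hdec : Decay k C G := ⟨hC, hG, hcomp⟩
  obtain ⟨C₂', E, hmin⟩ := dil_minor hf
  obtain ⟨K₁, hK₁, hmaj⟩ := dil_major hf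
  obtain ⟨K₃, hK₃, hker⟩ := kernel_sector
  have hgain := gain_nonneg (C := C) hG
  obtain ⟨C₂, hC₂'⟩ : ∃ C₂, C₂ = C₂' + 1 := ⟨_, rfl⟩
  have hmin' : ∀ (z M g K : ℕ) (θ : ℝ), 1 ≤ g → g ≤ M → 1 ≤ K →
      (M : ℝ) ^ (2 * k) / K ≤ |dil f z M g θ| →
      ∃ q : ℕ, 1 ≤ q ∧ q ≤ C₂ * K ^ E ∧ ∃ a : ℤ,
        |(q : ℝ) * ((g : ℝ) ^ k * θ) - a| ≤ ((C₂ : ℝ) * (K : ℝ) ^ E) / ((M : ℝ) / g) ^ k := by
    intro z M g K θ hg hgM hK hbig
    obtain ⟨q, hq, hqle, a, ha⟩ := hmin z M g K θ hg hgM hK hbig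
    have hle : C₂' ≤ C₂ := by omega
    refine ⟨q, hq, hqle.trans (Nat.mul_le_mul_right _ hle), a, ha.trans ?_⟩
    exact div_le_div_of_nonneg_right (mul_le_mul_of_nonneg_right (by exact_mod_cast hle)
      (by positivity)) (by positivity)
  obtain ⟨γ, hγ⟩ : ∃ γ, γ = ⌈gain C G⌉₊ + 1 := ⟨_, rfl⟩
  obtain ⟨Z, hZ⟩ : ∃ Z, Z = 2 * (⌈K₃⌉₊ + 2) := ⟨_, rfl⟩
  obtain ⟨e, he⟩ : ∃ e, e = (12 * G + 2) * E := ⟨_, rfl⟩
  obtain ⟨c₂, hc₂⟩ : ∃ c, c = C₂ + e + 4 * G * k + 1 := ⟨_, rfl⟩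
  obtain ⟨W, hW⟩ : ∃ W, W = 4 * Z * c₂ * γ := ⟨_, rfl⟩
  obtain ⟨b, hb⟩ : ∃ b, b = 8 * k + 2 * e + 8 * G + 8 := ⟨_, rfl⟩
  obtain ⟨F, hF⟩ : ∃ F, F = (∑ j ∈ range (k + 1), f.coeff j).toNat + 2 := ⟨_, rfl⟩
  obtain ⟨K₀', hK₀'⟩ : ∃ K : ℝ, K = 4 * K₁ * C₂ * (1 + C₂) := ⟨_, rfl⟩
  obtain ⟨Klo, hKlo⟩ : ∃ K : ℝ, K = 4 + K₀' + (K₃ + 6 * ((2 + gain C G) * 6)) := ⟨_, rfl⟩
  refine ⟨fun s => k * (b * ((W * s) ^ (2 * G) * (W * s) ^ (2 * G) *
      ((2 * Z * γ * (W * s) ^ (2 * G) + 6 * G) * s) + 4 * G * s) + 3 * s),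
    k * (b * (W ^ (4 * G) * (2 * Z * γ * W ^ (2 * G) + 6 * G) + 4 * G) + 3), 6 * G + 1,
    max (4 * Klo * F) (4 * Klo), fun s hs => size_budget hs, fun s hs A hA hfree => ?_⟩
  obtain ⟨P, hP⟩ : ∃ P, P = (W * s) ^ (2 * G) := ⟨_, rfl⟩
  obtain ⟨T, hT⟩ : ∃ T, T = 2 * Z * γ * P + 6 * G := ⟨_, rfl⟩
  obtain ⟨r, hr⟩ : ∃ r, r = P * P * (T * s) + 4 * G * s := ⟨_, rfl⟩
  obtain ⟨N, hN⟩ : ∃ N, N = 2 ^ (k * (b * r + 3 * s)) := ⟨_, rfl⟩
  simp only [← hP, ← hT, ← hr, ← hN] at hA ⊢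
  obtain ⟨δ, hδ⟩ : ∃ δ : ℝ, δ = (1 / 2 : ℝ) ^ s := ⟨_, rfl⟩
  rw [← hδ]
  have hδ0 : 0 < δ := by rw [hδ]; positivity
  have hC₂1 : (1 : ℝ) ≤ C₂ := by rw [hC₂']; simp
  have hK₀'0 : 0 ≤ K₀' := by rw [hK₀']; positivity
  have hKlo0 : 0 ≤ Klo := by rw [hKlo]; positivity
  have hKlo4 : 4 * K₁ ≤ Klo := by
    have h1 : 4 * K₁ * 1 ≤ 4 * K₁ * (C₂ * (1 + C₂)) :=
      mul_le_mul_of_nonneg_left (one_le_mul_of_one_le_of_one_le hC₂1 (by linarith)) (by positivity)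
    rw [hKlo, hK₀']
    linarith
  rcases lt_or_ge (1 / 4 : ℝ) (Klo * δ) with hsmall | hlarge
  · have hcard : (A.card : ℝ) ≤ (N : ℝ) := by
      have := (card_le_card hA).trans_eq (Nat.card_Icc 1 N)
      rw [Nat.add_sub_cancel] at this
      exact_mod_cast this
    refine hcard.trans (le_mul_of_one_le_left (Nat.cast_nonneg _) ?_)
    have := mul_le_mul_of_nonneg_right (le_max_right (4 * Klo * F) (4 * Klo)) hδ0.le
    linarith
  have hW0 : 0 < W := by rw [hW, hZ, hc₂, hγ]; positivity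
  have hP1 : 1 ≤ P := hP ▸ Nat.one_le_pow _ _ (Nat.mul_pos hW0 hs)
  have hT6 : 6 * G ≤ T := hT ▸ Nat.le_add_left _ _
  have hT1 : 1 ≤ T := by omega
  have hT1' : (1 : ℝ) ≤ T := by exact_mod_cast hT1
  have hhr : ratio G ≤ 1 - 1 / (T : ℝ) := ratio_le hG hT6
  have hh0 : 0 ≤ 1 - 1 / (T : ℝ) := le_trans (ratio_pos G).le hhr
  have hh1 : 1 - 1 / (T : ℝ) ≤ 1 := by
    have : (0 : ℝ) ≤ 1 / T := by positivity
    linarith
  have hsr : s ≤ r :=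
    hr ▸ le_trans (Nat.le_mul_of_pos_left s (by omega)) (Nat.le_add_left _ _)
  have hgB : 2 ^ (P * P * (T * s)) * 2 ^ (4 * G * s) ≤ 2 ^ r := by rw [← pow_add, hr]
  have hM1 : 1 ≤ 2 ^ (b * r) := Nat.one_le_two_pow
  have hBM : 2 ^ r ≤ 2 ^ (b * r) :=
    Nat.pow_le_pow_right (by norm_num) (Nat.le_mul_of_pos_left _ (by omega))
  have hgainγ : gain C G ≤ (γ : ℝ) := by
    rw [hγ]; push_cast; linarith [Nat.le_ceil (gain C G)]
  have hγ0 : (0 : ℝ) < γ := by rw [hγ]; positivity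
  have hZr : (0 : ℝ) < Z := by rw [hZ]; positivity
  have hZK : 2 * (K₃ + 2) ≤ (Z : ℝ) := by rw [hZ]; push_cast; linarith [Nat.le_ceil K₃]
  obtain ⟨hbudget, hexp3⟩ := two_mul_exp_sub_one hK₃ hZK
  have hε₁ : (P : ℝ) * ((1 - (1 - 1 / (T : ℝ))) * gain C G) ≤ 1 / (2 * (Z : ℝ)) := by
    have hT' : 2 * (Z : ℝ) * γ * P ≤ T := by
      rw [hT]; push_cast; linarith [(Nat.cast_nonneg G : (0 : ℝ) ≤ G)]
    have h1 : (P : ℝ) * gain C G ≤ P * γ := mul_le_mul_of_nonneg_left hgainγ (Nat.cast_nonneg _)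
    rw [sub_sub_cancel, div_mul_eq_mul_div, one_mul, mul_div_assoc',
      div_le_div_iff₀ (by linarith) (by positivity)]
    nlinarith
  have hhJ : (1 - 1 / (T : ℝ)) ^ (T * s) ≤ δ := hδ ▸ decay_pow hT1 s
  have hn : (3 / 4 : ℝ) ^ (3 * s) ≤ δ := by
    rw [hδ, pow_mul]; exact pow_le_pow_left₀ (by norm_num) (by norm_num) s
  have hDσ : (((2 ^ (4 * G * s) : ℕ) : ℕ) : ℝ) ^ (-(1 / (2 * G) : ℝ)) ≤ δ := hδ ▸ rpow_trunc hG s
  obtain ⟨z, hz⟩ := hroot (C₂ * 2 ^ (e * s) * (2 ^ r) ^ k).factorial (Nat.factorial_pos _)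
  have hlow : ∀ θ : ℝ, -(Klo * δ) ≤ test f z (1 - 1 / (T : ℝ)) (T * s) P (2 ^ (4 * G * s)) G
      (2 ^ (b * r)) (3 * s) θ := by
    intro θ
    rw [hKlo, hK₀', add_assoc]
    exact lower_everywhere hf hdec hK₁ hK₃ hmaj hker hmin' hc₂ hW hW0 hgainγ hZr hγ0 hs hP hP1
      rfl rfl rfl rfl he rfl hgB hBM (by rw [hb]; exact exp_budget hsr) hhr hh1 hδ hhJ hbudget
      hexp3 hε₁ hz θ
  have hhigh := test_origin hf hK₁ hmaj (z := z) (G := G) (n := 3 * s) (J := T * s) (P := P)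
    (M := 2 ^ (b * r)) (D := 2 ^ (4 * G * s)) (B := 2 ^ r) hh0 hh1 hM1 Nat.one_le_two_pow hgB (by
      refine le_trans ?_ hlarge
      have hexp : 8 * G * s + 2 * r + s ≤ b * r := by
        rw [hb]; nlinarith [Nat.mul_le_mul_left G hsr]
      refine (origin_error hK₁ hexp).trans ?_
      rw [← hδ]
      calc 4 * K₁ * δ ≤ Klo * δ := by
            refine mul_le_mul_of_nonneg_right ?_ hδ0.le
            exact hKlo4)
  have hNpow : (2 ^ (b * r) * 2 ^ (3 * s)) ^ k = N := by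
    rw [hN, ← pow_add, ← pow_mul, mul_comm]
  have hfin := final_bound hf hM1 hNpow hA hKlo0 hδ0.le hfree hlow hhigh
  rw [← hF] at hfin
  refine hfin.trans ?_
  gcongr
  exact le_max_left _ _

/-- A stretched-exponential saving for every intersective polynomial. -/
theorem stretched_saving (h : Polynomial ℤ) (hk : 1 ≤ h.natDegree) (hl : 0 < h.leadingCoeff)
    (hroot : ∀ q : ℕ, 1 ≤ q → ∃ t : ℤ, (q : ℤ) ∣ h.eval t) :
    ∃ μ : ℝ, 0 < μ ∧ ∃ K c : ℝ, 0 < c ∧ ∀ N : ℕ, 1 ≤ N → ∀ A : Finset ℕ, A ⊆ Icc 1 N →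
      (∀ x ∈ A, ∀ y ∈ A, ∀ n : ℕ, 0 < n → (x : ℤ) - y = h.eval (n : ℤ) → x = y) →
      (A.card : ℝ) ≤ K * N * Real.exp (-c * Real.log N ^ μ) := by
  obtain ⟨f, n₀, hf, hn₀, hval, hroot'⟩ := exists_good_shift h hk hl hroot
  obtain ⟨R, c₀, d₀, K₀, hR, hkey⟩ := key hf hroot'
  obtain ⟨K, c, hc, hpass⟩ := passage _ R c₀ d₀ K₀ hR hkey
  refine ⟨1 / ((d₀ : ℝ) + 1), by positivity, K, c, hc, fun N hN A hA hfree => hpass N hN A hA ?_⟩
  rintro x hx y hy ⟨n, hn⟩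
  have hn' : f.eval (n : ℤ) = (x : ℤ) - y := hn
  have hxy := hfree x hx y hy (n + n₀) (by omega) (by rw [← hval, hn'])
  have hpos := (eval_le hf (show 1 ≤ n + 1 by omega) (Nat.le_succ n)).1
  rw [hn', hxy, sub_self] at hpos
  exact lt_irrefl _ hpos

end Vale.Agent.P042.Gen
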