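import Vale.Agent.P042.Gen.Defs
import Vale.Agent.P042.Odd.Local

/-!
Complete sums along the congruence classes of an integer root: periodicity, multiplicativity and
the Möbius transform in the dilation parameter.
-/

open Finset
open scoped ArithmeticFunction.Moebius

namespace Vale.Agent.P042.Gen

/-- The phase `e(a f(n) / q)`. -/
noncomputable def phase (f : Polynomial ℤ) (q : ℕ) (a : ℤ) (n : ℕ) : ℂ :=
  Quad.ee (((a * f.eval (n : ℤ) : ℤ) : ℝ) / q)

lemma phi_eq (f : Polynomial ℤ) (z q g : ℕ) (a : ℤ) :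
    phi f z q g a = (∑ y ∈ range q, phase f q a (z + g * y)) / q := rfl

lemma phase_eq (f : Polynomial ℤ) (q : ℕ) [NeZero q] (a : ℤ) (n : ℕ) :
    phase f q a n = ZMod.stdAddChar ((a : ZMod q) * ((f.eval (n : ℤ) : ℤ) : ZMod q)) := by
  rw [phase, Quad.ee_div_eq, Int.cast_mul]

lemma phase_congr (f : Polynomial ℤ) (q : ℕ) [NeZero q] (a : ℤ) {m n : ℕ}
    (h : (m : ZMod q) = n) : phase f q a m = phase f q a n := by
  rw [phase_eq, phase_eq]
  congr 2
  have key : ∀ n : ℕ, ((f.eval (n : ℤ) : ℤ) : ZMod q) = Polynomial.aeval (n : ZMod q) f := by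
    intro n
    induction f using Polynomial.induction_on' with
    | add p r hp hr => simp [hp, hr]
    | monomial i c => simp
  rw [key, key, h]

lemma phase_periodic (f : Polynomial ℤ) (q : ℕ) [NeZero q] (a : ℤ) :
    Function.Periodic (phase f q a) q := fun n => phase_congr f q a (by simp)

lemma norm_phi_le (f : Polynomial ℤ) (z q g : ℕ) (a : ℤ) : ‖phi f z q g a‖ ≤ 1 := by
  rcases Nat.eq_zero_or_pos q with rfl | hq
  · simp [phi_eq]
  rw [phi_eq, norm_div, Complex.norm_natCast, div_le_one (by exact_mod_cast hq)]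
  refine (norm_sum_le _ _).trans ?_
  simp [phase, Quad.norm_ee]

lemma phi_eq_zmod (f : Polynomial ℤ) (z q g : ℕ) [NeZero q] (a : ℤ) :
    phi f z q g a = (∑ y : ZMod q,
      phase f q a (((z : ZMod q) + (g : ZMod q) * y).val)) / q := by
  rw [phi_eq, ← Odd.sum_range_zmod]
  congr 1
  exact sum_congr rfl fun y _ => phase_congr f q a (by simp)

lemma phi_unit (f : Polynomial ℤ) (z q : ℕ) [NeZero q] (b c : ℕ) (a : ℤ) (u : ZMod q)
    (hu : IsUnit u) (h : (b : ZMod q) = u * c) : phi f z q b a = phi f z q c a := by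
  obtain ⟨v, rfl⟩ := hu
  rw [phi_eq_zmod, phi_eq_zmod]
  congr 1
  refine Fintype.sum_equiv (Units.mulLeft v) _ _ fun y => ?_
  rw [Units.mulLeft_apply, h]
  congr 2
  ring

/-- Dilations coprime to the modulus can be dropped. -/
lemma phi_coprime (f : Polynomial ℤ) (z q : ℕ) [NeZero q] (g u : ℕ) (a : ℤ) (h : u.Coprime q) :
    phi f z q (g * u) a = phi f z q g a :=
  phi_unit f z q _ _ a (u : ZMod q) ((ZMod.isUnit_iff_coprime u q).2 h) (by push_cast; ring)

lemma phi_gcd (f : Polynomial ℤ) (z q : ℕ) [NeZero q] (g : ℕ) (a : ℤ) :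
    phi f z q g a = phi f z q (g.gcd q) a := by
  obtain ⟨d, hd, u, hu, h⟩ := ZMod.eq_unit_mul_divisor (g : ZMod q)
  have h1 : g ≡ u.val * d [MOD q] := by
    rw [← ZMod.natCast_eq_natCast_iff]
    simp [h]
  have h2 : (u.val).Coprime q := (ZMod.isUnit_iff_coprime _ _).1 (by simpa using hu)
  have h3 : g.gcd q = d := by
    rw [h1.gcd_eq, Nat.Coprime.gcd_mul_left_cancel _ h2, Nat.gcd_eq_left hd]
  rw [h3]
  exact phi_unit f z q g d a u hu h

lemma phi_one (f : Polynomial ℤ) (z g : ℕ) (a : ℤ) : phi f z 1 g a = 1 := by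
  simp [phi_eq, phase, ← Int.cast_mul, Quad.ee_int]

lemma phase_mul (f : Polynomial ℤ) {q r : ℕ} [NeZero q] [NeZero r] (a₁ a₂ : ℤ) (n : ℕ) :
    phase f (q * r) (a₁ * r + a₂ * q) n = phase f q a₁ n * phase f r a₂ n := by
  rw [phase, phase, phase, ← Quad.ee_add]
  congr 1
  have hq : (q : ℝ) ≠ 0 := NeZero.ne _
  have hr : (r : ℝ) ≠ 0 := NeZero.ne _
  push_cast
  field_simp

/-- Complete sums are multiplicative. -/
lemma phi_mul (f : Polynomial ℤ) (z : ℕ) {q r : ℕ} [NeZero q] [NeZero r] (h : q.Coprime r)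
    (g : ℕ) (a₁ a₂ : ℤ) :
    phi f z (q * r) g (a₁ * r + a₂ * q) = phi f z q g a₁ * phi f z r g a₂ := by
  rw [phi_eq, phi_eq, phi_eq, div_mul_div_comm, ← Nat.cast_mul,
    ← Quad.sum_mul_periodic h (NeZero.ne q) (NeZero.ne r)]
  · congr 1
    exact sum_congr rfl fun y _ => phase_mul f a₁ a₂ _
  · intro y
    simp only [mul_add, ← add_assoc]
    exact phase_congr f q a₁ (by simp)
  · intro y
    simp only [mul_add, ← add_assoc]
    exact phase_congr f r a₂ (by simp)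

lemma phi_mul_coprime (f : Polynomial ℤ) (z : ℕ) {q r : ℕ} [NeZero q] [NeZero r] (h : q.Coprime r)
    {g g' : ℕ} (hg : g.Coprime r) (hg' : g'.Coprime q) (a₁ a₂ : ℤ) :
    phi f z (q * r) (g * g') (a₁ * r + a₂ * q) = phi f z q g a₁ * phi f z r g' a₂ := by
  rw [phi_mul f z h, phi_coprime f z q g g' a₁ hg', mul_comm g g',
    phi_coprime f z r g' g a₂ hg]

/-- The Möbius transform of the complete sums in the dilation parameter. -/
noncomputable def psi (f : Polynomial ℤ) (z q : ℕ) (a : ℤ) (d : ℕ) : ℂ :=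
  ∑ x ∈ d.divisorsAntidiagonal, (μ x.1 : ℂ) * phi f z q x.2 a

lemma psi_eq (f : Polynomial ℤ) (z q : ℕ) (a : ℤ) (d : ℕ) :
    psi f z q a d = ∑ e ∈ d.divisors, (μ e : ℂ) * phi f z q (d / e) a :=
  Nat.sum_divisorsAntidiagonal fun e g => (μ e : ℂ) * phi f z q g a

lemma psi_eq_zero (f : Polynomial ℤ) (z : ℕ) {q : ℕ} [NeZero q] (a : ℤ) {d : ℕ} (hd : 0 < d)
    (h : ¬ d ∣ q) : psi f z q a d = 0 := by
  have hsum : ∀ m : ℕ, m > 0 → ∑ i ∈ m.divisors, psi f z q a i = phi f z q m a :=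
    (ArithmeticFunction.sum_eq_iff_sum_mul_moebius_eq
      (g := fun m : ℕ => phi f z q m a)).2 fun n _ => rfl
  have hf : ∀ m : ℕ, m > 0 → ∑ i ∈ m.divisors, (if i ∣ q then psi f z q a i else 0) =
      phi f z q m a := by
    intro m hm
    rw [← sum_filter, phi_gcd f z q m a, ← hsum (m.gcd q) (Nat.gcd_pos_of_pos_left _ hm)]
    refine sum_congr ?_ fun _ _ => rfl
    ext i
    simp only [mem_filter, Nat.mem_divisors, Nat.dvd_gcd_iff, ne_eq, Nat.gcd_eq_zero_iff]
    constructor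
    · rintro ⟨⟨h1, -⟩, h2⟩
      exact ⟨⟨h1, h2⟩, fun h => by omega⟩
    · rintro ⟨⟨h1, h2⟩, -⟩
      exact ⟨⟨h1, by omega⟩, h2⟩
  have hd' := (ArithmeticFunction.sum_eq_iff_sum_mul_moebius_eq.1 hf) d hd
  rw [if_neg h] at hd'
  exact hd'

lemma psi_mul (f : Polynomial ℤ) (z : ℕ) {q r : ℕ} [NeZero q] [NeZero r] (h : q.Coprime r)
    {x y : ℕ} (hx : x ∣ q) (hy : y ∣ r) (a₁ a₂ : ℤ) :
    psi f z (q * r) (a₁ * r + a₂ * q) (x * y) = psi f z q a₁ x * psi f z r a₂ y := by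
  have hxy : x.Coprime y := (h.coprime_dvd_left hx).coprime_dvd_right hy
  have hx0 : x ≠ 0 := ne_zero_of_dvd_ne_zero (NeZero.ne q) hx
  have hy0 : y ≠ 0 := ne_zero_of_dvd_ne_zero (NeZero.ne r) hy
  rw [psi_eq, Odd.sum_divisors_coprime hx0 hy0 hxy, psi_eq, psi_eq, sum_mul_sum]
  refine sum_congr rfl fun i hi => sum_congr rfl fun j hj => ?_
  rw [Nat.mem_divisors] at hi hj
  rw [← Nat.div_mul_div_comm hi.1 hj.1,
    phi_mul_coprime f z h (h.coprime_dvd_left ((Nat.div_dvd_of_dvd hi.1).trans hx))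
      (h.symm.coprime_dvd_left ((Nat.div_dvd_of_dvd hj.1).trans hy)),
    ArithmeticFunction.isMultiplicative_moebius.map_mul_of_coprime
      ((hxy.coprime_dvd_left hi.1).coprime_dvd_right hj.1)]
  push_cast
  ring

end Vale.Agent.P042.Gen
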