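import Vale.Agent.P042.Gen.Local

/-!
The small primes are averaged with capped geometric weights, the large ones carry the signed
weights `d ^ (-σ)`; the resulting series factor over the primes.
-/

open Finset
open scoped ArithmeticFunction.Moebius

namespace Vale.Agent.P042.Gen

/-- The iterated average over the powers of the primes in a list. -/
noncomputable def avg {V : Type*} [AddCommGroup V] [Module ℝ V] (h : ℝ) (J : ℕ) :
    List ℕ → (ℕ → V) → V
  | [], X => X 1
  | p :: ps, X => ∑ i ∈ range (J + 1), pw h J i • avg h J ps (fun g => X (p ^ i * g))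

/-- The largest dilation that occurs in the average. -/
def capW (J : ℕ) (ps : List ℕ) : ℕ := (ps.map fun p => p ^ J).prod

lemma avg_congr {V : Type*} [AddCommGroup V] [Module ℝ V] (h : ℝ) (J : ℕ) :
    ∀ (ps : List ℕ) (X Y : ℕ → V), (∀ g, g ∣ capW J ps → X g = Y g) →
      avg h J ps X = avg h J ps Y
  | [], X, Y, hXY => hXY 1 (one_dvd _)
  | p :: ps, X, Y, hXY => sum_congr rfl fun i hi => by
    congr 1
    refine avg_congr h J ps _ _ fun g hg => hXY _ ?_
    simp only [capW, List.map_cons, List.prod_cons]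
    exact mul_dvd_mul (pow_dvd_pow p (Nat.lt_succ_iff.1 (mem_range.1 hi))) hg

lemma avg_map {V W : Type*} [AddCommGroup V] [Module ℝ V] [AddCommGroup W] [Module ℝ W]
    (φ : V →ₗ[ℝ] W) (h : ℝ) (J : ℕ) :
    ∀ (ps : List ℕ) (X : ℕ → V), φ (avg h J ps X) = avg h J ps (fun g => φ (X g))
  | [], X => rfl
  | p :: ps, X => by simp [avg, avg_map φ h J ps]

lemma avg_const {V : Type*} [AddCommGroup V] [Module ℝ V] (h : ℝ) (J : ℕ) (c : V) :
    ∀ ps : List ℕ, avg h J ps (fun _ => c) = c
  | [] => rfl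
  | p :: ps => by simp [avg, avg_const h J c ps, ← sum_smul, sum_pw_eq_one]

lemma avg_add {V : Type*} [AddCommGroup V] [Module ℝ V] (h : ℝ) (J : ℕ) :
    ∀ (ps : List ℕ) (X Y : ℕ → V),
      avg h J ps (fun g => X g + Y g) = avg h J ps X + avg h J ps Y
  | [], X, Y => rfl
  | p :: ps, X, Y => by
    simp only [avg, avg_add h J ps, smul_add, sum_add_distrib]

lemma avg_sub {V : Type*} [AddCommGroup V] [Module ℝ V] (h : ℝ) (J : ℕ) :
    ∀ (ps : List ℕ) (X Y : ℕ → V),
      avg h J ps (fun g => X g - Y g) = avg h J ps X - avg h J ps Y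
  | [], X, Y => rfl
  | p :: ps, X, Y => by
    simp only [avg, avg_sub h J ps, smul_sub, sum_sub_distrib]

lemma norm_avg_le {V : Type*} [NormedAddCommGroup V] [NormedSpace ℝ V] {h : ℝ} (h0 : 0 ≤ h)
    (h1 : h ≤ 1) (J : ℕ) {B : ℝ} :
    ∀ (ps : List ℕ) (X : ℕ → V), (∀ g, g ∣ capW J ps → ‖X g‖ ≤ B) → ‖avg h J ps X‖ ≤ B
  | [], X, hX => hX 1 (one_dvd _)
  | p :: ps, X, hX => by
    refine (norm_sum_le _ _).trans ?_
    calc ∑ i ∈ range (J + 1), ‖pw h J i • avg h J ps (fun g => X (p ^ i * g))‖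
        ≤ ∑ i ∈ range (J + 1), pw h J i * B := by
          refine sum_le_sum fun i hi => ?_
          rw [norm_smul, Real.norm_of_nonneg (pw_nonneg h0 h1 J i)]
          refine mul_le_mul_of_nonneg_left (norm_avg_le h0 h1 J ps _ fun g hg => hX _ ?_)
            (pw_nonneg h0 h1 J i)
          simp only [capW, List.map_cons, List.prod_cons]
          exact mul_dvd_mul (pow_dvd_pow p (Nat.lt_succ_iff.1 (mem_range.1 hi))) hg
      _ = B := by rw [← sum_mul, sum_pw_eq_one, one_mul]

lemma coprime_capW {J m : ℕ} : ∀ {ps : List ℕ}, (∀ p ∈ ps, p.Coprime m) → (capW J ps).Coprime m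
  | [], _ => Nat.coprime_one_left m
  | p :: ps, h => by
    simp only [capW, List.map_cons, List.prod_cons]
    exact Nat.Coprime.mul_left ((h p (List.mem_cons_self ..)).pow_left J)
      (coprime_capW fun q hq => h q (List.mem_cons_of_mem p hq))

/-- The hypothesis that the complete sums decay with exponent `1 / G` and constant `C`. -/
def Decay (k C G : ℕ) : Prop :=
  1 ≤ C ∧ 1 ≤ G ∧ ∀ (p e : ℕ) (P : Polynomial ℤ), p.Prime → P.natDegree ≤ k →
    (∃ j, 1 ≤ j ∧ ¬ (p : ℤ) ∣ P.coeff j) →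
    ‖(∑ y ∈ range (p ^ e), Quad.ee (((P.eval (y : ℤ) : ℤ) : ℝ) / ((p ^ e : ℕ) : ℝ))) /
        ((p ^ e : ℕ) : ℂ)‖ ^ G * (p : ℝ) ^ e ≤ C

/-- The ratio `2 ^ (-1 / (2G))`. -/
noncomputable def ratio (G : ℕ) : ℝ := (2 : ℝ) ^ (-(1 / (2 * G) : ℝ))

lemma ratio_pos (G : ℕ) : 0 < ratio G := by rw [ratio]; positivity

lemma ratio_lt_one {G : ℕ} (hG : 1 ≤ G) : ratio G < 1 := by
  have : (0 : ℝ) < G := by exact_mod_cast hG
  exact Real.rpow_lt_one_of_one_lt_of_neg (by norm_num) (by rw [neg_lt_zero]; positivity)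

/-- The constant `C / (1 - ratio)`. -/
noncomputable def gain (C G : ℕ) : ℝ := C / (1 - ratio G)

lemma gain_nonneg {C G : ℕ} (hG : 1 ≤ G) : 0 ≤ gain C G :=
  div_nonneg (Nat.cast_nonneg C) (by linarith [ratio_lt_one hG])

lemma rpow_le_ratio {G p : ℕ} (hp : 2 ≤ p) :
    (p : ℝ) ^ (-(1 / (2 * G) : ℝ)) ≤ ratio G :=
  Real.rpow_le_rpow_of_nonpos (by norm_num) (by exact_mod_cast hp) (neg_nonpos.2 (by positivity))

lemma rpow_sq_eq {G p : ℕ} (hp : 0 < p) :
    (p : ℝ) ^ (-(1 / G : ℝ)) = (p : ℝ) ^ (-(1 / (2 * G) : ℝ)) * (p : ℝ) ^ (-(1 / (2 * G) : ℝ)) := by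
  rw [← Real.rpow_add (by exact_mod_cast hp)]
  congr 1
  ring

/-- The small primes. -/
theorem small_series {f : Polynomial ℤ} {k C G : ℕ} (hk : f.natDegree ≤ k) (hdec : Decay k C G)
    {h : ℝ} (hh : ratio G ≤ h) (h1 : h ≤ 1) (J : ℕ) :
    ∀ ps : List ℕ, (∀ p ∈ ps, p.Prime) → ps.Nodup → ∀ q : ℕ, 0 < q →
      (∀ p ∈ q.primeFactors, p ∈ ps) → ∀ (z : ℕ) (a : ℤ), (q : ℤ) ∣ f.eval (z : ℤ) →
      IsCoprime a (q : ℤ) →
      Near (avg h J ps fun g => phi f z q g a) (ps.length * ((1 - h) * gain C G)) ∨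
        ‖avg h J ps fun g => phi f z q g a‖ ≤
          h ^ J * (1 + gain C G) * Real.exp (ps.length * ((1 - h) * gain C G)) := by
  obtain ⟨hC, hG, hcomp⟩ := hdec
  have hr := ratio_lt_one hG
  have hr0 := ratio_pos G
  have h0 : 0 < h := lt_of_lt_of_le hr0 hh
  have hgain := gain_nonneg (C := C) hG
  set ε := (1 - h) * gain C G with hε
  have hε0 : 0 ≤ ε := mul_nonneg (by linarith) hgain
  intro ps
  induction ps with
  | nil =>
    intro _ _ q hq hfac z a _ _
    have : q = 1 := by
      by_contra hne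
      obtain ⟨p, hp, hpq⟩ := Nat.exists_prime_and_dvd hne
      exact List.not_mem_nil (hfac p (hp.mem_primeFactors hpq hq.ne'))
    subst this
    left
    simpa [avg, phi_one] using Near.one
  | cons p ps ih =>
    intro hpr hnd q hq hfac z a hz ha
    have hp : p.Prime := hpr p (List.mem_cons_self ..)
    obtain ⟨hpnot, hnd'⟩ := List.nodup_cons.1 hnd
    obtain ⟨e, q', hq'p, rfl⟩ := Nat.exists_eq_pow_mul_and_not_dvd hq.ne' p hp.ne_one
    have hq'0 : 0 < q' := Nat.pos_of_ne_zero fun h0 => by simp [h0] at hq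
    have : NeZero q' := ⟨hq'0.ne'⟩
    have : NeZero (p ^ e) := ⟨pow_ne_zero _ hp.ne_zero⟩
    have hcop : (p ^ e).Coprime q' := ((hp.coprime_iff_not_dvd).2 hq'p).pow_left e
    obtain ⟨u, v, huv⟩ := Nat.isCoprime_iff_coprime.2 hcop
    have ha' : a = a * v * q' + a * u * (p ^ e : ℕ) := by linear_combination (-a) * huv
    rw [Nat.cast_mul] at ha
    have hv : IsCoprime (a * v) ((p ^ e : ℕ) : ℤ) :=
      ha.of_mul_right_left.mul_left ⟨(q' : ℤ), u, by linarith⟩
    have hu : IsCoprime (a * u) (q' : ℤ) :=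
      ha.of_mul_right_right.mul_left ⟨((p ^ e : ℕ) : ℤ), v, by linarith⟩
    have hva : e = 0 ∨ ¬ (p : ℤ) ∣ a * v := by
      rcases Nat.eq_zero_or_pos e with he | he
      · exact Or.inl he
      · refine Or.inr fun hd => ?_
        rw [Nat.cast_pow] at hv
        exact (Nat.prime_iff_prime_int.1 hp).not_isUnit
          ((hv.of_isCoprime_of_dvd_left hd).isUnit_of_dvd' dvd_rfl (dvd_pow_self _ he.ne'))
    rw [Nat.cast_mul] at hz
    obtain ⟨i₀, -, hone, hsmall⟩ := phi_prime_pow hk hC hG hcomp hp e z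
      (dvd_trans (dvd_mul_right _ _) hz) hva
    have hfac' : ∀ l ∈ q'.primeFactors, l ∈ ps := by
      intro l hl
      have hl' : l ∈ (p ^ e * q').primeFactors :=
        Nat.primeFactors_mono (dvd_mul_left q' _) hq.ne' hl
      rcases List.mem_cons.1 (hfac l hl') with rfl | h'
      · exact absurd (Nat.dvd_of_mem_primeFactors hl) hq'p
      · exact h'
    have hIH := ih (fun l hl => hpr l (List.mem_cons_of_mem p hl)) hnd' q' hq'0 hfac' z (a * u)
      (dvd_trans (dvd_mul_left _ _) hz) hu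
    set S := avg h J ps fun g => phi f z q' g (a * u) with hS
    set L := ∑ i ∈ range (J + 1), (pw h J i : ℂ) * phi f z (p ^ e) (p ^ i) (a * v) with hL
    have heq : avg h J (p :: ps) (fun g => phi f z (p ^ e * q') g a) = L * S := by
      rw [avg, hL, sum_mul]
      refine sum_congr rfl fun i _ => ?_
      rw [show avg h J ps (fun g => phi f z (p ^ e * q') (p ^ i * g) a) =
          phi f z (p ^ e) (p ^ i) (a * v) * S from ?_, Complex.real_smul, mul_assoc]
      rw [hS, show phi f z (p ^ e) (p ^ i) (a * v) * avg h J ps (fun g => phi f z q' g (a * u)) =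
        (LinearMap.mulLeft ℝ (phi f z (p ^ e) (p ^ i) (a * v)))
          (avg h J ps fun g => phi f z q' g (a * u)) from rfl, avg_map]
      refine avg_congr h J ps _ _ fun g hg => ?_
      have hgp : g.Coprime (p ^ e) := Nat.Coprime.pow_right e
        ((coprime_capW fun l hl => (Nat.coprime_primes (hpr l (List.mem_cons_of_mem p hl)) hp).2
          fun h' => hpnot (h' ▸ hl)).coprime_dvd_left hg)
      rw [LinearMap.mulLeft_apply, ha',
        phi_mul_coprime f z hcop (((hp.coprime_iff_not_dvd).2 hq'p).pow_left i) hgp]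
      rw [← ha']
    set ρ := (p : ℝ) ^ (-(1 / G : ℝ)) with hρ
    have hρ0 : 0 ≤ ρ := by positivity
    have hρle : ρ ≤ ratio G * h := by
      rw [hρ, rpow_sq_eq hp.pos]
      exact mul_le_mul (rpow_le_ratio hp.two_le) ((rpow_le_ratio hp.two_le).trans hh)
        (by positivity) hr0.le
    have hser := series_near h0 h1 hρ0 hρle hr (Nat.cast_nonneg C)
      (fun i => phi f z (p ^ e) (p ^ i) (a * v)) i₀ J hone hsmall fun i => norm_phi_le _ _ _ _ _
    have hlen : ((p :: ps).length : ℝ) * ε = ε + ps.length * ε := by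
      rw [List.length_cons]; push_cast; ring
    rw [heq, hlen]
    rcases le_or_gt i₀ J with hJ | hJ
    · have hL' : Near L ε := by
        refine (hser.1 hJ).mono ?_
        refine mul_le_mul_of_nonneg_left ?_ (by linarith)
        rw [gain]
        refine div_le_div_of_nonneg_right ?_ (by linarith)
        refine mul_le_of_le_one_right (Nat.cast_nonneg C) ?_
        rw [div_le_one h0]
        exact hρle.trans (mul_le_of_le_one_left h0.le hr.le)
      rcases hIH with hN | hT
      · exact Or.inl (hL'.mul hN)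
      · right
        rw [norm_mul, Real.exp_add]
        calc ‖L‖ * ‖S‖ ≤ Real.exp ε * (h ^ J * (1 + gain C G) * Real.exp (ps.length * ε)) :=
              mul_le_mul hL'.norm_le hT (norm_nonneg _) (Real.exp_pos ε).le
          _ = _ := by ring
    · right
      have hT : ‖L‖ ≤ h ^ J * (1 + gain C G) := hser.2 hJ
      have hS' : ‖S‖ ≤ 1 := by
        rw [hS]; exact norm_avg_le h0.le h1 J ps _ fun g _ => norm_phi_le _ _ _ _ _
      rw [norm_mul]
      refine (mul_le_mul hT hS' (norm_nonneg _) (by positivity)).trans ?_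
      refine mul_le_mul_of_nonneg_left (Real.one_le_exp (by positivity)) (by positivity)

/-- The complete series at the large primes. -/
noncomputable def full (f : Polynomial ℤ) (z G q : ℕ) (a : ℤ) : ℂ :=
  ∑ d ∈ q.divisors, (((d : ℝ) ^ (-(1 / (2 * G) : ℝ)) : ℝ) : ℂ) * psi f z q a d

/-- The series of absolute values. -/
noncomputable def lamt (f : Polynomial ℤ) (z q : ℕ) (a : ℤ) : ℝ :=
  ∑ d ∈ q.divisors, ‖psi f z q a d‖

lemma pw_abel (h : ℝ) (Φ : ℕ → ℂ) : ∀ e : ℕ,
    ∑ i ∈ range (e + 1), ((h ^ i : ℝ) : ℂ) * (Φ i - (if i = 0 then 0 else Φ (i - 1))) =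
      ∑ i ∈ range (e + 1), (pw h e i : ℂ) * Φ i := by
  intro e
  rw [sum_pw]
  induction e with
  | zero => simp
  | succ e ih =>
    rw [sum_range_succ, ih, sum_range_succ _ e, if_neg (Nat.succ_ne_zero e), Nat.add_sub_cancel]
    push_cast
    ring

/-- The large primes. -/
theorem big_series {f : Polynomial ℤ} {k C G P : ℕ} (hk : f.natDegree ≤ k) (hdec : Decay k C G)
    (hP : 1 ≤ P) : ∀ q : ℕ, 0 < q → (∀ p ∈ q.primeFactors, P ≤ p) → ∀ (z : ℕ) (a : ℤ),
      (q : ℤ) ∣ f.eval (z : ℤ) → IsCoprime a (q : ℤ) →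
      Near (full f z G q a)
          (q.primeFactors.card * (2 * gain C G * (P : ℝ) ^ (-(1 / (2 * G) : ℝ)))) ∧
        lamt f z q a ≤
          Real.exp (q.primeFactors.card * (2 * gain C G * (P : ℝ) ^ (-(1 / (2 * G) : ℝ)))) := by
  obtain ⟨hC, hG, hcomp⟩ := hdec
  have hr := ratio_lt_one hG
  have hr0 := ratio_pos G
  have hgain := gain_nonneg (C := C) hG
  set η := 2 * gain C G * (P : ℝ) ^ (-(1 / (2 * G) : ℝ)) with hη
  intro q
  induction q using Nat.recOnPosPrimePosCoprime with
  | zero => intro h; omega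
  | one =>
    intro _ _ z a _ _
    have hψ : psi f z 1 a 1 = 1 := by simp [psi, phi_one]
    simp [full, lamt, hψ, Near.one]
  | prime_pow p e hp he =>
    intro _ hfac z a hz ha
    have hPp : P ≤ p := hfac p (hp.mem_primeFactors (dvd_pow_self p he.ne') (pow_ne_zero _ hp.ne_zero))
    have hpa : ¬ (p : ℤ) ∣ a := fun hd => by
      rw [Nat.cast_pow] at ha
      exact (Nat.prime_iff_prime_int.1 hp).not_isUnit
        ((ha.of_isCoprime_of_dvd_left hd).isUnit_of_dvd' dvd_rfl (dvd_pow_self _ he.ne'))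
    obtain ⟨i₀, hi₀, hone, hsmall⟩ :=
      phi_prime_pow hk hC hG hcomp hp e z hz (Or.inr hpa)
    set Φ : ℕ → ℂ := fun i => phi f z (p ^ e) (p ^ i) a with hΦ
    set s := (p : ℝ) ^ (-(1 / (2 * G) : ℝ)) with hs
    have hs0 : 0 < s := by have := hp.pos; positivity
    have hsr : s ≤ ratio G := rpow_le_ratio hp.two_le
    have hsP : s ≤ (P : ℝ) ^ (-(1 / (2 * G) : ℝ)) :=
      Real.rpow_le_rpow_of_nonpos (by exact_mod_cast hP) (by exact_mod_cast hPp)
        (neg_nonpos.2 (by positivity))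
    set ρ := (p : ℝ) ^ (-(1 / G : ℝ)) with hρ
    have hρs : ρ = s * s := rpow_sq_eq hp.pos
    have hψ : ∀ i, psi f z (p ^ e) a (p ^ i) = Φ i - (if i = 0 then 0 else Φ (i - 1)) := by
      intro i
      rcases i with - | i
      · simp [psi, hΦ]
      rw [if_neg (Nat.succ_ne_zero i), Nat.add_sub_cancel, psi_eq, Nat.sum_divisors_prime_pow hp,
        sum_range_succ', sum_range_succ', sum_eq_zero fun j _ => ?_]
      · have e1 : p ^ (i + 1) / p = p ^ i := by rw [pow_succ, Nat.mul_div_cancel _ hp.pos]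
        simp only [zero_add, pow_one, pow_zero, Nat.div_one, e1, hΦ,
          ArithmeticFunction.moebius_apply_prime hp, ArithmeticFunction.moebius_apply_one,
          Int.cast_neg, Int.cast_one]
        ring
      · rw [ArithmeticFunction.moebius_apply_prime_pow hp (by omega), if_neg (by omega)]
        simp
    have hcard : ((p ^ e).primeFactors.card : ℝ) = 1 := by
      rw [Nat.primeFactors_prime_pow he.ne' hp]; simp
    rw [hcard, one_mul]
    constructor
    · have hfull : full f z G (p ^ e) a = ∑ i ∈ range (e + 1), (pw s e i : ℂ) * Φ i := by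
        rw [full, Nat.sum_divisors_prime_pow hp, ← pw_abel]
        refine sum_congr rfl fun i _ => ?_
        rw [hψ, hs, Nat.cast_pow, ← Real.rpow_natCast, ← Real.rpow_mul (Nat.cast_nonneg _),
          mul_comm ((i : ℕ) : ℝ), Real.rpow_mul (Nat.cast_nonneg _), Real.rpow_natCast]
      rw [hfull]
      refine ((series_near hs0 (hsr.trans hr.le) (by positivity)
        (by rw [hρs]; exact mul_le_mul_of_nonneg_right hsr hs0.le) hr (Nat.cast_nonneg C) Φ i₀ e
        hone hsmall fun i => norm_phi_le _ _ _ _ _).1 hi₀).mono ?_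
      rw [show ρ / s = s by rw [hρs]; field_simp, hη, gain,
        show (C : ℝ) * s / (1 - ratio G) = C / (1 - ratio G) * s by ring]
      have h0 : (0 : ℝ) ≤ C / (1 - ratio G) * s :=
        mul_nonneg (div_nonneg (Nat.cast_nonneg C) (by linarith)) hs0.le
      have h1 : (C : ℝ) / (1 - ratio G) * s ≤
          C / (1 - ratio G) * (P : ℝ) ^ (-(1 / (2 * G) : ℝ)) :=
        mul_le_mul_of_nonneg_left hsP (div_nonneg (Nat.cast_nonneg C) (by linarith))
      nlinarith
    · refine le_trans ?_ (Real.add_one_le_exp η)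
      rw [lamt, Nat.sum_divisors_prime_pow hp, sum_range_succ']
      simp only [hψ, if_pos, Nat.succ_ne_zero, if_false, Nat.add_sub_cancel, sub_zero]
      have hsum : ∑ i ∈ range i₀, ‖Φ i‖ ≤ C * (ρ / (1 - ratio G)) := by
        refine (sum_le_sum fun i hi => hsmall i (mem_range.1 hi)).trans ?_
        rw [← mul_sum]
        have hρr : ρ ≤ ratio G := by
          rw [hρs]; exact (mul_le_of_le_one_right hs0.le (hsr.trans hr.le)).trans hsr
        refine mul_le_mul_of_nonneg_left ((geom_tail (by positivity) (hρr.trans_lt hr) _).trans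
          (div_le_div_of_nonneg_left (by positivity) (by linarith) (by linarith))) (Nat.cast_nonneg C)
      have hdiff : ∑ i ∈ range e, ‖Φ (i + 1) - Φ i‖ ≤
          ∑ i ∈ range i₀, (‖Φ (i + 1)‖ + ‖Φ i‖) := by
        rw [← sum_subset (range_subset_range.2 hi₀) fun i _ hi => by
          have : i₀ ≤ i := by simpa using hi
          simp only [hΦ]; rw [hone i this, hone (i + 1) (by omega), sub_self, norm_zero]]
        exact sum_le_sum fun i _ => norm_sub_le _ _
      have htop : ∑ i ∈ range i₀, ‖Φ (i + 1)‖ + ‖Φ 0‖ = ∑ i ∈ range i₀, ‖Φ i‖ + 1 := by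
        rw [← sum_range_succ' (fun i => ‖Φ i‖), sum_range_succ, show Φ i₀ = 1 from hone i₀ le_rfl, norm_one]
      rw [sum_add_distrib] at hdiff
      refine (add_le_add hdiff le_rfl).trans ?_
      have hρP : C * (ρ / (1 - ratio G)) ≤ gain C G * (P : ℝ) ^ (-(1 / (2 * G) : ℝ)) := by
        rw [gain, div_mul_eq_mul_div, mul_div_assoc']
        refine div_le_div_of_nonneg_right (mul_le_mul_of_nonneg_left ?_ (Nat.cast_nonneg C))
          (by linarith)
        rw [hρs]
        exact (mul_le_of_le_one_right hs0.le (hsr.trans hr.le)).trans hsP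
      rw [hη]
      linarith
  | coprime q r hq hr' hqr ihq ihr =>
    intro _ hfac z a hz ha
    have : NeZero q := ⟨by omega⟩
    have : NeZero r := ⟨by omega⟩
    obtain ⟨u, v, huv⟩ := Nat.isCoprime_iff_coprime.2 hqr
    have ha' : a = a * v * r + a * u * q := by linear_combination (-a) * huv
    rw [Nat.cast_mul] at ha hz
    have hv : IsCoprime (a * v) (q : ℤ) :=
      ha.of_mul_right_left.mul_left ⟨r, u, by linarith⟩
    have hu : IsCoprime (a * u) (r : ℤ) :=
      ha.of_mul_right_right.mul_left ⟨q, v, by linarith⟩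
    rw [hqr.primeFactors_mul] at hfac ⊢
    obtain ⟨h1, h1'⟩ := ihq (by omega) (fun p hp => hfac p (mem_union_left _ hp)) z _
      (dvd_trans (dvd_mul_right _ _) hz) hv
    obtain ⟨h2, h2'⟩ := ihr (by omega) (fun p hp => hfac p (mem_union_right _ hp)) z _
      (dvd_trans (dvd_mul_left _ _) hz) hu
    rw [card_union_of_disjoint hqr.disjoint_primeFactors, Nat.cast_add, add_mul, ha']
    have hmul : ∀ x ∈ q.divisors, ∀ y ∈ r.divisors,
        psi f z (q * r) (a * v * r + a * u * q) (x * y) =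
          psi f z q (a * v) x * psi f z r (a * u) y := fun x hx y hy =>
      psi_mul f z hqr (Nat.dvd_of_mem_divisors hx) (Nat.dvd_of_mem_divisors hy) _ _
    constructor
    · convert h1.mul h2 using 1
      rw [full, Odd.sum_divisors_coprime (NeZero.ne q) (NeZero.ne r) hqr, full, full, sum_mul_sum]
      refine sum_congr rfl fun x hx => sum_congr rfl fun y hy => ?_
      rw [hmul x hx y hy, Nat.cast_mul, Real.mul_rpow (Nat.cast_nonneg _) (Nat.cast_nonneg _)]
      push_cast
      ring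
    · rw [Real.exp_add]
      refine le_trans (le_of_eq ?_) (mul_le_mul h1' h2' (sum_nonneg fun _ _ => norm_nonneg _)
        (Real.exp_pos _).le)
      rw [lamt, Odd.sum_divisors_coprime (NeZero.ne q) (NeZero.ne r) hqr, lamt, lamt, sum_mul_sum]
      exact sum_congr rfl fun x hx => sum_congr rfl fun y hy => by rw [hmul x hx y hy, norm_mul]

lemma exists_split (P : ℕ) : ∀ q : ℕ, 0 < q → ∃ q₁ q₂, q = q₁ * q₂ ∧ q₁.Coprime q₂ ∧
    (∀ p ∈ q₁.primeFactors, p < P) ∧ ∀ p ∈ q₂.primeFactors, P ≤ p := by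
  intro q
  induction q using Nat.recOnPosPrimePosCoprime with
  | zero => intro h; omega
  | one => exact fun _ => ⟨1, 1, rfl, Nat.coprime_one_left 1, by simp, by simp⟩
  | prime_pow p e hp he =>
    intro _
    rcases lt_or_ge p P with h | h
    · exact ⟨p ^ e, 1, (mul_one _).symm, Nat.coprime_one_right _,
        by simpa [Nat.primeFactors_prime_pow he.ne' hp] using h, by simp⟩
    · exact ⟨1, p ^ e, (one_mul _).symm, Nat.coprime_one_left _, by simp,
        by simpa [Nat.primeFactors_prime_pow he.ne' hp] using h⟩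
  | coprime q r hq hr hqr ihq ihr =>
    intro _
    obtain ⟨a, b, rfl, hab, ha, hb⟩ := ihq (by omega)
    obtain ⟨c, d, rfl, hcd, hc, hd⟩ := ihr (by omega)
    have hac : a.Coprime c :=
      (hqr.coprime_dvd_left (dvd_mul_right a b)).coprime_dvd_right (dvd_mul_right c d)
    have had : a.Coprime d :=
      (hqr.coprime_dvd_left (dvd_mul_right a b)).coprime_dvd_right (dvd_mul_left d c)
    have hbc : b.Coprime c :=
      (hqr.coprime_dvd_left (dvd_mul_left b a)).coprime_dvd_right (dvd_mul_right c d)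
    have hbd : b.Coprime d :=
      (hqr.coprime_dvd_left (dvd_mul_left b a)).coprime_dvd_right (dvd_mul_left d c)
    refine ⟨a * c, b * d, by ring,
      Nat.Coprime.mul_left (Nat.Coprime.mul_right hab had) (Nat.Coprime.mul_right hbc.symm hcd),
      ?_, ?_⟩
    · rw [hac.primeFactors_mul]
      exact fun p hp => (mem_union.1 hp).elim (ha p) (hc p)
    · rw [hbd.primeFactors_mul]
      exact fun p hp => (mem_union.1 hp).elim (hb p) (hd p)

end Vale.Agent.P042.Gen
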